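import Vale.Agent.P131.Lift

/-!
P131: algebra of `lift` and of the normalised trace.
-/

open Matrix
open scoped Kronecker

namespace Vale.Agent.P131

variable {M : ℕ → ℕ} {n k l : ℕ}

theorem lift_apply (h : n ≤ k) (a : Mat M n) (x y : Cfg M k) :
    lift h a x y = if (split h x).2 = (split h y).2 then a (split h x).1 (split h y).1 else 0 := by
  simp [lift, Matrix.one_apply]

theorem lift_one (h : n ≤ k) : lift h (1 : Mat M n) = 1 := by
  rw [lift, one_kronecker_one, submatrix_one_equiv]

theorem lift_mul (h : n ≤ k) (a b : Mat M n) : lift h (a * b) = lift h a * lift h b := by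
  rw [lift, lift, lift, submatrix_mul_equiv, ← mul_kronecker_mul, one_mul]

theorem lift_conjTranspose (h : n ≤ k) (a : Mat M n) : lift h aᴴ = (lift h a)ᴴ := by
  rw [lift, lift, conjTranspose_submatrix, conjTranspose_kronecker, conjTranspose_one]

theorem lift_add (h : n ≤ k) (a b : Mat M n) : lift h (a + b) = lift h a + lift h b := by
  rw [lift, lift, lift, add_kronecker]; rfl

theorem lift_smul (h : n ≤ k) (c : ℂ) (a : Mat M n) : lift h (c • a) = c • lift h a := by
  rw [lift, lift, smul_kronecker]; rfl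

theorem lift_self (a : Mat M n) : lift (le_refl n) a = a := by
  ext x y
  rw [lift_apply, if_pos]
  · rfl
  · funext i
    exact absurd i.2 (not_le.mpr i.1.2)

theorem card_cfg_pos (M : ℕ → ℕ) (n : ℕ) : 0 < Fintype.card (Cfg M n) := Fintype.card_pos

theorem ntr_one {X : Type} [Fintype X] [DecidableEq X] [Nonempty X] :
    ntr (1 : Matrix X X ℂ) = 1 := by
  simp [ntr]

theorem ntr_mul_comm {X : Type} [Fintype X] (a b : Matrix X X ℂ) : ntr (a * b) = ntr (b * a) := by
  rw [ntr, ntr, trace_mul_comm]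

theorem fn2_conjTranspose {X : Type} [Fintype X] (a : Matrix X X ℂ) : fn2 aᴴ = fn2 a := by
  rw [fn2, fn2, conjTranspose_conjTranspose, ntr_mul_comm]

theorem fn2_eq_sum {X : Type} [Fintype X] (a : Matrix X X ℂ) :
    fn2 a = (∑ x, ∑ y, ‖a x y‖ ^ 2) / (Fintype.card X : ℝ) := by
  have : (aᴴ * a).trace = ((∑ x, ∑ y, ‖a x y‖ ^ 2 : ℝ) : ℂ) := by
    simp only [Matrix.trace, Matrix.diag_apply, Matrix.mul_apply, conjTranspose_apply]
    rw [Finset.sum_comm]
    push_cast
    refine Finset.sum_congr rfl fun x _ => Finset.sum_congr rfl fun y _ => ?_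
    rw [Complex.star_def, Complex.conj_mul']
  rw [fn2, ntr, this]
  simp [-Complex.ofReal_pow]

end Vale.Agent.P131
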