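import Vale.Agent.P131.Choice

/-!
P131: assembly of the modules.
-/

open Matrix Filter Topology
open scoped InnerProductSpace InnerProduct

namespace Vale.Agent.P131

variable {M : ℕ → ℕ} {H : Type} [NormedAddCommGroup H] [InnerProductSpace ℂ H] [CompleteSpace H]
variable {S : Model M H} {P : H →L[ℂ] H}

theorem lift_siteN {n k : ℕ} (h : n ≤ k) (i : Fin n) :
    lift h (siteN (fun j : Fin n => M j) i) = siteN (fun j : Fin k => M j) (Fin.castLE h i) := by
  rw [siteN_eq, siteN_eq, lift_sum]
  exact Finset.sum_congr rfl fun a _ => lift_siteU h i _ _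

theorem siteN_conjTranspose {n : ℕ} (m : Fin n → ℕ) (i : Fin n) : (siteN m i)ᴴ = siteN m i := by
  simp [siteN_eq, conjTranspose_sum, siteU_conjTranspose]

/-- If the orbit bound tends to `0`, then `P` commutes with every bit projection. -/
theorem commute_siteN (hP : Hyp S P) (K : ℕ → ℝ)
    (hK : ∀ R, FiniteProp (fun k : Fin R => M k) (K R))
    (hsum : ∀ R k, (|K R| + 3) * ∑ j ∈ Finset.Ico R k, 4 / Real.sqrt (M j + 1) ≤
      8 * (16 : ℝ)⁻¹ ^ R)
    (hpinch : PinchStmt S P) (horbit : OrbitStmt S P) (n : ℕ) (i : Fin n) :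
    Commute P (S.L n (siteN (fun k : Fin n => M k) i)) := by
  set N := S.L n (siteN (fun k : Fin n => M k) i) with hN
  set f : ℕ → ℝ := fun R => Real.sqrt ((R.choose (R / 2) : ℝ) / 2 ^ R) + 3 / (R + 1) +
    8 * (16 : ℝ)⁻¹ ^ R with hf
  have hf0 : Tendsto f atTop (𝓝 0) := by
    have e1 : Tendsto (fun R : ℕ => Real.sqrt ((R.choose (R / 2) : ℝ) / 2 ^ R)) atTop (𝓝 0) := by
      have h := (Real.continuous_sqrt.tendsto 0).comp tendsto_choose_half
      rw [Real.sqrt_zero] at h
      exact h
    have e2 : Tendsto (fun R : ℕ => (3 : ℝ) / (R + 1)) atTop (𝓝 0) := by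
      simpa [div_eq_mul_inv] using
        ((tendsto_one_div_add_atTop_nhds_zero_nat (𝕜 := ℝ)).const_mul 3)
    have e3 : Tendsto (fun R : ℕ => 8 * (16 : ℝ)⁻¹ ^ R) atTop (𝓝 0) := by
      simpa using (tendsto_pow_atTop_nhds_zero_of_lt_one (by norm_num : (0 : ℝ) ≤ 16⁻¹)
        (by norm_num)).const_mul 8
    simpa [hf] using (e1.add e2).add e3
  have hb : ∀ R, n ≤ R → ‖(1 - P) (N (P S.Ω))‖ ≤ f R := by
    intro R hR
    have hpos : 0 < |K R| + 3 := by positivity
    have h := horbit R (K R) (8 * (16 : ℝ)⁻¹ ^ R / (|K R| + 3)) (hK R)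
      (fun k hk => (hpinch R k hk).trans (by
        rw [le_div_iff₀ hpos, mul_comm]; exact hsum R k)) (Fin.castLE hR i)
    rw [← lift_siteN hR, S.L_lift, mul_div_cancel₀ _ hpos.ne'] at h
    exact h
  have h0 : (1 - P) (N (P S.Ω)) = 0 := by
    refine norm_le_zero_iff.1 (ge_of_tendsto hf0 ?_)
    filter_upwards [eventually_ge_atTop n] with R hR using hb R hR
  have hc : ∀ k a, Commute ((1 - P) * N * P) (S.R k a) := fun k a =>
    (((Commute.one_left _).sub_left (hP.commute_R k a)).mul_left
      (S.L_commute_R n k _ a)).mul_left (hP.commute_R k a)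
  have h1 : (1 - P) * N * P = 0 :=
    S.eq_of_apply_Ω hc (fun k a => Commute.zero_left _) (by simpa using h0)
  have e1 : P * N * P = N * P := by
    rw [sub_mul, sub_mul, one_mul] at h1
    exact (sub_eq_zero.1 h1).symm
  have e2 := congrArg star e1
  have hNs : N† = N := by rw [hN, S.L_adjoint, siteN_conjTranspose]
  simp only [star_mul, ContinuousLinearMap.star_eq_adjoint, hNs, hP.adj] at e2
  rw [← mul_assoc] at e2
  exact e2.symm.trans e1

theorem T_ne_smul (S : Model M H) (c : ℂ) : S.T ≠ c • 1 := by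
  intro hT
  set n0 := siteN (fun j : Fin 1 => M j) 0
  set V := siteT (fun j : Fin 1 => M j) 0 with hV
  have key : ∀ k, 1 ≤ k →
      S.L 1 n0 * S.L k (levelT (fun j : Fin k => M j)) -
        S.L k (levelT (fun j : Fin k => M j)) * S.L 1 n0 =
      S.L 1 (n0 * V - V * n0) := by
    intro k hk
    induction k, hk using Nat.le_induction with
    | base =>
      rw [← S.L_mul, ← S.L_mul, ← S.L_sub]
      rw [show levelT (fun j : Fin 1 => M j) = V by rw [levelT, Fin.sum_univ_one]]
    | succ k hk ih =>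
      rw [Model.lift_levelT, S.L_add, S.L_lift, ← ih, mul_add, add_mul]
      have : Commute (S.L 1 n0) (S.L (k + 1) (siteT (fun j : Fin (k + 1) => M j) (Fin.last k))) := by
        rw [← S.L_lift 1 (k + 1) (by omega), Commute, SemiconjBy, ← S.L_mul, ← S.L_mul, siteT_eq]
        congr 1
        exact (Commute.sum_right _ _ _ fun a _ =>
          (lift_commute_siteU _ _ _ (by simpa using hk) _ _).smul_right _).eq
      rw [this.eq]
      abel
  have hlim : S.L 1 n0 * S.T - S.T * S.L 1 n0 = S.L 1 (n0 * V - V * n0) := by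
    refine tendsto_nhds_unique (((tendsto_const_nhds (x := S.L 1 n0)).mul
      S.tendsto_L_levelT).sub (S.tendsto_L_levelT.mul (tendsto_const_nhds (x := S.L 1 n0)))) ?_
    refine tendsto_const_nhds.congr' ?_
    filter_upwards [eventually_ge_atTop 1] with k hk using (key k hk).symm
  rw [hT, mul_smul_comm, smul_mul_assoc, mul_one, one_mul, sub_self] at hlim
  have h2 : fn2 (n0 * V - V * n0) = 0 := by
    rw [← S.norm_sq_ι, ← S.L_Ω, ← hlim]
    simp
  rw [fn2_eq_sum, div_eq_zero_iff] at h2
  rcases h2 with h2 | h2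
  · have hx := (Finset.sum_eq_zero_iff_of_nonneg fun x _ =>
      Finset.sum_nonneg fun y _ => sq_nonneg _).1 h2 (fun _ => (true, 0)) (Finset.mem_univ _)
    have hy := (Finset.sum_eq_zero_iff_of_nonneg fun y _ => sq_nonneg _).1 hx (fun _ => (false, 0))
      (Finset.mem_univ _)
    simp [n0, hV, Matrix.sub_apply, siteN, siteT, Matrix.diagonal_mul, Matrix.mul_diagonal, wt,
      funext_iff] at hy
  · exact Fintype.card_ne_zero (by exact_mod_cast h2)

end Vale.Agent.P131
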