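import Mathlib

/-!
P131 (hyperinvariant subspace problem): basic definitions for the counterexample.

Site `k` has configurations `Bool × Fin (M k + 1)` (a bit and a grid value). Level `n` matrices
are matrices over `Cfg M n`; `lift` is `a ↦ a ⊗ 1`.
-/

open Matrix
open scoped Kronecker InnerProductSpace

namespace Vale.Agent.P131

/-- The configurations of site `k`. -/
abbrev Site (M : ℕ → ℕ) (k : ℕ) : Type := Bool × Fin (M k + 1)

/-- Configurations of `n` sites with grid sizes `m k + 1`. -/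
abbrev FCfg {n : ℕ} (m : Fin n → ℕ) : Type := ∀ k : Fin n, Bool × Fin (m k + 1)

/-- The configurations of the first `n` sites. -/
abbrev Cfg (M : ℕ → ℕ) (n : ℕ) : Type := FCfg (fun k : Fin n => M k)

/-- Square matrices over the first `n` sites. -/
abbrev Mat (M : ℕ → ℕ) (n : ℕ) : Type := Matrix (Cfg M n) (Cfg M n) ℂ

/-- The configurations of the sites `n ≤ i < k`. -/
abbrev Tail (M : ℕ → ℕ) (n k : ℕ) : Type := ∀ i : {i : Fin k // n ≤ (i : ℕ)}, Site M i.1

/-- Splitting a configuration of the first `k` sites at `n`. -/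
def split {M : ℕ → ℕ} {n k : ℕ} (h : n ≤ k) : Cfg M k ≃ Cfg M n × Tail M n k where
  toFun x := (fun i => x (Fin.castLE h i), fun i => x i.1)
  invFun p := fun i => if hi : (i : ℕ) < n then p.1 ⟨i, hi⟩ else p.2 ⟨i, not_lt.mp hi⟩
  left_inv x := by
    funext i
    by_cases hi : (i : ℕ) < n
    · simp [hi]
    · simp [hi]
  right_inv p := by
    refine Prod.ext (funext fun i => ?_) (funext fun i => ?_)
    · have hi : ((Fin.castLE h i : Fin k) : ℕ) < n := by simp
      simp
    · obtain ⟨i, hi⟩ := i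
      simp [not_lt.mpr hi]

/-- `a ↦ a ⊗ 1` from level `n` to level `k`. -/
def lift {M : ℕ → ℕ} {n k : ℕ} (h : n ≤ k) (a : Mat M n) : Mat M k :=
  (a ⊗ₖ (1 : Matrix (Tail M n k) (Tail M n k) ℂ)).submatrix (split h) (split h)

/-- The normalised trace. -/
noncomputable def ntr {X : Type} [Fintype X] (a : Matrix X X ℂ) : ℂ :=
  a.trace / (Fintype.card X : ℂ)

/-- The squared normalised Hilbert-Schmidt norm. -/
noncomputable def fn2 {X : Type} [Fintype X] (a : Matrix X X ℂ) : ℝ := (ntr (aᴴ * a)).re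

/-- The weight of site `k` at grid value `a`. -/
noncomputable def wt (k a : ℕ) : ℂ := ((2 : ℂ)⁻¹) ^ (k + a)

/-- `w k • V k` at level `n`: raises the bit of site `k`, keeps the grid value. -/
noncomputable def siteT {n : ℕ} (m : Fin n → ℕ) (k : Fin n) : Matrix (FCfg m) (FCfg m) ℂ :=
  Matrix.of fun x' x =>
    if (x k).1 = false ∧ x' = Function.update x k (true, (x k).2) then
      wt k (x k).2 else 0

/-- The operator of the first `n` sites. -/
noncomputable def levelT {n : ℕ} (m : Fin n → ℕ) : Matrix (FCfg m) (FCfg m) ℂ :=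
  ∑ k, siteT m k

/-- The projection on `bit i = false` at level `n`. -/
noncomputable def siteN {n : ℕ} (m : Fin n → ℕ) (i : Fin n) : Matrix (FCfg m) (FCfg m) ℂ :=
  Matrix.diagonal fun x => if (x i).1 = false then 1 else 0

/-- The sum of the absolute values of the entries. -/
noncomputable def esum {X : Type} [Fintype X] (a : Matrix X X ℂ) : ℝ := ∑ x, ∑ y, ‖a x y‖

/-- The finite lemma with its constant: `n i (1 - F) v` is nearly in the orbit of `v` under
two-sided multiplication by the commutant on the left, with a bound on the multipliers. -/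
def FiniteStmt : Prop :=
  ∀ (R : ℕ) (m : Fin R → ℕ), ∃ K : ℝ, ∀ (i : Fin R) (v : Matrix (FCfg m) (FCfg m) ℂ),
    ∃ (F : Matrix (FCfg m) (FCfg m) ℂ)
      (s : List (Matrix (FCfg m) (FCfg m) ℂ × Matrix (FCfg m) (FCfg m) ℂ)),
      Fᴴ = F ∧ F * F = F ∧ (ntr F).re ≤ (R.choose (R / 2) : ℝ) / 2 ^ R ∧
      (∀ p ∈ s, Commute p.1 (levelT m)) ∧
      (s.map fun p => esum p.1 * esum p.2).sum ≤ K ∧
      fn2 ((s.map fun p => p.1 * v * p.2).sum - siteN m i * (v - F * v)) ≤
        fn2 v / (R + 1) ^ 2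

/-- The GNS space of the infinite tensor product of the matrix algebras, with the left and
right actions of every level. -/
structure Model (M : ℕ → ℕ) (H : Type) [NormedAddCommGroup H] [InnerProductSpace ℂ H]
    [CompleteSpace H] where
  /-- The embedding of level `n`. -/
  ι : ∀ n, Mat M n →ₗ[ℂ] H
  /-- Left multiplication. -/
  L : ∀ n, Mat M n → H →L[ℂ] H
  /-- Right multiplication. -/
  R : ∀ n, Mat M n → H →L[ℂ] H
  inner_ι : ∀ n (a b : Mat M n), ⟪ι n a, ι n b⟫_ℂ = ntr (aᴴ * b)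
  ι_lift : ∀ n k (h : n ≤ k) (a : Mat M n), ι k (lift h a) = ι n a
  dense : Dense (⋃ n, Set.range (ι n))
  L_ι : ∀ n (a b : Mat M n), L n a (ι n b) = ι n (a * b)
  R_ι : ∀ n (a b : Mat M n), R n a (ι n b) = ι n (b * a)
  L_lift : ∀ n k (h : n ≤ k) (a : Mat M n), L k (lift h a) = L n a
  R_lift : ∀ n k (h : n ≤ k) (a : Mat M n), R k (lift h a) = R n a

/-- The construction statement: such a space exists on `ℓ²(ℕ)`. -/
def ModelStmt : Prop :=
  ∀ M : ℕ → ℕ, Nonempty (Model M (lp (fun _ : ℕ => ℂ) 2))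

/-- The result to prove: a nonscalar operator on `ℓ²(ℕ)` whose commutant is transitive. -/
def TargetStmt : Prop :=
  ∃ T : lp (fun _ : ℕ => ℂ) 2 →L[ℂ] lp (fun _ : ℕ => ℂ) 2, (∀ c : ℂ, T ≠ c • 1) ∧
    ∀ K : Submodule ℂ (lp (fun _ : ℕ => ℂ) 2), IsClosed (K : Set (lp (fun _ : ℕ => ℂ) 2)) →
      (∀ A : lp (fun _ : ℕ => ℂ) 2 →L[ℂ] lp (fun _ : ℕ => ℂ) 2, Commute A T →
        ∀ x ∈ K, A x ∈ K) → K = ⊥ ∨ K = ⊤

/-- Bit configurations. -/
abbrev Bits (R : ℕ) : Type := Fin R → Bool

/-- `∑ k, w k • V k` on the bit cube, `V k` raising bit `k` from `false` to `true`. -/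
noncomputable def cubeT {R : ℕ} (w : Fin R → ℂ) : Matrix (Bits R) (Bits R) ℂ :=
  ∑ k, Matrix.of fun b' b => if b k = false ∧ b' = Function.update b k true then w k else 0

/-- The projection on `bit i = false`. -/
noncomputable def cubeN {R : ℕ} (i : Fin R) : Matrix (Bits R) (Bits R) ℂ :=
  Matrix.diagonal fun b => if b i = false then 1 else 0

/-- The finite lemma: a subspace invariant under the commutant of `cubeT w` is invariant under
`cubeN i * cubeT w`, and the kernel of `cubeT w` is small. -/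
def CubeStmt : Prop :=
  ∀ (R : ℕ) (w : Fin R → ℂ), (∀ k, w k ≠ 0) →
    (∀ U : Submodule ℂ (Bits R → ℂ),
      (∀ Y : Matrix (Bits R) (Bits R) ℂ, Commute Y (cubeT w) → ∀ u ∈ U, Y *ᵥ u ∈ U) →
      ∀ i, ∀ u ∈ U, (cubeN i * cubeT w) *ᵥ u ∈ U) ∧
    Module.finrank ℂ (LinearMap.ker (cubeT w).mulVecLin) ≤ R.choose (R / 2)

end Vale.Agent.P131
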