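import Vale.Agent.P131.Setting

/-!
P131: choice of the grid sizes, and the two numerical limits.
-/

open Finset Filter Topology

namespace Vale.Agent.P131

variable (Kf : ∀ R : ℕ, (Fin R → ℕ) → ℝ)

/-- The grid sizes: `M R` dominates every finite-lemma constant of a level `S ≤ R`. -/
noncomputable def sizes : ℕ → ℕ
  | R => ⌈((16 : ℝ) ^ R * (3 + |Kf R fun k => sizes k| +
      ∑ S : Fin R, |Kf S fun k => sizes k|)) ^ 2⌉₊
termination_by R => R
decreasing_by
  · exact k.isLt
  · exact k.isLt.trans S.isLt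

theorem sizes_ge {S R : ℕ} (h : S ≤ R) :
    (16 : ℝ) ^ R * (3 + |Kf S fun k => sizes Kf k|) ≤ Real.sqrt (sizes Kf R + 1) := by
  refine Real.le_sqrt_of_sq_le ?_
  have h0 : |Kf S fun k => sizes Kf k| ≤ |Kf R fun k => sizes Kf k| +
      ∑ T : Fin R, |Kf T fun k => sizes Kf k| := by
    rcases h.lt_or_eq with h | rfl
    · exact le_add_of_nonneg_of_le (abs_nonneg _) (single_le_sum
        (f := fun T : Fin R => |Kf T fun k => sizes Kf k|) (fun T _ => abs_nonneg _)
        (mem_univ ⟨S, h⟩))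
    · exact le_add_of_nonneg_right (sum_nonneg fun T _ => abs_nonneg _)
  calc _ ≤ ((16 : ℝ) ^ R * (3 + |Kf R fun k => sizes Kf k| +
        ∑ T : Fin R, |Kf T fun k => sizes Kf k|)) ^ 2 := by
        refine pow_le_pow_left₀ (by positivity) ?_ 2
        exact mul_le_mul_of_nonneg_left (by linarith) (by positivity)
    _ ≤ _ := by
        conv_rhs => rw [sizes.eq_def]
        exact (Nat.le_ceil _).trans (le_add_of_nonneg_right zero_le_one)

theorem sum_sizes_le (R k : ℕ) :
    (|Kf R fun j => sizes Kf j| + 3) * ∑ j ∈ Ico R k, 4 / Real.sqrt (sizes Kf j + 1) ≤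
      8 * (16 : ℝ)⁻¹ ^ R := by
  rw [mul_sum]
  refine (sum_le_sum (g := fun j => 4 * (16 : ℝ)⁻¹ ^ j) fun j hj => ?_).trans ?_
  · have hge := sizes_ge Kf (mem_Ico.1 hj).1
    rw [← mul_div_assoc, div_le_iff₀ (Real.sqrt_pos.2 (by positivity))]
    calc (|Kf R fun i => sizes Kf i| + 3) * 4
        = 4 * (16 : ℝ)⁻¹ ^ j * ((16 : ℝ) ^ j * (3 + |Kf R fun i => sizes Kf i|)) := by
          rw [inv_pow]; field_simp; ring
      _ ≤ _ := mul_le_mul_of_nonneg_left hge (by positivity)
  · rw [← mul_sum, sum_Ico_eq_sum_range]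
    simp only [pow_add]
    rw [← mul_sum]
    have h1 : ∑ j ∈ range (k - R), (16 : ℝ)⁻¹ ^ j ≤ 2 := by
      refine (Summable.sum_le_tsum _ (fun a _ => by positivity)
        (summable_geometric_of_lt_one (by norm_num) (by norm_num))).trans ?_
      rw [tsum_geometric_of_lt_one (by norm_num) (by norm_num)]
      norm_num
    nlinarith [pow_nonneg (by norm_num : (0 : ℝ) ≤ 16⁻¹) R]

theorem centralBinom_sq_le (m : ℕ) :
    (Nat.centralBinom m : ℝ) ^ 2 * (2 * m + 1) ≤ 16 ^ m := by
  induction m with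
  | zero => simp [Nat.centralBinom]
  | succ m ih =>
    have e : ((m : ℝ) + 1) * Nat.centralBinom (m + 1) = 2 * (2 * m + 1) * Nat.centralBinom m := by
      exact_mod_cast Nat.succ_mul_centralBinom_succ m
    have hm : (0 : ℝ) < (m : ℝ) + 1 := by positivity
    have e' : (Nat.centralBinom (m + 1) : ℝ) = 2 * (2 * m + 1) * Nat.centralBinom m / (m + 1) := by
      rw [← e]; field_simp
    rw [e', pow_succ (16 : ℝ)]
    push_cast
    rw [div_pow, div_mul_eq_mul_div, div_le_iff₀ (by positivity)]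
    have key : (2 * (m : ℝ) + 1) * (2 * (m + 1) + 1) ≤ 4 * ((m : ℝ) + 1) ^ 2 := by nlinarith
    calc _ = 4 * ((Nat.centralBinom m : ℝ) ^ 2 * (2 * m + 1)) *
          ((2 * (m : ℝ) + 1) * (2 * (m + 1) + 1)) := by ring
      _ ≤ 4 * 16 ^ m * (4 * ((m : ℝ) + 1) ^ 2) :=
          mul_le_mul (by linarith) key (by positivity) (by positivity)
      _ = _ := by ring

theorem centralBinom_div_le (m : ℕ) :
    (Nat.centralBinom m : ℝ) / 4 ^ m ≤ 1 / Real.sqrt (2 * m + 1) := by
  rw [div_le_div_iff₀ (by positivity) (Real.sqrt_pos.2 (by positivity)), one_mul]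
  have h := Real.sqrt_le_sqrt (centralBinom_sq_le m)
  rw [Real.sqrt_mul' _ (by positivity), Real.sqrt_sq (Nat.cast_nonneg _),
    show (16 : ℝ) ^ m = (4 ^ m) ^ 2 by rw [← pow_mul, mul_comm, pow_mul]; norm_num,
    Real.sqrt_sq (by positivity)] at h
  exact h

theorem choose_half_div_le (R : ℕ) :
    (R.choose (R / 2) : ℝ) / 2 ^ R ≤ 1 / Real.sqrt (2 * (R / 2 : ℕ) + 1) := by
  refine le_trans ?_ (centralBinom_div_le (R / 2))
  set m := R / 2 with hm
  rcases Nat.mod_two_eq_zero_or_one R with h | h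
  · have hR : R = 2 * m := by omega
    rw [Nat.centralBinom_eq_two_mul_choose, hR, pow_mul]
    norm_num
  · have hR : R = 2 * m + 1 := by omega
    have hle : R.choose m ≤ 2 * Nat.centralBinom m := by
      rcases Nat.eq_zero_or_pos m with h0 | h0
      · simp [h0]
      · obtain ⟨l, hl⟩ : ∃ l, m = l + 1 := ⟨m - 1, by omega⟩
        rw [hR, hl, Nat.choose_succ_succ', two_mul (Nat.centralBinom _)]
        refine add_le_add ?_ ?_ <;>
          exact Nat.centralBinom_eq_two_mul_choose (l + 1) ▸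
            (Nat.choose_le_centralBinom _ _)
    have hle' : (R.choose m : ℝ) ≤ 2 * Nat.centralBinom m := by exact_mod_cast hle
    rw [show (2 : ℝ) ^ R = 2 * 4 ^ m by rw [hR, pow_succ, pow_mul]; norm_num; ring,
      div_le_div_iff₀ (by positivity) (by positivity)]
    nlinarith [pow_pos (by norm_num : (0 : ℝ) < 4) m]

theorem tendsto_choose_half :
    Tendsto (fun R : ℕ => (R.choose (R / 2) : ℝ) / 2 ^ R) atTop (𝓝 0) := by
  have h1 : Tendsto (fun R : ℕ => 1 / Real.sqrt (2 * (R / 2 : ℕ) + 1)) atTop (𝓝 0) := by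
    simp only [one_div]
    refine tendsto_inv_atTop_zero.comp (Real.tendsto_sqrt_atTop.comp ?_)
    refine tendsto_atTop_mono (f := fun R : ℕ => ((R : ℕ) : ℝ)) (fun R => ?_)
      tendsto_natCast_atTop_atTop
    have : R ≤ 2 * (R / 2) + 1 := by omega
    exact_mod_cast this
  exact tendsto_of_tendsto_of_tendsto_of_le_of_le tendsto_const_nhds h1
    (fun R => by positivity) choose_half_div_le

end Vale.Agent.P131
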