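import Vale.Agent.P131.Assembly

/-!
P131: the modules together give the target statement.
-/

namespace Vale.Agent.P131

theorem target_of (hmodel : ModelStmt) (hfinite : FiniteStmt)
    (hpinch : ∀ {M : ℕ → ℕ} (S : Model M (lp (fun _ : ℕ => ℂ) 2)) P, Hyp S P → PinchStmt S P)
    (horbit : ∀ {M : ℕ → ℕ} (S : Model M (lp (fun _ : ℕ => ℂ) 2)) P, Hyp S P → OrbitStmt S P)
    (hfinal : ∀ {M : ℕ → ℕ} (S : Model M (lp (fun _ : ℕ => ℂ) 2)) P, Hyp S P → FinalStmt S P) :
    TargetStmt := by
  choose Kf hKf using hfinite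
  obtain ⟨S⟩ := hmodel (sizes Kf)
  refine ⟨S.T, T_ne_smul S, fun K hK hinv => ?_⟩
  have : CompleteSpace K := hK.completeSpace_coe
  have hP : Hyp S K.starProjection := by
    refine ⟨(isSelfAdjoint_starProjection K).adjoint_eq,
      K.isIdempotentElem_starProjection.eq, fun A hA => ?_⟩
    ext1 x
    exact K.starProjection_eq_self_iff.2 (hinv A hA _ (K.starProjection_apply_mem x))
  have hK' := fun R => hKf R fun k : Fin R => sizes Kf k
  rcases hfinal S _ hP (fun n i => commute_siteN hP (fun R => Kf R fun k => sizes Kf k) hK'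
      (sum_sizes_le Kf) (hpinch S _ hP) (horbit S _ hP) n i) with h | h
  · left
    refine (Submodule.eq_bot_iff K).2 fun x hx => ?_
    have := K.starProjection_eq_self_iff.2 hx
    rw [h] at this
    simpa using this.symm
  · right
    refine eq_top_iff.2 fun x _ => K.starProjection_eq_self_iff.1 ?_
    rw [h]; rfl

end Vale.Agent.P131
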