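import Vale.Agent.P131.Setting

/-!
P131: a projection on a hyperinvariant subspace that commutes with every bit projection commutes
with every matrix unit that preserves the number of raised bits.
-/

open Matrix
open scoped InnerProductSpace InnerProduct

namespace Vale.Agent.P131.Final

section Finite

variable {n : ℕ} {m : Fin n → ℕ}

/-- The projection on the grid value `a` at site `i`. -/
noncomputable def gridP (m : Fin n → ℕ) (i : Fin n) (a : Fin (m i + 1)) :
    Matrix (FCfg m) (FCfg m) ℂ :=
  siteU m i (false, a) (false, a) + siteU m i (true, a) (true, a)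

theorem gridP_conj (i : Fin n) (a : Fin (m i + 1)) : (gridP m i a)ᴴ = gridP m i a := by
  rw [gridP, conjTranspose_add, siteU_conjTranspose, siteU_conjTranspose]

theorem gridP_commute (i : Fin n) (a : Fin (m i + 1)) : Commute (gridP m i a) (levelT m) := by
  rw [levelT]
  refine Commute.sum_right _ _ _ fun k _ => ?_
  rw [siteT_eq]
  refine Commute.sum_right _ _ _ fun b _ => Commute.smul_right ?_ _
  by_cases hk : i = k
  · subst hk
    rw [gridP]
    unfold Commute SemiconjBy
    rw [Matrix.add_mul, Matrix.mul_add]
    by_cases hb : b = a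
    · subst hb
      simp [siteU_mul, siteU_mul_of_ne]
    · simp [siteU_mul_of_ne, hb, Ne.symm hb]
  · exact Commute.add_left (siteU_commute hk _ _ _ _) (siteU_commute hk _ _ _ _)

theorem gridP_mul_siteN (i : Fin n) (a : Fin (m i + 1)) :
    gridP m i a * siteN m i = siteU m i (false, a) (false, a) := by
  rw [gridP, siteU_diag, siteU_diag, siteN, Matrix.diagonal_add, Matrix.diagonal_mul_diagonal]
  congr 1
  funext x
  rcases hx : x i with ⟨b, c⟩
  cases b <;> simp

/-- The image configuration of the twisted site permutation. -/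
def tgt (σ : Equiv.Perm (Fin n)) (x' z : FCfg m) : FCfg m :=
  fun j => ((z (σ.symm j)).1, (x' j).2)

/-- The twist of the site permutation. -/
noncomputable def twC (σ : Equiv.Perm (Fin n)) (x' x z : FCfg m) : ℂ :=
  ∏ k, if (z k).1 = true then wt (σ k) (x' (σ k)).2 / wt k (x k).2 else 1

/-- The twisted site permutation from the grid values of `x` to those of `x'`. -/
noncomputable def twY (σ : Equiv.Perm (Fin n)) (x' x : FCfg m) : Matrix (FCfg m) (FCfg m) ℂ :=
  Matrix.of fun z' z =>
    if (∀ k, (z k).2 = (x k).2) ∧ z' = tgt σ x' z then twC σ x' x z else 0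

theorem wt_ne_zero (k a : ℕ) : wt k a ≠ 0 := pow_ne_zero _ (by norm_num)

theorem twC_ne_zero (σ : Equiv.Perm (Fin n)) (x' x z : FCfg m) : twC σ x' x z ≠ 0 := by
  refine Finset.prod_ne_zero_iff.2 fun k _ => ?_
  split_ifs
  · exact div_ne_zero (wt_ne_zero _ _) (wt_ne_zero _ _)
  · exact one_ne_zero

theorem mul_siteT_apply (A : Matrix (FCfg m) (FCfg m) ℂ) (k : Fin n) (z' z : FCfg m) :
    (A * siteT m k) z' z = if (z k).1 = false then
      A z' (Function.update z k (true, (z k).2)) * wt k (z k).2 else 0 := by
  rw [Matrix.mul_apply, Finset.sum_eq_single (Function.update z k (true, (z k).2))]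
  · by_cases h : (z k).1 = false <;> simp [siteT, h]
  · intro w _ hw
    simp [siteT, hw]
  · simp

theorem siteT_mul_apply (A : Matrix (FCfg m) (FCfg m) ℂ) (k : Fin n) (z' z : FCfg m) :
    (siteT m k * A) z' z = if (z' k).1 = true then
      wt k (z' k).2 * A (Function.update z' k (false, (z' k).2)) z else 0 := by
  rw [Matrix.mul_apply, Finset.sum_eq_single (Function.update z' k (false, (z' k).2))]
  · by_cases h : (z' k).1 = true
    · have e : z' = Function.update z' k (true, (z' k).2) := by
        rw [← h, Prod.mk.eta, Function.update_eq_self]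
      simp [siteT, h, ← e]
    · have e : z' ≠ Function.update z' k (true, (z' k).2) := fun e => h (by
        rw [congrFun e k, Function.update_self])
      simp [siteT, h, e]
  · intro w _ hw
    simp only [siteT, Matrix.of_apply]
    rw [if_neg, zero_mul]
    rintro ⟨hb, e⟩
    apply hw
    rw [e, Function.update_idem, Function.update_self, ← hb, Prod.mk.eta, Function.update_eq_self]
  · simp

theorem tgt_update (σ : Equiv.Perm (Fin n)) (x' z : FCfg m) (k : Fin n) (b : Bool)
    (g : Fin (m k + 1)) :
    tgt σ x' (Function.update z k (b, g)) =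
      Function.update (tgt σ x' z) (σ k) (b, (x' (σ k)).2) := by
  funext j
  by_cases hj : j = σ k
  · subst hj
    rw [Function.update_self]
    refine Prod.ext ?_ rfl
    have e := congrArg (fun i => (Function.update z k (b, g) i).1) (σ.symm_apply_apply k)
    simpa [tgt] using e
  · have : σ.symm j ≠ k := fun e => hj (by rw [← e, Equiv.apply_symm_apply])
    simp [tgt, Function.update_of_ne hj, Function.update_of_ne this]

theorem twC_update (σ : Equiv.Perm (Fin n)) (x' x z : FCfg m) (k : Fin n)
    (h : (z k).1 = false) (g : Fin (m k + 1)) :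
    twC σ x' x (Function.update z k (true, g)) =
      wt (σ k) (x' (σ k)).2 / wt k (x k).2 * twC σ x' x z := by
  simp only [twC]
  rw [← Finset.mul_prod_erase _ _ (Finset.mem_univ k),
    ← Finset.mul_prod_erase _ _ (Finset.mem_univ k), Function.update_self, if_pos rfl,
    if_neg (by simp [h]), one_mul]
  congr 1
  refine Finset.prod_congr rfl fun j hj => ?_
  rw [Function.update_of_ne (Finset.ne_of_mem_erase hj)]

theorem twY_mul_siteT (σ : Equiv.Perm (Fin n)) (x' x : FCfg m) (k : Fin n) :
    twY σ x' x * siteT m k = siteT m (σ k) * twY σ x' x := by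
  ext z' z
  rw [mul_siteT_apply, siteT_mul_apply]
  simp only [twY, Matrix.of_apply]
  have hgrid : (∀ j, (Function.update z k (true, (z k).2) j).2 = (x j).2) ↔
      ∀ j, (z j).2 = (x j).2 := by
    refine forall_congr' fun j => ?_
    by_cases hj : j = k
    · subst hj; simp
    · rw [Function.update_of_ne hj]
  rw [tgt_update]
  by_cases hg : ∀ j, (z j).2 = (x j).2
  swap
  · simp only [hgrid, hg, false_and, if_false, mul_zero, zero_mul, ite_self]
  simp only [hgrid, eq_true hg, true_and]
  have hb : (tgt σ x' z (σ k)).1 = (z k).1 :=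
    congrArg (fun i => (z i).1) (σ.symm_apply_apply k)
  by_cases hc : (z k).1 = false ∧ z' = Function.update (tgt σ x' z) (σ k) (true, (x' (σ k)).2)
  · obtain ⟨h1, h2⟩ := hc
    have hs : z' (σ k) = (true, (x' (σ k)).2) := by rw [h2, Function.update_self]
    have h3 : Function.update z' (σ k) (false, (z' (σ k)).2) = tgt σ x' z := by
      rw [hs, h2, Function.update_idem]
      have : tgt σ x' z (σ k) = (false, (x' (σ k)).2) := Prod.ext (hb.trans h1) rfl
      rw [← this, Function.update_eq_self]
    rw [if_pos h1, if_pos h2, if_pos (congrArg Prod.fst hs), if_pos h3, twC_update σ x' x z k h1,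
      hg k, hs]
    field_simp [wt_ne_zero]
  · have hr : ¬ ((z' (σ k)).1 = true ∧
        Function.update z' (σ k) (false, (z' (σ k)).2) = tgt σ x' z) := by
      rintro ⟨h1, h2⟩
      have h3 := congrFun h2 (σ k)
      rw [Function.update_self] at h3
      have h4 : (z k).1 = false := hb.symm.trans (congrArg Prod.fst h3).symm
      have h5 : (z' (σ k)).2 = (x' (σ k)).2 :=
        (congrArg Prod.snd h3).trans (by simp [tgt])
      refine hc ⟨h4, ?_⟩
      rw [← h2, Function.update_idem, ← h5, ← h1, Prod.mk.eta, Function.update_eq_self]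
    simp only [ite_mul, mul_ite, zero_mul, mul_zero, ← ite_and]
    rw [if_neg hc, if_neg hr]

theorem twY_commute (σ : Equiv.Perm (Fin n)) (x' x : FCfg m) :
    Commute (twY σ x' x) (levelT m) := by
  unfold Commute SemiconjBy
  rw [levelT, Matrix.mul_sum, Matrix.sum_mul]
  exact Fintype.sum_equiv σ _ _ fun k => twY_mul_siteT σ x' x k

theorem single_twY_single (σ : Equiv.Perm (Fin n)) (x' x : FCfg m)
    (h : ∀ k, (x' (σ k)).1 = (x k).1) :
    Matrix.single x' x' (1 : ℂ) * twY σ x' x * Matrix.single x x (1 : ℂ) =
      twC σ x' x x • Matrix.single x' x (1 : ℂ) := by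
  have e : tgt σ x' x = x' := by
    funext j
    have := h (σ.symm j)
    rw [Equiv.apply_symm_apply] at this
    simp [tgt, ← this]
  rw [Matrix.single_mul_mul_single]
  simp [twY, e]

end Finite

variable {M : ℕ → ℕ} {H : Type} [NormedAddCommGroup H] [InnerProductSpace ℂ H] [CompleteSpace H]
variable {S : Model M H} {P : H →L[ℂ] H}

/-- Every bit projection commutes with `P`. -/
def ComN (S : Model M H) (P : H →L[ℂ] H) : Prop :=
  ∀ (n : ℕ) (i : Fin n), Commute P (S.L n (siteN (fun k : Fin n => M k) i))

theorem com_siteU (hP : Hyp S P) (hN : ComN S P) {n : ℕ} (i : Fin n)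
    (p : Bool × Fin (M i + 1)) :
    Commute P (S.L n (siteU (fun k : Fin n => M k) i p p)) := by
  obtain ⟨b, a⟩ := p
  have hc : Commute (gridP (fun k : Fin n => M k) i a) (levelT (fun k : Fin n => M k)) :=
    gridP_commute (m := fun k : Fin n => M k) i a
  have hj := gridP_conj (m := fun k : Fin n => M k) i a
  have hG : Commute P (S.L n (gridP (fun k : Fin n => M k) i a)) := by
    refine hP.commute_L hc ?_
    rw [hj]
    exact hc
  have hf : Commute P (S.L n (siteU (fun k : Fin n => M k) i (false, a) (false, a))) := by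
    rw [← gridP_mul_siteN, S.L_mul]
    exact hG.mul_right (hN n i)
  cases b
  · exact hf
  · have e : siteU (fun k : Fin n => M k) i (true, a) (true, a) =
        gridP (fun k : Fin n => M k) i a - siteU (fun k : Fin n => M k) i (false, a) (false, a) := by
      rw [gridP]; abel
    rw [e, S.L_sub]
    exact hG.sub_right hf

theorem com_atom (hP : Hyp S P) (hN : ComN S P) {n : ℕ} (x : Cfg M n) :
    Commute P (S.L n (Matrix.single x x (1 : ℂ))) := by
  have key : ∀ s : Finset (Fin n), Commute P
      (S.L n (Matrix.diagonal fun y => ∏ k ∈ s, if y k = x k then (1 : ℂ) else 0)) := by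
    intro s
    induction s using Finset.induction_on with
    | empty => simp [S.L_one]
    | @insert k s hk ih =>
      simp only [Finset.prod_insert hk]
      rw [← Matrix.diagonal_mul_diagonal, ← siteU_diag, S.L_mul]
      exact (com_siteU hP hN k (x k)).mul_right ih
  have e : Matrix.single x x (1 : ℂ) =
      Matrix.diagonal fun y => ∏ k, if y k = x k then (1 : ℂ) else 0 := by
    rw [← Matrix.diagonal_single]
    congr 1
    funext y
    by_cases h : y = x
    · subst h; simp
    · obtain ⟨k, hk⟩ := Function.ne_iff.1 h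
      rw [Pi.single_eq_of_ne h, Finset.prod_eq_zero (Finset.mem_univ k) (if_neg hk)]
  rw [e]
  exact key _

theorem inv_single (hP : Hyp S P) (hN : ComN S P) {n : ℕ} (σ : Equiv.Perm (Fin n))
    (x' x : Cfg M n) (h : ∀ k, (x' (σ k)).1 = (x k).1) :
    P * S.L n (Matrix.single x' x 1) * P = S.L n (Matrix.single x' x 1) * P := by
  have e : Matrix.single x' x (1 : ℂ) = (twC σ x' x x)⁻¹ •
      (Matrix.single x' x' (1 : ℂ) * twY σ x' x * Matrix.single x x (1 : ℂ)) := by
    rw [single_twY_single σ x' x h, inv_smul_smul₀ (twC_ne_zero _ _ _ _)]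
  rw [e, S.L_smul, S.L_mul, S.L_mul, mul_smul_comm, smul_mul_assoc, smul_mul_assoc]
  congr 1
  have h1 := hP.inv _ (S.commute_T (twY_commute σ x' x))
  have c1 := (com_atom hP hN x').eq
  have c2 := (com_atom hP hN x).eq
  generalize S.L n (Matrix.single x' x' (1 : ℂ)) = A at *
  generalize S.L n (Matrix.single x x (1 : ℂ)) = B at *
  generalize S.L n (twY σ x' x) = Y at *
  calc P * (A * Y * B) * P = (P * A) * Y * (B * P) := by noncomm_ring
    _ = A * (P * Y * P) * B := by rw [c1, ← c2]; noncomm_ring
    _ = A * (Y * P) * B := by rw [h1]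
    _ = A * Y * (P * B) := by noncomm_ring
    _ = A * Y * B * P := by rw [c2]; noncomm_ring

theorem com_single (hP : Hyp S P) (hN : ComN S P) {n : ℕ} (σ : Equiv.Perm (Fin n))
    (x' x : Cfg M n) (h : ∀ k, (x' (σ k)).1 = (x k).1) :
    Commute P (S.L n (Matrix.single x' x 1)) := by
  have e1 := inv_single hP hN σ x' x h
  have e2 := congrArg star (inv_single hP hN σ.symm x x' fun k => by
    have := h (σ.symm k)
    rw [Equiv.apply_symm_apply] at this
    exact this.symm)
  have ha : star (S.L n (Matrix.single x x' 1)) = S.L n (Matrix.single x' x 1) := by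
    rw [ContinuousLinearMap.star_eq_adjoint, S.L_adjoint, Matrix.conjTranspose_single, star_one]
  have hs : star P = P := by rw [ContinuousLinearMap.star_eq_adjoint, hP.adj]
  simp only [star_mul, hs, ha] at e2
  rw [← mul_assoc] at e2
  exact e2.symm.trans e1

end Vale.Agent.P131.Final
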