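import Vale.Agent.P131.Base

/-!
# P131: `lift` is a trace preserving unital star homomorphism, and norm bounds
-/

namespace Vale.Agent.P131

open Matrix Finset
open scoped Kronecker

variable {M : ℕ → ℕ}

theorem lift_entry {n k : ℕ} (h : n ≤ k) (a : Mat M n) (x y : Cfg M k) :
    lift h a x y =
      if (split h x).2 = (split h y).2 then a (split h x).1 (split h y).1 else 0 := by
  simp [lift, Matrix.one_apply, mul_ite]

theorem lift_refl' {n : ℕ} (h : n ≤ n) (a : Mat M n) : lift h a = a := by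
  ext x y
  rw [lift_entry, if_pos]
  · rfl
  · funext i
    exact absurd i.2 (not_le.2 i.1.isLt)

theorem lift_lift {n m k : ℕ} (h : n ≤ m) (h' : m ≤ k) (a : Mat M n) :
    lift h' (lift h a) = lift (h.trans h') a := by
  ext x y
  rw [lift_entry h', lift_entry h, lift_entry (h.trans h')]
  have key : (split (h.trans h') x).2 = (split (h.trans h') y).2 ↔
      (split h' x).2 = (split h' y).2 ∧
        (split h (split h' x).1).2 = (split h (split h' y).1).2 := by
    constructor
    · intro e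
      exact ⟨funext fun i => congrFun e ⟨i.1, h.trans i.2⟩,
        funext fun i => congrFun e ⟨Fin.castLE h' i.1, i.2⟩⟩
    · rintro ⟨e1, e2⟩
      funext i
      by_cases hi : m ≤ (i.1 : ℕ)
      · exact congrFun e1 ⟨i.1, hi⟩
      · exact congrFun e2 ⟨⟨i.1, not_le.1 hi⟩, i.2⟩
  by_cases hh : (split (h.trans h') x).2 = (split (h.trans h') y).2
  · rw [if_pos hh, if_pos (key.1 hh).1, if_pos (key.1 hh).2]
    rfl
  · rw [if_neg hh]
    split_ifs with h1 h2
    · exact absurd (key.2 ⟨h1, h2⟩) hh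
    · rfl
    · rfl

theorem lift_add' {n k : ℕ} (h : n ≤ k) (a b : Mat M n) :
    lift h (a + b) = lift h a + lift h b := by
  ext x y
  simp only [Matrix.add_apply, lift_entry]
  split_ifs <;> simp

theorem lift_smul' {n k : ℕ} (h : n ≤ k) (c : ℂ) (a : Mat M n) :
    lift h (c • a) = c • lift h a := by
  ext x y
  simp only [Matrix.smul_apply, lift_entry]
  split_ifs <;> simp

/-- `lift` as a linear map. -/
def liftL {n k : ℕ} (h : n ≤ k) : Mat M n →ₗ[ℂ] Mat M k where
  toFun := lift h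
  map_add' := lift_add' h
  map_smul' := lift_smul' h

theorem lift_mul' {n k : ℕ} (h : n ≤ k) (a b : Mat M n) :
    lift h (a * b) = lift h a * lift h b := by
  unfold lift
  rw [Matrix.submatrix_mul_equiv, ← Matrix.mul_kronecker_mul, Matrix.one_mul]

theorem lift_conj' {n k : ℕ} (h : n ≤ k) (a : Mat M n) : (lift h a)ᴴ = lift h aᴴ := by
  unfold lift
  rw [Matrix.conjTranspose_submatrix, Matrix.conjTranspose_kronecker, Matrix.conjTranspose_one]

theorem lift_transpose' {n k : ℕ} (h : n ≤ k) (a : Mat M n) : (lift h a)ᵀ = lift h aᵀ := by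
  ext x y
  simp only [Matrix.transpose_apply, lift_entry, eq_comm]

theorem ntr_submatrix_equiv {X Y : Type} [Fintype X] [Fintype Y] (e : X ≃ Y)
    (a : Matrix Y Y ℂ) : ntr (a.submatrix e e) = ntr a := by
  unfold ntr
  rw [Fintype.card_congr e]
  congr 1
  simp only [Matrix.trace, Matrix.diag, Matrix.submatrix_apply]
  exact e.sum_comp fun i => a i i

theorem ntr_lift' {n k : ℕ} (h : n ≤ k) (a : Mat M n) : ntr (lift h a) = ntr a := by
  unfold lift
  rw [ntr_submatrix_equiv]
  unfold ntr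
  have : Nonempty (Tail M n k) := ⟨fun _ => (false, 0)⟩
  have hne : (Fintype.card (Tail M n k) : ℂ) ≠ 0 := Nat.cast_ne_zero.2 Fintype.card_ne_zero
  rw [Matrix.trace_kronecker, Matrix.trace_one, Fintype.card_prod, Nat.cast_mul,
    mul_div_mul_right _ _ hne]

/-- Squared Frobenius sum. -/
noncomputable def nsq {α β : Type*} [Fintype α] [Fintype β] (x : Matrix α β ℂ) : ℝ :=
  ∑ i, ∑ k, ‖x i k‖ ^ 2

/-- `K` bounds the square of the operator norm of `a`. -/
def BB {α : Type*} [Fintype α] (a : Matrix α α ℂ) (K : ℝ) : Prop :=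
  ∀ v : α → ℂ, ∑ i, ‖(a *ᵥ v) i‖ ^ 2 ≤ K * ∑ i, ‖v i‖ ^ 2

theorem nsq_nonneg {α β : Type*} [Fintype α] [Fintype β] (x : Matrix α β ℂ) : 0 ≤ nsq x :=
  Finset.sum_nonneg fun _ _ => Finset.sum_nonneg fun _ _ => sq_nonneg _

theorem nsq_transpose {α β : Type*} [Fintype α] [Fintype β] (x : Matrix α β ℂ) :
    nsq xᵀ = nsq x := by
  simp only [nsq, Matrix.transpose_apply]
  exact Finset.sum_comm

theorem nsq_mul_le {α : Type*} [Fintype α] {a : Matrix α α ℂ} {K : ℝ} (h : BB a K)
    (x : Matrix α α ℂ) : nsq (a * x) ≤ K * nsq x := by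
  simp only [nsq]
  rw [Finset.sum_comm (f := fun i k => ‖(a * x) i k‖ ^ 2),
    Finset.sum_comm (f := fun i k => ‖x i k‖ ^ 2), Finset.mul_sum]
  refine Finset.sum_le_sum fun k _ => ?_
  simpa [Matrix.mulVec, dotProduct, Matrix.mul_apply] using h (fun i => x i k)

theorem nsq_mul_right_le {α : Type*} [Fintype α] {a : Matrix α α ℂ} {K : ℝ} (h : BB aᵀ K)
    (x : Matrix α α ℂ) : nsq (x * a) ≤ K * nsq x := by
  rw [← nsq_transpose (x * a), Matrix.transpose_mul, ← nsq_transpose x]
  exact nsq_mul_le h _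

theorem bb_nsq {α : Type*} [Fintype α] (a : Matrix α α ℂ) : BB a (nsq a) := by
  intro v
  simp only [nsq, Finset.sum_mul]
  refine Finset.sum_le_sum fun i _ => ?_
  calc ‖(a *ᵥ v) i‖ ^ 2 ≤ (∑ k, ‖a i k‖ * ‖v k‖) ^ 2 := by
        refine pow_le_pow_left₀ (norm_nonneg _) ?_ 2
        simp only [Matrix.mulVec, dotProduct]
        exact (norm_sum_le _ _).trans (le_of_eq (by simp))
    _ ≤ (∑ k, ‖a i k‖ ^ 2) * ∑ k, ‖v k‖ ^ 2 := Finset.sum_mul_sq_le_sq_mul_sq _ _ _
    _ = _ := by rw [Finset.sum_mul]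

theorem bb_lift {n k : ℕ} (h : n ≤ k) {a : Mat M n} {K : ℝ} (ha : BB a K) :
    BB (lift h a) K := by
  intro v
  rw [← (split h).symm.sum_comp, ← (split h).symm.sum_comp (fun p => ‖v p‖ ^ 2),
    Fintype.sum_prod_type_right, Fintype.sum_prod_type_right, Finset.mul_sum]
  refine Finset.sum_le_sum fun t _ => ?_
  have : ∀ i, (lift h a *ᵥ v) ((split h).symm (i, t)) =
      (a *ᵥ fun b => v ((split h).symm (b, t))) i := by
    intro i
    simp only [Matrix.mulVec, dotProduct]
    rw [← (split h).symm.sum_comp, Fintype.sum_prod_type_right, Finset.sum_eq_single t]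
    · simp [lift_entry]
    · intro s _ hs
      simp [lift_entry, Ne.symm hs]
    · simp
  simp only [this]
  exact ha _

theorem ntr_conj_mul {X : Type} [Fintype X] (a b : Matrix X X ℂ) :
    ntr (aᴴ * b) = (∑ x, ∑ y, star (a x y) * b x y) / (Fintype.card X : ℂ) := by
  unfold ntr
  congr 1
  simp only [Matrix.trace, Matrix.diag, Matrix.mul_apply, Matrix.conjTranspose_apply]
  exact Finset.sum_comm

theorem fn2_eq_nsq {X : Type} [Fintype X] (a : Matrix X X ℂ) :
    fn2 a = nsq a / (Fintype.card X : ℝ) := by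
  rw [fn2, ntr_conj_mul, ← Complex.ofReal_natCast, Complex.div_ofReal_re]
  congr 1
  simp [nsq, Complex.sq_norm, Complex.normSq_apply, Complex.mul_re]

theorem card_cfg_gt (M : ℕ → ℕ) (n : ℕ) : n < Fintype.card (Cfg M n) := by
  have h : Fintype.card (Fin n → Bool) ≤ Fintype.card (Cfg M n) := by
    refine Fintype.card_le_of_injective (fun b k => (b k, 0)) ?_
    intro b c e
    funext k
    exact congrArg Prod.fst (congrFun e k)
  have : n < 2 ^ n := Nat.lt_two_pow_self
  rw [Fintype.card_fun, Fintype.card_bool, Fintype.card_fin] at h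
  omega

end Vale.Agent.P131
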