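import Vale.Agent.P131.Space
import Vale.Agent.P131.Lift

/-!
# P131: the GNS space of the infinite tensor product on `ℓ²(ℕ)`

`model : ModelStmt` : for every `M` a `Model M (ℓ²(ℕ))` exists.
-/

namespace Vale.Agent.P131

open Matrix Finset Module
open scoped InnerProductSpace

variable {M : ℕ → ℕ}

/-- The normalised vectorisation of a level. -/
noncomputable def vecN (M : ℕ → ℕ) (n : ℕ) :
    Mat M n ≃ₗ[ℂ] EuclideanSpace ℂ (Cfg M n × Cfg M n) where
  toFun a := WithLp.toLp 2 fun p => a p.1 p.2 / (Real.sqrt (Fintype.card (Cfg M n)) : ℂ)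
  invFun v := Matrix.of fun x y => v (x, y) * (Real.sqrt (Fintype.card (Cfg M n)) : ℂ)
  map_add' a b := by
    ext p
    simp [add_div]
  map_smul' c a := by
    ext p
    simp [mul_div_assoc]
  left_inv a := by
    have hne : (Real.sqrt (Fintype.card (Cfg M n)) : ℂ) ≠ 0 := by
      rw [Complex.ofReal_ne_zero]
      exact (Real.sqrt_pos.2 (Nat.cast_pos.2 Fintype.card_pos)).ne'
    ext x y
    exact div_mul_cancel₀ (a x y) hne
  right_inv v := by
    have hne : (Real.sqrt (Fintype.card (Cfg M n)) : ℂ) ≠ 0 := by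
      rw [Complex.ofReal_ne_zero]
      exact (Real.sqrt_pos.2 (Nat.cast_pos.2 Fintype.card_pos)).ne'
    ext p
    exact mul_div_cancel_right₀ (v p) hne

theorem inner_vecN (n : ℕ) (a b : Mat M n) :
    ⟪vecN M n a, vecN M n b⟫_ℂ = ntr (aᴴ * b) := by
  rw [ntr_conj_mul, ← Fintype.sum_prod_type' (fun x y => star (a x y) * b x y), Finset.sum_div]
  rw [PiLp.inner_apply]
  refine Finset.sum_congr rfl fun p _ => ?_
  have hs : (Real.sqrt (Fintype.card (Cfg M n)) : ℂ) * (Real.sqrt (Fintype.card (Cfg M n)) : ℂ) =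
      (Fintype.card (Cfg M n) : ℂ) := by
    rw [← Complex.ofReal_mul, Real.mul_self_sqrt (Nat.cast_nonneg _), Complex.ofReal_natCast]
  simp only [vecN, LinearEquiv.coe_mk, LinearMap.coe_mk, AddHom.coe_mk, RCLike.inner_apply,
    map_div₀, Complex.conj_ofReal]
  rw [div_mul_div_comm, hs, mul_comm]
  rfl

/-- The step isometry of the chain. -/
noncomputable def stepI (M : ℕ → ℕ) (n : ℕ) :
    EuclideanSpace ℂ (Cfg M n × Cfg M n) →ₗᵢ[ℂ] EuclideanSpace ℂ (Cfg M (n + 1) × Cfg M (n + 1)) :=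
  (((vecN M (n + 1)).toLinearMap.comp (liftL (Nat.le_succ n))).comp
    (vecN M n).symm.toLinearMap).isometryOfInner <| by
    intro u v
    obtain ⟨a, rfl⟩ := (vecN M n).surjective u
    obtain ⟨b, rfl⟩ := (vecN M n).surjective v
    simp only [LinearMap.comp_apply, LinearEquiv.coe_coe, LinearEquiv.symm_apply_apply]
    rw [inner_vecN, inner_vecN]
    show ntr ((lift _ a)ᴴ * lift _ b) = _
    rw [lift_conj', ← lift_mul', ntr_lift']

theorem stepI_vecN (n : ℕ) (a : Mat M n) :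
    stepI M n (vecN M n a) = vecN M (n + 1) (lift (Nat.le_succ n) a) := by
  simp [stepI, liftL]

variable (M) in
/-- The embeddings of the levels. -/
theorem exists_levels :
    ∃ ι : ∀ n, Mat M n →ₗ[ℂ] HSp,
      (∀ n (a b : Mat M n), ⟪ι n a, ι n b⟫_ℂ = ntr (aᴴ * b)) ∧
      (∀ n k (h : n ≤ k) (a : Mat M n), ι k (lift h a) = ι n a) ∧
      Dense (⋃ n, Set.range (ι n)) := by
  obtain ⟨φ, hφ, hd⟩ := exists_chain (stepI M) (fun N => ⟨N, by
    rw [finrank_euclideanSpace, Fintype.card_prod]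
    exact lt_of_lt_of_le (card_cfg_gt M N)
      (Nat.le_mul_of_pos_left _ Fintype.card_pos)⟩)
  refine ⟨fun n => (φ n).toLinearMap.comp (vecN M n).toLinearMap, ?_, ?_, ?_⟩
  · intro n a b
    simp [inner_vecN]
  · intro n k h
    induction h with
    | refl => intro a; simp [lift_refl']
    | @step k h' ih =>
      intro a
      rw [← lift_lift h' (Nat.le_succ k)]
      simp only [LinearMap.comp_apply, LinearEquiv.coe_coe, LinearIsometry.coe_toLinearMap]
        at ih ⊢
      rw [← stepI_vecN, hφ, ih]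
  · refine hd.mono ?_
    intro y hy
    obtain ⟨n, v, rfl⟩ := Set.mem_iUnion.1 hy
    exact Set.mem_iUnion.2 ⟨n, (vecN M n).symm v, by simp⟩

section Ops

variable (ι : ∀ n, Mat M n →ₗ[ℂ] HSp)
  (hi : ∀ n (a b : Mat M n), ⟪ι n a, ι n b⟫_ℂ = ntr (aᴴ * b))
  (hl : ∀ n k (h : n ≤ k) (a : Mat M n), ι k (lift h a) = ι n a)
  (hd : Dense (⋃ n, Set.range (ι n)))

include hl hd in
theorem dense_from (n : ℕ) : Dense (⋃ d, Set.range (ι (n + d))) := by
  refine hd.mono ?_
  intro y hy
  obtain ⟨m, b, rfl⟩ := Set.mem_iUnion.1 hy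
  exact Set.mem_iUnion.2 ⟨m, lift (Nat.le_add_left m n) b, hl _ _ _ _⟩

include hi in
theorem norm_sq_ι (n : ℕ) (a : Mat M n) :
    ‖ι n a‖ ^ 2 = nsq a / (Fintype.card (Cfg M n) : ℝ) := by
  rw [← fn2_eq_nsq, fn2, ← hi, inner_self_eq_norm_sq_to_K (𝕜 := ℂ)]
  norm_cast

include hi in
theorem norm_ι_le (n : ℕ) {a b : Mat M n} {K : ℝ} (hK : 0 ≤ K) (h : nsq a ≤ K * nsq b) :
    ‖ι n a‖ ≤ Real.sqrt K * ‖ι n b‖ := by
  apply le_of_pow_le_pow_left₀ two_ne_zero (by positivity)
  rw [mul_pow, Real.sq_sqrt hK, norm_sq_ι ι hi, norm_sq_ι ι hi, ← mul_div_assoc]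
  gcongr

include hi hl hd in
theorem exists_left (n : ℕ) (a : Mat M n) :
    ∃ T : HSp →L[ℂ] HSp, ∀ k (h : n ≤ k) (b : Mat M k),
      T (ι k b) = ι k (lift h a * b) := by
  obtain ⟨T, hT, -⟩ := exists_chain_ext (V := fun d => Mat M (n + d)) (fun d => ι (n + d))
    (fun d => lift (Nat.le_succ (n + d))) (fun d b => hl _ _ _ _) (dense_from ι hl hd n)
    (fun d => (ι (n + d)).comp (LinearMap.mulLeft ℂ (lift (Nat.le_add_right n d) a)))
    (fun d b => by
      show ι (n + d + 1) (lift (Nat.le_add_right n (d + 1)) a * lift _ b) = _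
      rw [← lift_lift (Nat.le_add_right n d) (Nat.le_succ (n + d)), ← lift_mul', hl]
      rfl)
    (Real.sqrt (nsq a))
    (fun d b => norm_ι_le ι hi _ (nsq_nonneg a) (nsq_mul_le (bb_lift _ (bb_nsq a)) b))
  refine ⟨T, fun k h b => ?_⟩
  obtain ⟨d, rfl⟩ := Nat.exists_eq_add_of_le h
  exact hT d b

include hi hl hd in
theorem exists_right (n : ℕ) (a : Mat M n) :
    ∃ T : HSp →L[ℂ] HSp, ∀ k (h : n ≤ k) (b : Mat M k),
      T (ι k b) = ι k (b * lift h a) := by
  obtain ⟨T, hT, -⟩ := exists_chain_ext (V := fun d => Mat M (n + d)) (fun d => ι (n + d))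
    (fun d => lift (Nat.le_succ (n + d))) (fun d b => hl _ _ _ _) (dense_from ι hl hd n)
    (fun d => (ι (n + d)).comp (LinearMap.mulRight ℂ (lift (Nat.le_add_right n d) a)))
    (fun d b => by
      show ι (n + d + 1) (lift _ b * lift (Nat.le_add_right n (d + 1)) a) = _
      rw [← lift_lift (Nat.le_add_right n d) (Nat.le_succ (n + d)), ← lift_mul', hl]
      rfl)
    (Real.sqrt (nsq aᵀ))
    (fun d b => norm_ι_le ι hi _ (nsq_nonneg _) (nsq_mul_right_le
      (by rw [lift_transpose']; exact bb_lift _ (bb_nsq aᵀ)) b))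
  refine ⟨T, fun k h b => ?_⟩
  obtain ⟨d, rfl⟩ := Nat.exists_eq_add_of_le h
  exact hT d b

include hl hd in
theorem ext_levels (n : ℕ) {S T : HSp →L[ℂ] HSp}
    (h : ∀ k, n ≤ k → ∀ b : Mat M k, S (ι k b) = T (ι k b)) : S = T := by
  have : Set.EqOn S T (⋃ d, Set.range (ι (n + d))) := by
    intro y hy
    obtain ⟨d, b, rfl⟩ := Set.mem_iUnion.1 hy
    exact h _ (Nat.le_add_right n d) b
  exact DFunLike.coe_injective
    (Continuous.ext_on (dense_from ι hl hd n) S.continuous T.continuous this)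

end Ops

/-- The model exists on `ℓ²(ℕ)`. -/
theorem model : ModelStmt := by
  intro M
  obtain ⟨ι, hi, hl, hd⟩ := exists_levels M
  choose L hL using exists_left ι hi hl hd
  choose R hR using exists_right ι hi hl hd
  exact ⟨{
    ι := ι
    L := L
    R := R
    inner_ι := hi
    ι_lift := hl
    dense := hd
    L_ι := fun n a b => by rw [hL n a n le_rfl b, lift_refl']
    R_ι := fun n a b => by rw [hR n a n le_rfl b, lift_refl']
    L_lift := fun n k h a => ext_levels ι hl hd k fun m hm b => by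
      rw [hL k _ m hm b, hL n a m (h.trans hm) b, lift_lift]
    R_lift := fun n k h a => ext_levels ι hl hd k fun m hm b => by
      rw [hR k _ m hm b, hR n a m (h.trans hm) b, lift_lift] }⟩

end Vale.Agent.P131
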