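import Vale.Agent.P131.Base

/-!
P131: the operator `∑ k, w k • V k` on the bit cube. It has a basis of homogeneous chains, so a
subspace invariant under its commutant is graded by the number of zero bits and invariant under
`cubeN i * cubeT w`.
-/

open Matrix Finset

namespace Vale.Agent.P131.Cube

variable {R : ℕ}

/-- `w k • V k` on the bit cube. -/
noncomputable def cubeA (w : Fin R → ℂ) (k : Fin R) : Matrix (Bits R) (Bits R) ℂ :=
  Matrix.of fun b' b => if b k = false ∧ b' = Function.update b k true then w k else 0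

/-- The number of zero bits, as an operator. -/
noncomputable def cubeH (R : ℕ) : Matrix (Bits R) (Bits R) ℂ := ∑ k, cubeN k

/-- The number of zero bits. -/
def zeros (b : Bits R) : ℕ := ∑ k, if b k = false then 1 else 0

theorem cubeT_eq (w : Fin R → ℂ) : cubeT w = ∑ k, cubeA w k := rfl

theorem cubeA_apply (w : Fin R → ℂ) (k : Fin R) (u : Bits R → ℂ) (b : Bits R) :
    (cubeA w k *ᵥ u) b = if b k = true then w k * u (Function.update b k false) else 0 := by
  simp only [Matrix.mulVec, dotProduct, cubeA, Matrix.of_apply]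
  by_cases hb : b k = true
  · rw [if_pos hb, Finset.sum_eq_single (Function.update b k false)]
    · rw [if_pos ⟨by simp, by simp [← hb]⟩]
    · intro x _ hx
      rw [if_neg, zero_mul]
      rintro ⟨h1, h2⟩
      exact hx (by rw [h2, ← h1]; simp)
    · simp
  · rw [if_neg hb]
    refine Finset.sum_eq_zero fun x _ => ?_
    rw [if_neg, zero_mul]
    rintro ⟨h1, h2⟩
    exact hb (by simp [h2])

theorem cubeN_apply (k : Fin R) (u : Bits R → ℂ) (b : Bits R) :
    (cubeN k *ᵥ u) b = if b k = false then u b else 0 := by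
  rw [cubeN, Matrix.mulVec_diagonal]
  split_ifs <;> simp

theorem cubeH_apply (u : Bits R → ℂ) (b : Bits R) : (cubeH R *ᵥ u) b = (zeros b : ℂ) * u b := by
  simp only [cubeH, Matrix.sum_mulVec, Finset.sum_apply, cubeN_apply, zeros, Nat.cast_sum,
    Finset.sum_mul, Nat.cast_ite, Nat.cast_one, Nat.cast_zero, ite_mul, one_mul, zero_mul]

theorem cubeT_apply (w : Fin R → ℂ) (u : Bits R → ℂ) (b : Bits R) :
    (cubeT w *ᵥ u) b = ∑ k, if b k = true then w k * u (Function.update b k false) else 0 := by
  simp only [cubeT_eq, Matrix.sum_mulVec, Finset.sum_apply, cubeA_apply]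

theorem cubeA_comm (w : Fin R → ℂ) (k l : Fin R) : cubeA w k * cubeA w l = cubeA w l * cubeA w k := by
  rcases eq_or_ne k l with rfl | h
  · rfl
  refine Matrix.ext_of_mulVec_single fun j => funext fun b => ?_
  simp only [← Matrix.mulVec_mulVec, cubeA_apply, Function.update_of_ne h, Function.update_of_ne h.symm,
    Function.update_comm h]
  split_ifs <;> ring

theorem cubeN_comm_A (w : Fin R → ℂ) (k l : Fin R) :
    cubeN k * cubeA w l - cubeA w l * cubeN k = if k = l then -cubeA w l else 0 := by
  refine Matrix.ext_of_mulVec_single fun j => funext fun b => ?_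
  simp only [Matrix.sub_mulVec, Pi.sub_apply, ← Matrix.mulVec_mulVec, cubeA_apply, cubeN_apply]
  rcases eq_or_ne k l with rfl | h
  · rw [if_pos rfl, Matrix.neg_mulVec, Pi.neg_apply, cubeA_apply, Function.update_self]
    cases b k <;> simp
  · rw [if_neg h, Matrix.zero_mulVec, Pi.zero_apply, Function.update_of_ne h]
    split_ifs <;> simp

theorem cubeA_T (w : Fin R → ℂ) (i : Fin R) : Commute (cubeA w i) (cubeT w) := by
  rw [cubeT_eq]
  exact Commute.sum_right _ _ _ fun k _ => cubeA_comm w i k

theorem cubeN_T (w : Fin R → ℂ) (i : Fin R) :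
    cubeN i * cubeT w - cubeT w * cubeN i = -cubeA w i := by
  rw [cubeT_eq, Finset.mul_sum, Finset.sum_mul, ← Finset.sum_sub_distrib]
  simp only [cubeN_comm_A, Finset.sum_ite_eq, Finset.mem_univ, if_true]

theorem cubeH_T (w : Fin R → ℂ) : cubeH R * cubeT w - cubeT w * cubeH R = -cubeT w := by
  rw [cubeH, Finset.sum_mul, Finset.mul_sum, ← Finset.sum_sub_distrib]
  simp only [cubeN_T]
  rw [Finset.sum_neg_distrib, ← cubeT_eq]

/-- The element of the commutant behind the invariance. -/
theorem x_commute (w : Fin R → ℂ) (i : Fin R) :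
    Commute (cubeH R * cubeA w i - cubeN i * cubeT w) (cubeT w) := by
  have hA := (cubeA_T w i).eq
  have e1 := cubeH_T w
  have e2 := cubeN_T w i
  rw [sub_eq_iff_eq_add] at e1 e2
  show (cubeH R * cubeA w i - cubeN i * cubeT w) * cubeT w
    = cubeT w * (cubeH R * cubeA w i - cubeN i * cubeT w)
  rw [sub_mul, mul_sub, mul_assoc (cubeH R), hA, ← mul_assoc (cubeH R), e1,
    add_mul, ← mul_assoc (cubeT w) (cubeN i), e2]
  simp only [add_mul, neg_mul, mul_assoc, hA]
  abel

/-! ### Homogeneous chains -/

/-- Chains `v c 0 ↦ v c 1 ↦ ⋯ ↦ v c (len c) ↦ 0` of homogeneous vectors that form a basis. -/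
structure Chains (R : ℕ) (w : Fin R → ℂ) where
  /-- The chains. -/
  C : Type
  /-- There are finitely many. -/
  fin : Fintype C
  /-- The length of a chain. -/
  len : C → ℕ
  /-- The vectors of a chain. -/
  v : C → ℕ → (Bits R → ℂ)
  zero : ∀ c i, len c < i → v c i = 0
  step : ∀ c i, cubeT w *ᵥ v c i = v c (i + 1)
  hom : ∀ c i b, v c i b ≠ 0 → 2 * (zeros b + i) = R + len c
  card : (∑ c, (len c + 1)) = 2 ^ R
  span : ⊤ ≤ Submodule.span ℂ (Set.range fun p : C × ℕ => v p.1 p.2)

/-- `v ⊗ bit`, the new bit in front. -/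
def put (x : Bool) (v : Bits R → ℂ) (b : Bits (R + 1)) : ℂ := if b 0 = x then v (Fin.tail b) else 0

theorem put_lin (x : Bool) : IsLinearMap ℂ (put (R := R) x) :=
  ⟨fun u v => funext fun b => by simp only [put, Pi.add_apply]; split_ifs <;> simp,
    fun c u => funext fun b => by simp only [put, Pi.smul_apply]; split_ifs <;> simp⟩

theorem tail_update_zero (b : Bits (R + 1)) (x : Bool) : Fin.tail (Function.update b 0 x) = Fin.tail b :=
  Fin.tail_update_zero ..

theorem cubeT_put_false (w : Fin (R + 1) → ℂ) (u : Bits R → ℂ) :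
    cubeT w *ᵥ put false u = put false (cubeT (Fin.tail w) *ᵥ u) + w 0 • put true u := by
  funext b
  simp only [cubeT_apply, Pi.add_apply, Pi.smul_apply, smul_eq_mul, Fin.sum_univ_succ, put,
    Function.update_self, Fin.tail_update_zero, if_true]
  have e : ∀ k : Fin R, Function.update b k.succ false 0 = b 0 := fun k =>
    Function.update_of_ne (Fin.succ_ne_zero k).symm ..
  simp only [e, Fin.tail_update_succ]
  cases b 0 <;> simp [Fin.tail] <;> congr!

theorem cubeT_put_true (w : Fin (R + 1) → ℂ) (u : Bits R → ℂ) :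
    cubeT w *ᵥ put true u = put true (cubeT (Fin.tail w) *ᵥ u) := by
  funext b
  simp only [cubeT_apply, Fin.sum_univ_succ, put, Function.update_self]
  have e : ∀ k : Fin R, Function.update b k.succ false 0 = b 0 := fun k =>
    Function.update_of_ne (Fin.succ_ne_zero k).symm ..
  simp only [e, Fin.tail_update_succ]
  cases b 0 <;> simp [Fin.tail] <;> congr!

theorem zeros_succ (b : Bits (R + 1)) :
    zeros b = (if b 0 = false then 1 else 0) + zeros (Fin.tail b) := by
  simp only [zeros, Fin.sum_univ_succ]
  rfl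

/-- The base: one empty configuration. -/
noncomputable def Chains.base (w : Fin 0 → ℂ) : Chains 0 w where
  C := Unit
  fin := inferInstance
  len _ := 0
  v _ i := if i = 0 then fun _ => 1 else 0
  zero _ i h := if_neg (by omega)
  step _ i := by
    funext b
    rw [cubeT_apply]
    simp
  hom _ i b h := by
    by_cases hi : i = 0
    · simp [zeros, hi]
    · rw [if_neg hi] at h; exact absurd rfl h
  card := by simp
  span u _ := by
    have e : u = u default • (fun p : Unit × ℕ => if p.2 = 0 then (fun _ : Bits 0 => (1 : ℂ)) else 0) ((), 0) := by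
      funext b; simp [Subsingleton.elim b default]
    rw [e]
    exact Submodule.smul_mem _ _ (Submodule.subset_span ⟨((), 0), rfl⟩)

/-- One more bit: every chain splits in a longer and a shorter one. -/
noncomputable def Chains.cons {w : Fin (R + 1) → ℂ} (hw : w 0 ≠ 0) (d : Chains R (Fin.tail w)) :
    Chains (R + 1) w where
  C := d.C ⊕ {c : d.C // 0 < d.len c}
  fin := by have := d.fin; infer_instance
  len := Sum.elim (fun c => d.len c + 1) fun c => d.len c.1 - 1
  v := Sum.elim
    (fun c i => put false (d.v c i) + ((i : ℂ) * w 0) • put true (d.v c (i - 1)))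
    fun c i => put false (d.v c.1 (i + 1)) - (((d.len c.1 - i : ℕ) : ℂ) * w 0) • put true (d.v c.1 i)
  zero := by
    rintro (c | c) i hi
    · simp only [Sum.elim_inl] at hi ⊢
      rw [d.zero c i (by omega), d.zero c (i - 1) (by omega), (put_lin false).map_zero,
        (put_lin true).map_zero]
      simp
    · simp only [Sum.elim_inr] at hi ⊢
      have := c.2
      rw [d.zero c.1 (i + 1) (by omega), show d.len c.1 - i = 0 by omega, (put_lin false).map_zero]
      simp
  step := by
    rintro (c | c) i
    · simp only [Sum.elim_inl, Matrix.mulVec_add, Matrix.mulVec_smul, cubeT_put_false, cubeT_put_true,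
        d.step]
      rcases Nat.eq_zero_or_pos i with rfl | hi
      · simp
      · rw [show i - 1 + 1 = i by omega, add_tsub_cancel_right, add_assoc, ← add_smul]
        congr 2
        push_cast; ring
    · simp only [Sum.elim_inr, Matrix.mulVec_sub, Matrix.mulVec_smul, cubeT_put_false, cubeT_put_true,
        d.step]
      rcases lt_or_ge i (d.len c.1) with hi | hi
      · rw [show (d.len c.1 - i) = (d.len c.1 - (i + 1)) + 1 by omega, add_sub_assoc, sub_eq_add_neg (put false _),
          ← neg_smul, ← sub_smul]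
        congr 2
        push_cast; ring
      · rw [d.zero c.1 (i + 1) (by omega), (put_lin true).map_zero]
        simp
  hom := by
    rintro (c | c) i b h
    · simp only [Sum.elim_inl, Pi.add_apply, Pi.smul_apply, smul_eq_mul, put] at h ⊢
      rw [zeros_succ]
      cases hb : b 0
      · simp only [hb, if_true, Bool.false_eq_true, if_false, mul_zero, add_zero] at h ⊢
        have := d.hom c i _ h
        omega
      · simp only [hb, Bool.true_eq_false, if_false, if_true, zero_add] at h ⊢
        have h1 : i ≠ 0 := fun h0 => by simp [h0] at h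
        have := d.hom c (i - 1) _ (right_ne_zero_of_mul h)
        omega
    · simp only [Sum.elim_inr, Pi.sub_apply, Pi.smul_apply, smul_eq_mul, put] at h ⊢
      rw [zeros_succ]
      have := c.2
      cases hb : b 0
      · simp only [hb, if_true, Bool.false_eq_true, if_false, mul_zero, sub_zero] at h ⊢
        have := d.hom c.1 (i + 1) _ h
        omega
      · simp only [hb, Bool.true_eq_false, if_false, if_true, zero_sub, neg_ne_zero] at h ⊢
        have := d.hom c.1 i _ (right_ne_zero_of_mul h)
        omega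
  card := by
    let := d.fin
    rw [Fintype.sum_sum_type, pow_succ, ← d.card]
    have e : ∑ c : {c : d.C // 0 < d.len c}, (d.len c.1 - 1 + 1) = ∑ c, d.len c := by
      rw [← Finset.sum_filter_of_ne (p := fun c => 0 < d.len c) (s := univ) (f := d.len)
        (fun c _ h => Nat.pos_of_ne_zero h), Finset.sum_subtype (p := fun c => 0 < d.len c) _
        (fun c => by simp) (fun c => d.len c)]
      exact Finset.sum_congr rfl fun c _ => by have := c.2; omega
    simp only [Sum.elim_inl, Sum.elim_inr, e, Finset.sum_add_distrib]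
    omega
  span := by
    let := d.fin
    set S : Submodule ℂ (Bits (R + 1) → ℂ) := Submodule.span ℂ (Set.range fun p :
      (d.C ⊕ {c : d.C // 0 < d.len c}) × ℕ => Sum.elim
        (fun c i => put false (d.v c i) + ((i : ℂ) * w 0) • put true (d.v c (i - 1)))
        (fun c i => put false (d.v c.1 (i + 1)) - (((d.len c.1 - i : ℕ) : ℂ) * w 0) • put true (d.v c.1 i))
        p.1 p.2)
    have hL : ∀ c i, put false (d.v c i) + ((i : ℂ) * w 0) • put true (d.v c (i - 1)) ∈ S :=
      fun c i => Submodule.subset_span ⟨(Sum.inl c, i), rfl⟩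
    have hS : ∀ c i, 0 < d.len c →
        put false (d.v c (i + 1)) - (((d.len c - i : ℕ) : ℂ) * w 0) • put true (d.v c i) ∈ S :=
      fun c i h => Submodule.subset_span ⟨(Sum.inr ⟨c, h⟩, i), rfl⟩
    have h1 : ∀ c i, put true (d.v c i) ∈ S := fun c i => by
      rcases lt_or_ge (d.len c) i with hi | hi
      · rw [d.zero c i hi, (put_lin true).map_zero]; exact S.zero_mem
      have hl := hL c (i + 1)
      rw [add_tsub_cancel_right] at hl
      have key : (((d.len c + 1 : ℕ) : ℂ) * w 0) • put true (d.v c i) ∈ S := by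
        rcases hi.lt_or_eq with hi | rfl
        · convert S.sub_mem hl (hS c i (by omega)) using 1
          rw [add_sub_sub_cancel, ← add_smul, ← add_mul]
          congr 2
          rw [← Nat.cast_add]
          congr 1
          omega
        · rwa [d.zero c (d.len c + 1) (by omega), (put_lin false).map_zero, zero_add] at hl
      refine (S.smul_mem_iff ?_).1 key
      exact mul_ne_zero (Nat.cast_ne_zero.2 (by omega)) hw
    have h0 : ∀ c i, put false (d.v c i) ∈ S := fun c i => by
      have := S.sub_mem (hL c i) (S.smul_mem ((i : ℂ) * w 0) (h1 c (i - 1)))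
      rwa [add_sub_cancel_right] at this
    have hput : ∀ x u, put x u ∈ S := fun x u => by
      have hu : u ∈ (Submodule.span ℂ (Set.range fun p : d.C × ℕ => d.v p.1 p.2)) := d.span trivial
      refine Submodule.span_induction (p := fun u _ => put x u ∈ S) ?_ ?_ ?_ ?_ hu
      · rintro _ ⟨p, rfl⟩; cases x; exacts [h0 _ _, h1 _ _]
      · rw [(put_lin x).map_zero]; exact S.zero_mem
      · intro a b _ _ ha hb; rw [(put_lin x).map_add]; exact S.add_mem ha hb
      · intro a b _ hb; rw [(put_lin x).map_smul]; exact S.smul_mem a hb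
    intro u _
    have e : u = put false (fun b => u (Fin.cons false b)) + put true (fun b => u (Fin.cons true b)) := by
      funext b
      simp only [Pi.add_apply, put]
      conv_lhs => rw [← Fin.cons_self_tail b]
      cases b 0 <;> simp
    rw [e]
    exact S.add_mem (hput _ _) (hput _ _)

theorem chains_exist : ∀ (R : ℕ) (w : Fin R → ℂ), (∀ k, w k ≠ 0) → Nonempty (Chains R w)
  | 0, w, _ => ⟨Chains.base w⟩
  | R + 1, w, hw =>
    let ⟨d⟩ := chains_exist R (Fin.tail w) fun k => hw k.succ
    ⟨d.cons (hw 0)⟩

/-! ### The chain basis -/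

variable {w : Fin R → ℂ}

/-- The positions of the chain basis. -/
abbrev Chains.Pos (d : Chains R w) : Type := Σ c : d.C, Fin (d.len c + 1)

noncomputable instance (d : Chains R w) : Fintype d.Pos := by
  let := d.fin
  infer_instance

theorem Chains.card_pos (d : Chains R w) :
    Fintype.card d.Pos = Module.finrank ℂ (Bits R → ℂ) := by
  let := d.fin
  rw [Module.finrank_fintype_fun_eq_card, Fintype.card_sigma]
  simp only [Fintype.card_fin, Fintype.card_fun, Fintype.card_bool]
  convert d.card

theorem Chains.top_le (d : Chains R w) :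
    ⊤ ≤ Submodule.span ℂ (Set.range fun p : d.Pos => d.v p.1 p.2) := by
  refine d.span.trans (Submodule.span_le.2 ?_)
  rintro _ ⟨⟨c, i⟩, rfl⟩
  rcases lt_or_ge (d.len c) i with hi | hi
  · simp only [d.zero c i hi]; exact Submodule.zero_mem _
  · exact Submodule.subset_span ⟨⟨c, ⟨i, by omega⟩⟩, rfl⟩

/-- The chain basis. -/
noncomputable def Chains.basis (d : Chains R w) : Module.Basis d.Pos ℂ (Bits R → ℂ) :=
  basisOfTopLeSpanOfCardEqFinrank _ d.top_le d.card_pos

@[simp] theorem Chains.basis_apply (d : Chains R w) (p : d.Pos) : d.basis p = d.v p.1 p.2 := by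
  simp [Chains.basis]

theorem Chains.eigen (d : Chains R w) (c : d.C) (i : ℕ) :
    cubeH R *ᵥ d.v c i = ((((R + d.len c : ℕ) : ℂ) / 2) - i) • d.v c i := by
  funext b
  rw [cubeH_apply, Pi.smul_apply, smul_eq_mul]
  rcases eq_or_ne (d.v c i b) 0 with h | h
  · simp [h]
  · rw [← d.hom c i b h]
    push_cast; ring

open Classical in
/-- The projection on one chain. -/
noncomputable def Chains.proj (d : Chains R w) (c : d.C) : Matrix (Bits R) (Bits R) ℂ :=
  LinearMap.toMatrix' (d.basis.constr ℂ fun p => if p.1 = c then d.v p.1 p.2 else 0)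

open Classical in
theorem Chains.proj_apply (d : Chains R w) (c c' : d.C) (i : ℕ) :
    d.proj c *ᵥ d.v c' i = if c' = c then d.v c' i else 0 := by
  rcases lt_or_ge (d.len c') i with hi | hi
  · simp [d.zero c' i hi]
  · have h := d.basis_apply ⟨c', ⟨i, by omega⟩⟩
    simp only at h
    rw [← h, Chains.proj, LinearMap.toMatrix'_mulVec, Module.Basis.constr_basis, h]

theorem Chains.proj_comm (d : Chains R w) (c : d.C) : Commute (d.proj c) (cubeT w) := by
  classical
  apply Matrix.toLin'.injective
  refine d.basis.ext fun p => ?_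
  simp only [Matrix.toLin'_apply, Chains.basis_apply, ← Matrix.mulVec_mulVec, d.step, d.proj_apply]
  split_ifs <;> simp [d.step]

/-- A subspace invariant under the commutant is spanned by the basis vectors that occur in it. -/
theorem Chains.mem_of_coord (d : Chains R w) {U : Submodule ℂ (Bits R → ℂ)}
    (hU : ∀ Y : Matrix (Bits R) (Bits R) ℂ, Commute Y (cubeT w) → ∀ u ∈ U, Y *ᵥ u ∈ U)
    {u : Bits R → ℂ} (hu : u ∈ U) (p : d.Pos) (hp : d.basis.repr u p ≠ 0) : d.v p.1 p.2 ∈ U := by
  classical
  let := d.fin
  obtain ⟨c, i⟩ := p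
  set f : Fin (d.len c + 1) → ℂ := fun j => d.basis.repr u ⟨c, j⟩
  set z := d.proj c *ᵥ u
  have hz : z ∈ U := hU _ (d.proj_comm c) u hu
  have ez : z = ∑ j, f j • d.v c j := by
    have e : u = ∑ p : d.Pos, d.basis.repr u p • d.v p.1 p.2 := by
      conv_lhs => rw [← d.basis.sum_repr u]
      simp
    simp only [z]
    rw [e, Matrix.mulVec_sum, Fintype.sum_sigma]
    simp only [Matrix.mulVec_smul, d.proj_apply, smul_ite, smul_zero]
    rw [Finset.sum_eq_single c]
    · simp [f]
    · intro c' _ hc; simp [hc]
    · simp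
  have hT : ∀ j, ∑ l : Fin (d.len c + 1), f l • d.v c (l + j) ∈ U := fun j => by
    induction j with
    | zero => simpa [← ez] using hz
    | succ j ih =>
      have h := hU _ (Commute.refl _) _ ih
      simpa [Matrix.mulVec_sum, Matrix.mulVec_smul, d.step, add_assoc] using h
  obtain ⟨i0, hi0, hmin⟩ := (univ.filter fun j => f j ≠ 0).exists_min_image id
    ⟨i, mem_filter.2 ⟨mem_univ _, hp⟩⟩
  rw [mem_filter] at hi0
  suffices ∀ m l : ℕ, (i0 : ℕ) ≤ l → d.len c + 1 ≤ l + m → d.v c l ∈ U from
    this (d.len c + 1) i (hmin i (mem_filter.2 ⟨mem_univ _, hp⟩)) (by omega)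
  intro m
  induction m with
  | zero => intro l _ hl; rw [d.zero c l (by omega)]; exact U.zero_mem
  | succ m ih =>
    intro l hl hlm
    have h := hT (l - i0)
    rw [← Finset.add_sum_erase _ _ (mem_univ i0)] at h
    rw [show (i0 : ℕ) + (l - i0) = l by omega] at h
    have h' : ∑ x ∈ univ.erase i0, f x • d.v c (x + (l - i0)) ∈ U := U.sum_mem fun x hx => by
      rcases eq_or_ne (f x) 0 with hf | hf
      · simp [hf]
      · have h1 : (i0 : ℕ) ≤ x := hmin x (mem_filter.2 ⟨mem_univ _, hf⟩)
        have h2 : x ≠ i0 := by simpa using hx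
        have h3 : (x : ℕ) ≠ i0 := fun h => h2 (Fin.ext h)
        exact U.smul_mem _ (ih _ (by omega) (by omega))
    exact (U.smul_mem_iff hi0.2).1 ((U.add_mem_iff_left h').1 h)

/-- A subspace invariant under the commutant is graded. -/
theorem Chains.graded (d : Chains R w) {U : Submodule ℂ (Bits R → ℂ)}
    (hU : ∀ Y : Matrix (Bits R) (Bits R) ℂ, Commute Y (cubeT w) → ∀ u ∈ U, Y *ᵥ u ∈ U)
    {u : Bits R → ℂ} (hu : u ∈ U) : cubeH R *ᵥ u ∈ U := by
  rw [← d.basis.sum_repr u, Matrix.mulVec_sum]
  refine U.sum_mem fun p _ => ?_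
  rw [Matrix.mulVec_smul, Chains.basis_apply, d.eigen, smul_comm]
  rcases eq_or_ne (d.basis.repr u p) 0 with h | h
  · simp [h]
  · exact U.smul_mem _ (U.smul_mem _ (d.mem_of_coord hU hu p h))

/-- The kernel is at most as large as the number of chains. -/
theorem Chains.ker_le (d : Chains R w) :
    Module.finrank ℂ (LinearMap.ker (cubeT w).mulVecLin) ≤ @Fintype.card d.C d.fin := by
  classical
  let := d.fin
  set g : {p : d.Pos // (p.2 : ℕ) < d.len p.1} → d.Pos :=
    fun p => ⟨p.1.1, ⟨p.1.2 + 1, by have := p.2; omega⟩⟩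
  have hg : Function.Injective g := by
    rintro ⟨⟨c, i⟩, hi⟩ ⟨⟨c', i'⟩, hi'⟩ h
    simp only [g, Sigma.mk.injEq] at h
    obtain ⟨rfl, h⟩ := h
    simp only [heq_eq_eq, Fin.mk.injEq, add_left_inj] at h
    exact Subtype.ext (Sigma.ext rfl (heq_of_eq (Fin.ext h)))
  have hli : LinearIndependent ℂ fun p => d.v (g p).1 (g p).2 := by
    have h := d.basis.linearIndependent.comp g hg
    simpa [Function.comp_def] using h
  have hrange : Submodule.span ℂ (Set.range fun p => d.v (g p).1 (g p).2)
      ≤ LinearMap.range (cubeT w).mulVecLin := by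
    refine Submodule.span_le.2 ?_
    rintro _ ⟨p, rfl⟩
    exact ⟨d.v p.1.1 p.1.2, by simp [g, d.step]⟩
  have h1 := Submodule.finrank_mono hrange
  rw [finrank_span_eq_card hli] at h1
  have h2 := (cubeT w).mulVecLin.finrank_range_add_finrank_ker
  rw [← d.card_pos] at h2
  have h3 : Fintype.card {p : d.Pos // ¬ (p.2 : ℕ) < d.len p.1} ≤ Fintype.card d.C :=
    Fintype.card_le_of_injective (fun p => p.1.1) (fun p q h => by
      have e : ∀ p : {p : d.Pos // ¬ (p.2 : ℕ) < d.len p.1}, (p.1.2 : ℕ) = d.len p.1.1 := fun p => by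
        have := p.1.2.2
        have := p.2
        omega
      have hp := e p
      have hq := e q
      obtain ⟨⟨c, i⟩, _⟩ := p
      obtain ⟨⟨c', i'⟩, _⟩ := q
      change c = c' at h
      subst h
      exact Subtype.ext (Sigma.ext rfl (heq_of_eq (Fin.ext (hp.trans hq.symm)))))
  rw [Fintype.card_subtype_compl] at h3
  omega

theorem card_zeros (R j : ℕ) :
    (univ.filter fun b : Bits R => zeros b = j).card = R.choose j := by
  rw [show R.choose j = (powersetCard j (univ : Finset (Fin R))).card by simp]
  refine Finset.card_nbij' (fun b => univ.filter fun k => b k = false) (fun s k => decide (k ∉ s))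
    ?_ ?_ ?_ ?_
  · intro b hb
    simp only [coe_filter, Set.mem_ofPred_eq, mem_univ, true_and] at hb
    simp [mem_powersetCard, ← hb, zeros]
  · intro s hs
    simp only [mem_coe, mem_powersetCard] at hs
    simp [zeros, ← hs.2]
  · intro b _; funext k; cases h : b k <;> simp [h]
  · intro s _; ext k; simp

/-- There are at most as many chains as middle configurations. -/
theorem Chains.card_le (d : Chains R w) : @Fintype.card d.C d.fin ≤ R.choose (R / 2) := by
  classical
  let := d.fin
  rw [← card_zeros R (R - R / 2 : ℕ) |>.trans (Nat.choose_symm (Nat.div_le_self R 2))]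
  set B := {b : Bits R // zeros b = R - R / 2}
  by_cases h : Nonempty d.C
  swap
  · rw [not_nonempty_iff] at h; simp
  have hex : ∀ c, ∃ i : Fin (d.len c + 1), ∀ b, d.v c i b ≠ 0 → zeros b = R - R / 2 := fun c => by
    have hne : d.v c 0 ≠ 0 := by
      have := d.basis.ne_zero ⟨c, 0⟩
      simpa using this
    have hne' : d.v c (d.len c) ≠ 0 := by
      have := d.basis.ne_zero ⟨c, Fin.last _⟩
      simpa using this
    obtain ⟨b0, hb0⟩ := Function.ne_iff.1 hne
    have h0 := d.hom c 0 b0 hb0
    obtain ⟨b1, hb1⟩ := Function.ne_iff.1 hne'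
    have h1 := d.hom c (d.len c) b1 hb1
    refine ⟨⟨zeros b0 - (R - R / 2), by omega⟩, fun b hb => ?_⟩
    have := d.hom c _ b hb
    simp only at this
    omega
  choose i hi using hex
  have hli : LinearIndependent ℂ fun c => (fun b : B => d.v c (i c) b.1) := by
    rw [Fintype.linearIndependent_iff]
    intro g hg c
    have h := d.basis.linearIndependent.comp (fun c => (⟨c, i c⟩ : d.Pos))
      (fun a b h => congrArg Sigma.fst h)
    refine Fintype.linearIndependent_iff.1 h g ?_ c
    funext b
    by_cases hb : zeros b = R - R / 2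
    · simpa [Finset.sum_apply] using congrFun hg ⟨b, hb⟩
    · simp only [Function.comp_apply, Chains.basis_apply, Finset.sum_apply, Pi.smul_apply,
        Pi.zero_apply, smul_eq_mul]
      refine Finset.sum_eq_zero fun c _ => mul_eq_zero_of_right _ (not_not.1 fun h => hb (hi c b h))
  have := hli.fintype_card_le_finrank
  rwa [Module.finrank_fintype_fun_eq_card, Fintype.card_subtype] at this

end Vale.Agent.P131.Cube

namespace Vale.Agent.P131

open Vale.Agent.P131.Cube in
/-- The lemma on the bit cube. -/
theorem cube : CubeStmt := by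
  intro R w hw
  obtain ⟨d⟩ := chains_exist R w hw
  refine ⟨fun U hU i u hu => ?_, d.ker_le.trans d.card_le⟩
  have e : cubeN i * cubeT w = cubeH R * cubeA w i - (cubeH R * cubeA w i - cubeN i * cubeT w) := by
    abel
  rw [e, Matrix.sub_mulVec]
  refine U.sub_mem ?_ (hU _ (x_commute w i) u hu)
  rw [← Matrix.mulVec_mulVec]
  exact d.graded hU (hU _ (cubeA_T w i) u hu)

end Vale.Agent.P131
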