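import Vale.Agent.P131.Setting

/-!
P131: energy estimate and pinching of the tail sites.

The shift of the grid of site `i`, with weight `1/2` on `bit = true`, commutes with `T`. This
makes the projection on a hyperinvariant subspace nearly block diagonal in the bit of site `i`,
with an error `O((M i + 1) ^ (-1/2))`.
-/

open Matrix
open scoped InnerProductSpace InnerProduct

namespace Vale.Agent.P131

namespace Energy

variable {M : ℕ → ℕ} {H : Type} [NormedAddCommGroup H] [InnerProductSpace ℂ H] [CompleteSpace H]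

/-- The matrix unit at site `i` of level `n`. -/
noncomputable abbrev u {n : ℕ} (i : Fin n) (p q : Site M i) : Mat M n :=
  siteU (fun j : Fin n => M j) i p q

/-- The projection on `bit i = b`. -/
noncomputable def nb {n : ℕ} (i : Fin n) (b : Bool) : Mat M n :=
  ∑ a : Fin (M i + 1), u i (b, a) (b, a)

/-- The projection on grid value `a` at site `i`. -/
noncomputable def grid {n : ℕ} (i : Fin n) (a : Fin (M i + 1)) : Mat M n :=
  u i (false, a) (false, a) + u i (true, a) (true, a)

/-- The weighted shift from grid value `a` to `b`. -/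
noncomputable def shift {n : ℕ} (i : Fin n) (a b : Fin (M i + 1)) : Mat M n :=
  u i (false, b) (false, a) + (2 : ℂ)⁻¹ • u i (true, b) (true, a)

variable {n : ℕ} (i : Fin n)

theorem commute_levelT {A : Mat M n}
    (ho : ∀ l, l ≠ i → ∀ p q, Commute A (u l p q))
    (hi : Commute A (siteT (fun j : Fin n => M j) i)) :
    Commute A (levelT (fun j : Fin n => M j)) := by
  refine Commute.sum_right _ _ _ fun l _ => ?_
  rcases eq_or_ne l i with rfl | hl
  · exact hi
  · rw [siteT_eq]
    exact Commute.sum_right _ _ _ fun a _ => (ho l hl _ _).smul_right _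

theorem grid_commute_levelT (a : Fin (M i + 1)) :
    Commute (grid i a) (levelT (fun j : Fin n => M j)) := by
  refine commute_levelT i (fun l hl p q => ?_) ?_
  · exact (siteU_commute hl.symm _ _ _ _).add_left (siteU_commute hl.symm _ _ _ _)
  · rw [siteT_eq, Commute, SemiconjBy, Finset.mul_sum, Finset.sum_mul]
    refine Finset.sum_congr rfl fun c _ => ?_
    simp only [grid, Matrix.add_mul, Matrix.mul_add, Matrix.mul_smul, Matrix.smul_mul]
    rcases eq_or_ne c a with rfl | hc
    · simp [siteU_mul, siteU_mul_of_ne]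
    · simp [siteU_mul_of_ne, hc, hc.symm]

theorem grid_conjTranspose (a : Fin (M i + 1)) : (grid i a)ᴴ = grid (M := M) i a := by
  simp [grid, siteU_conjTranspose]

theorem shift_commute_levelT {a b : Fin (M i + 1)} (hab : (b : ℕ) = (a : ℕ) + 1) :
    Commute (shift i a b) (levelT (fun j : Fin n => M j)) := by
  refine commute_levelT i (fun l hl p q => ?_) ?_
  · exact (siteU_commute hl.symm _ _ _ _).add_left ((siteU_commute hl.symm _ _ _ _).smul_left _)
  · rw [siteT_eq, Commute, SemiconjBy, Finset.mul_sum, Finset.sum_mul]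
    rw [Finset.sum_eq_single a, Finset.sum_eq_single b]
    · simp only [shift, Matrix.add_mul, Matrix.mul_add, Matrix.mul_smul, Matrix.smul_mul]
      rw [siteU_mul, siteU_mul, siteU_mul_of_ne i (by simp), siteU_mul_of_ne i (by simp),
        smul_zero, smul_zero, zero_add, add_zero, smul_smul]
      congr 1
      rw [wt, wt, hab, ← add_assoc, pow_succ]
    · intro c _ hc
      simp only [shift, Matrix.mul_add, Matrix.mul_smul, Matrix.smul_mul]
      simp [siteU_mul_of_ne, hc]
    · simp
    · intro c _ hc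
      simp only [shift, Matrix.add_mul, Matrix.mul_smul, Matrix.smul_mul]
      simp [siteU_mul_of_ne, hc.symm]
    · simp

theorem shift_adjoint_mul (a b : Fin (M i + 1)) :
    (shift i a b)ᴴ * u i (false, b) (false, a) = u (M := M) i (false, a) (false, a) := by
  simp [shift, siteU_conjTranspose, Matrix.add_mul, siteU_mul, siteU_mul_of_ne]

theorem shift_adjoint_self (a b : Fin (M i + 1)) :
    (shift i a b)ᴴ * shift i a b =
      u i (false, a) (false, a) + (4 : ℂ)⁻¹ • u (M := M) i (true, a) (true, a) := by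
  simp [shift, siteU_conjTranspose, Matrix.add_mul, Matrix.mul_add, siteU_mul,
    siteU_mul_of_ne, smul_smul]
  norm_num

theorem grid_adjoint_self (a : Fin (M i + 1)) :
    (grid i a)ᴴ * grid i a = grid (M := M) i a := by
  simp [grid, siteU_conjTranspose, Matrix.add_mul, Matrix.mul_add, siteU_mul, siteU_mul_of_ne]

theorem grid_sq (a : Fin (M i + 1)) : grid i a * grid i a = grid (M := M) i a := by
  simpa [grid_conjTranspose] using grid_adjoint_self (M := M) i a

theorem nb_adjoint (b : Bool) : (nb i b)ᴴ = nb (M := M) i b := by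
  simp [nb, conjTranspose_sum, siteU_conjTranspose]

theorem ntr_u (p : Site M i) : ntr (u i p p) = ((2 * (M i + 1) : ℕ) : ℂ)⁻¹ := by
  have hq : ∀ q : Site M i, ntr (u i q q) = ntr (u i p p) := fun q => by
    have e1 : u i q p * u i p q = u i q q := siteU_mul _ _ _ _
    have e2 : u i p q * u i q p = u i p p := siteU_mul _ _ _ _
    rw [← e1, ntr_mul_comm, e2]
  have h := congrArg ntr (sum_siteU_diag (m := fun j : Fin n => M j) i)
  rw [ntr_one, ntr, Matrix.trace_sum, Finset.sum_div] at h
  simp only [show ∀ q : Site M i, (u i q q).trace / (Fintype.card (Cfg M n) : ℂ) = ntr (u i p p)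
    from hq, Finset.sum_const, Finset.card_univ, Fintype.card_prod, Fintype.card_bool,
    Fintype.card_fin, nsmul_eq_mul] at h
  exact eq_inv_of_mul_eq_one_right h

variable (S : Model M H)

theorem re_inner_L (a : Mat M n) (z : H) :
    RCLike.re ⟪z, S.L n (aᴴ * a) z⟫_ℂ = ‖S.L n a z‖ ^ 2 := by
  rw [S.L_mul, norm_sq_eq_re_inner (𝕜 := ℂ), ← S.L_adjoint]
  change RCLike.re ⟪z, ((S.L n a)†) (S.L n a z)⟫_ℂ = _
  rw [ContinuousLinearMap.adjoint_inner_right]

theorem re_inner_L_u (p : Site M i) (z : H) :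
    RCLike.re ⟪z, S.L n (u i p p) z⟫_ℂ = ‖S.L n (u i p p) z‖ ^ 2 := by
  rw [← re_inner_L, siteU_conjTranspose, siteU_mul]

theorem norm_shift_le (a b : Fin (M i + 1)) (z : H) :
    ‖S.L n (shift i a b) z‖ ^ 2 + 3 / 4 * ‖S.L n (u i (true, a) (true, a)) z‖ ^ 2 ≤
      ‖z‖ ^ 2 := by
  have h1 : ‖S.L n (shift i a b) z‖ ^ 2 = ‖S.L n (u i (false, a) (false, a)) z‖ ^ 2 +
      1 / 4 * ‖S.L n (u i (true, a) (true, a)) z‖ ^ 2 := by
    rw [← re_inner_L, shift_adjoint_self, S.L_add, S.L_smul, _root_.add_apply, inner_add_right,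
      map_add, re_inner_L_u, _root_.smul_apply, inner_smul_right]
    rw [show (4 : ℂ)⁻¹ = ((1 / 4 : ℝ) : ℂ) by norm_num]
    congr 1
    rw [← re_inner_L_u]
    exact Complex.re_ofReal_mul _ _
  have h2 : ‖S.L n (grid i a) z‖ ^ 2 = ‖S.L n (u i (false, a) (false, a)) z‖ ^ 2 +
      ‖S.L n (u i (true, a) (true, a)) z‖ ^ 2 := by
    rw [← re_inner_L, grid_adjoint_self, grid, S.L_add, _root_.add_apply, inner_add_right,
      map_add, re_inner_L_u, re_inner_L_u]
  have h3 := pow_le_pow_left₀ (norm_nonneg _)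
    (S.norm_L_le_of_proj (grid_adjoint_self i a) (grid_sq i a) z) 2
  linarith

variable {S}
variable {P : H →L[ℂ] H} (hP : Hyp S P)
include hP

theorem P_R_Ω (a : Mat M n) : P (S.ι n a) = S.R n a (P S.Ω) := by
  rw [← S.R_Ω]
  exact congrArg (fun A => A S.Ω) (hP.commute_R n a).eq

theorem L_grid_Ω (a : Fin (M i + 1)) :
    S.L n (grid i a) (P S.Ω) = S.R n (grid i a) (P S.Ω) := by
  have h : Commute P (S.L n (grid i a)) :=
    hP.commute_L (grid_commute_levelT i a) (by rw [grid_conjTranspose]; exact grid_commute_levelT i a)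
  rw [← P_R_Ω hP, ← S.L_Ω]
  exact (congrArg (fun A => A S.Ω) h.eq).symm

/-- Corners with different grid values vanish. -/
theorem corner_zero {a a' : Fin (M i + 1)} (h : a ≠ a') (b b' : Bool) :
    S.L n (u i (b, a) (b, a)) (S.R n (u i (b', a') (b', a')) (P S.Ω)) = 0 := by
  have e1 : u i (b, a) (b, a) = u i (b, a) (b, a) * grid (M := M) i a := by
    cases b <;> simp [grid, Matrix.mul_add, siteU_mul, siteU_mul_of_ne]
  have e2 : grid i a * u (M := M) i (b', a') (b', a') = 0 := by
    cases b' <;> simp [grid, Matrix.add_mul, siteU_mul_of_ne, h]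
  have c : ∀ (x : Mat M n) (w : H), S.L n x (S.R n (u i (b', a') (b', a')) w) =
      S.R n (u i (b', a') (b', a')) (S.L n x w) := fun x w =>
    congrArg (fun A => A w) (S.L_commute_R n n x _).eq
  rw [c, e1, S.L_mul]
  change S.R n _ (S.L n _ (S.L n (grid i a) (P S.Ω))) = 0
  rw [L_grid_Ω i hP, ← c]
  change S.L n _ ((S.R n (u i (b', a') (b', a')) * S.R n (grid i a)) (P S.Ω)) = 0
  rw [← S.R_mul, e2, S.R_zero, _root_.zero_apply, map_zero]

theorem nb_corner (b b' : Bool) :
    S.L n (nb i b) (S.R n (nb i b') (P S.Ω)) =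
      ∑ a, S.L n (u i (b, a) (b, a)) (S.R n (u i (b', a) (b', a)) (P S.Ω)) := by
  simp only [nb, S.L_sum, S.R_sum, _root_.sum_apply, map_sum]
  refine Finset.sum_congr rfl fun a _ => Finset.sum_eq_single a ?_ (by simp)
  exact fun c _ hc => corner_zero i hP hc _ _

theorem energy_step {a b : Fin (M i + 1)} (hab : (b : ℕ) = (a : ℕ) + 1) :
    ‖P (S.ι n (u i (false, a) (false, a)))‖ ^ 2 +
      3 / 4 * ‖S.L n (u i (true, a) (true, a)) (P (S.ι n (u i (false, a) (false, a))))‖ ^ 2 ≤
      ‖P (S.ι n (u i (false, b) (false, b)))‖ ^ 2 := by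
  set va := S.ι n (u i (false, a) (false, a)) with hva
  set vb := S.ι n (u i (false, b) (false, b)) with hvb
  set y := P va
  set Z := S.R n (u i (false, a) (false, b)) (S.L n (shift i a b) y)
  have hZ : P Z = Z :=
    hP.apply_of_commute (S.R_commute_T _ _)
      (hP.apply_of_commute (S.commute_T (shift_commute_levelT i hab)) (hP.apply_self va))
  have hsym : ∀ w w' : H, ⟪w, P w'⟫_ℂ = ⟪P w, w'⟫_ℂ := fun w w' => by
    rw [← ContinuousLinearMap.adjoint_inner_right P, hP.adj]
  have h1 : ⟪P vb, Z⟫_ℂ = ⟪y, y⟫_ℂ := by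
    rw [← hsym, hZ]
    calc ⟪vb, Z⟫_ℂ = ⟪((S.L n (shift i a b))†) (((S.R n (u i (false, a) (false, b)))†) vb), y⟫_ℂ :=
          by rw [ContinuousLinearMap.adjoint_inner_left, ContinuousLinearMap.adjoint_inner_left]
      _ = ⟪va, y⟫_ℂ := by
          rw [S.R_adjoint, S.L_adjoint, siteU_conjTranspose, hvb, S.R_ι, siteU_mul, S.L_ι,
            shift_adjoint_mul]
      _ = ⟪y, y⟫_ℂ := by rw [← hsym va y, hP.apply_self]
  have h2 : ‖y‖ ^ 2 ≤ ‖P vb‖ * ‖Z‖ := by
    rw [norm_sq_eq_re_inner (𝕜 := ℂ), ← h1]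
    exact re_inner_le_norm _ _
  have h3 : ‖Z‖ ≤ ‖S.L n (shift i a b) y‖ := S.norm_R_siteU i _ _ _
  have h4 := norm_shift_le i S a b y
  nlinarith [sq_nonneg (‖P vb‖ - ‖Z‖), pow_le_pow_left₀ (norm_nonneg _) h3 2]

omit hP in
theorem telescope : ∀ (N : ℕ) (f g : Fin (N + 1) → ℝ), 0 ≤ f 0 →
    (∀ a : Fin N, f a.castSucc + g a.castSucc ≤ f a.succ) →
    ∑ a : Fin N, g a.castSucc ≤ f (Fin.last N) := by
  intro N
  induction N with
  | zero => intro f g h0 _; simpa using h0
  | succ N ih =>
    intro f g h0 h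
    have := ih (fun a => f a.castSucc) (fun a => g a.castSucc) h0 fun a => by
      have := h a.castSucc
      rw [Fin.succ_castSucc] at this
      exact this
    rw [Fin.sum_univ_castSucc]
    have h' := h (Fin.last N)
    rw [Fin.succ_last] at h'
    linarith

theorem norm_sq_corner :
    ‖S.L n (nb i true) (S.R n (nb i false) (P S.Ω))‖ ^ 2 ≤ 2 / (M i + 1) := by
  set z : Fin (M i + 1) → H := fun a =>
    S.L n (u i (true, a) (true, a)) (P (S.ι n (u i (false, a) (false, a)))) with hz
  have hsum : S.L n (nb i true) (S.R n (nb i false) (P S.Ω)) = ∑ a, z a := by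
    rw [nb_corner i hP]
    simp only [hz, P_R_Ω hP]
  have horth : ∀ a c, a ≠ c → ⟪z a, z c⟫_ℂ = 0 := by
    intro a c hac
    have e : ∀ a, z a = S.R n (u i (false, a) (false, a))
        (S.L n (u i (true, a) (true, a)) (P S.Ω)) := fun a => by
      simp only [hz, P_R_Ω hP]
      exact congrArg (fun A => A (P S.Ω)) (S.L_commute_R n n _ _).eq
    rw [e a, e c, ← ContinuousLinearMap.adjoint_inner_right, S.R_adjoint, siteU_conjTranspose]
    change ⟪_, (S.R n _ * S.R n _) _⟫_ℂ = 0
    rw [← S.R_mul, siteU_mul_of_ne _ (by simpa using Ne.symm hac), S.R_zero, _root_.zero_apply,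
      inner_zero_right]
  have hpy : ‖∑ a, z a‖ ^ 2 = ∑ a, ‖z a‖ ^ 2 := by
    simp only [norm_sq_eq_re_inner (𝕜 := ℂ), sum_inner, inner_sum, map_sum]
    refine Finset.sum_congr rfl fun a _ => Finset.sum_eq_single a (fun c _ hc => ?_) (by simp)
    rw [horth _ _ hc, map_zero]
  have hv : ∀ a, ‖P (S.ι n (u i (false, a) (false, a)))‖ ^ 2 ≤ 1 / (2 * (M i + 1)) := by
    intro a
    refine (pow_le_pow_left₀ (norm_nonneg _) (hP.norm_apply_le _) 2).trans (le_of_eq ?_)
    rw [S.norm_sq_ι, fn2, siteU_conjTranspose, siteU_mul, ntr_u]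
    rw [← Complex.ofReal_natCast, ← Complex.ofReal_inv, Complex.ofReal_re]
    simp
  have hg : ∀ a, ‖z a‖ ^ 2 ≤ 1 / (2 * ((M i : ℝ) + 1)) := fun a =>
    (pow_le_pow_left₀ (norm_nonneg _) (S.norm_L_siteU _ _ _ _) 2).trans (hv a)
  have ht := telescope (M i) (fun a => ‖P (S.ι n (u i (false, a) (false, a)))‖ ^ 2)
    (fun a => 3 / 4 * ‖z a‖ ^ 2) (by positivity)
    (fun a => energy_step i hP (by simp))
  rw [hsum, hpy, Fin.sum_univ_castSucc]
  rw [← Finset.mul_sum] at ht
  have h1 := hv (Fin.last (M i))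
  have h2 := hg (Fin.last (M i))
  have e : 2 / ((M i : ℝ) + 1) = 4 * (1 / (2 * ((M i : ℝ) + 1))) := by field_simp; norm_num
  have : (0 : ℝ) ≤ 1 / (2 * ((M i : ℝ) + 1)) := by positivity
  linarith

omit hP in
variable (S) in
/-- Pinching of one site. -/
noncomputable def sitePinch {n : ℕ} (i : Fin n) : H →L[ℂ] H :=
  ∑ p : Site M i, S.L n (u i p p) * S.R n (u i p p)

omit hP in
theorem sitePinch_proj :
    (sitePinch S i)† * sitePinch S i = sitePinch S i ∧
      sitePinch S i * sitePinch S i = sitePinch S i := by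
  have hadj : (sitePinch S i)† = sitePinch S i := by
    rw [sitePinch, ← ContinuousLinearMap.star_eq_adjoint, star_sum]
    refine Finset.sum_congr rfl fun p _ => ?_
    rw [star_mul, ContinuousLinearMap.star_eq_adjoint, ContinuousLinearMap.star_eq_adjoint,
      S.L_adjoint, S.R_adjoint, siteU_conjTranspose]
    exact (S.L_commute_R n n _ _).eq.symm
  have hsq : sitePinch S i * sitePinch S i = sitePinch S i := by
    rw [sitePinch, Finset.sum_mul]
    refine Finset.sum_congr rfl fun p _ => ?_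
    rw [Finset.mul_sum, Finset.sum_eq_single p]
    · rw [((S.L_commute_R n n _ _).symm).mul_mul_mul_comm, ← S.L_mul, ← S.R_mul, siteU_mul]
    · intro q _ hq
      rw [((S.L_commute_R n n _ _).symm).mul_mul_mul_comm, ← S.L_mul,
        siteU_mul_of_ne _ hq.symm, S.L_zero, zero_mul]
    · simp
  exact ⟨by rw [hadj, hsq], hsq⟩

omit hP in
theorem norm_sitePinch_le (z : H) : ‖sitePinch S i z‖ ≤ ‖z‖ :=
  Model.norm_apply_le_of_proj (sitePinch_proj i).1 (sitePinch_proj i).2 z

theorem site_bound :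
    ‖P S.Ω - sitePinch S i (P S.Ω)‖ ≤ 4 / Real.sqrt (M i + 1) := by
  have hpi : sitePinch S i (P S.Ω) = ∑ b, S.L n (nb i b) (S.R n (nb i b) (P S.Ω)) := by
    simp only [nb_corner i hP]
    rw [sitePinch, _root_.sum_apply, Fintype.sum_prod_type]
    rfl
  have hone : nb (M := M) i true + nb i false = 1 := by
    rw [← sum_siteU_diag (m := fun j : Fin n => M j) i, Fintype.sum_prod_type, Fintype.sum_bool]
    rfl
  have hfull : P S.Ω = S.L n (nb i true + nb i false)
      (S.R n (nb i true + nb i false) (P S.Ω)) := by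
    rw [hone, S.L_one, S.R_one]; rfl
  have hdiff : P S.Ω - sitePinch S i (P S.Ω) =
      S.L n (nb i true) (S.R n (nb i false) (P S.Ω)) +
        S.L n (nb i false) (S.R n (nb i true) (P S.Ω)) := by
    conv_lhs => arg 1; rw [hfull]
    rw [hpi, Fintype.sum_bool]
    simp only [S.L_add, S.R_add, _root_.add_apply, map_add]
    abel
  set X := S.L n (nb i true) * P * S.L n (nb i false) with hX
  have hXR : ∀ m a, Commute X (S.R m a) := fun m a =>
    (((S.L_commute_R n m _ a).mul_left (hP.commute_R m a)).mul_left (S.L_commute_R n m _ a))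
  have hXΩ : X S.Ω = S.L n (nb i true) (S.R n (nb i false) (P S.Ω)) := by
    simp only [hX, mul_apply_eq_comp, S.L_Ω, P_R_Ω hP]
  have hXadj : (X†) S.Ω = S.L n (nb i false) (S.R n (nb i true) (P S.Ω)) := by
    rw [← ContinuousLinearMap.star_eq_adjoint, hX, star_mul, star_mul]
    simp only [ContinuousLinearMap.star_eq_adjoint, S.L_adjoint, hP.adj, nb_adjoint,
      mul_apply_eq_comp, S.L_Ω, P_R_Ω hP]
  have hb := S.norm_adjoint_Ω hXR
  rw [hXΩ, hXadj] at hb
  have hc : ‖S.L n (nb i true) (S.R n (nb i false) (P S.Ω))‖ ≤ 2 / Real.sqrt (M i + 1) := by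
    refine (sq_le_sq₀ (norm_nonneg _) (by positivity)).1 ?_
    refine (norm_sq_corner i hP).trans ?_
    rw [div_pow, Real.sq_sqrt (by positivity)]
    gcongr
    norm_num
  rw [hdiff]
  refine (norm_add_le _ _).trans ?_
  rw [hb]
  calc _ ≤ 2 / Real.sqrt (M i + 1) + 2 / Real.sqrt (M i + 1) := add_le_add hc hc
    _ = _ := by ring

omit hP

/-- Splitting off the last site of a tail. -/
def tailSucc {n k : ℕ} (h : n ≤ k) :
    Tail M n (k + 1) ≃ Tail M n k × Site M (Fin.last k) where
  toFun y := (fun j => y ⟨j.1.castSucc, by simpa using j.2⟩, y ⟨Fin.last k, by simpa using h⟩)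
  invFun p := fun j =>
    Fin.lastCases (motive := fun j => n ≤ (j : ℕ) → Site M j) (fun _ => p.2)
      (fun l hl => p.1 ⟨l, hl⟩) j.1 j.2
  left_inv y := by
    funext ⟨j, hj⟩
    induction j using Fin.lastCases with
    | last => simp
    | cast l => simp
  right_inv p := by
    refine Prod.ext (funext fun j => ?_) ?_ <;> simp

theorem split_succ {n k : ℕ} (h : n ≤ k) (x : Cfg M (k + 1)) :
    tailSucc h (split (h.trans k.le_succ) x).2 =
      ((split h (split k.le_succ x).1).2, x (Fin.last k)) := rfl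

theorem atom_succ {n k : ℕ} (h : n ≤ k) (y : Tail M n (k + 1)) :
    atom (h.trans k.le_succ) y = lift k.le_succ (atom h (tailSucc h y).1) *
      u (Fin.last k) (tailSucc h y).2 (tailSucc h y).2 := by
  have hl : ∀ f : Cfg M k → ℂ, lift k.le_succ (Matrix.diagonal f) =
      Matrix.diagonal fun x : Cfg M (k + 1) => f (split k.le_succ x).1 := by
    intro f
    ext x z
    rw [lift_apply]
    by_cases hxz : x = z
    · subst hxz; simp
    · rw [Matrix.diagonal_apply_ne _ hxz]
      split_ifs with h2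
      · refine Matrix.diagonal_apply_ne _ fun h1 => hxz ?_
        exact (split k.le_succ).injective (Prod.ext h1 h2)
      · rfl
  rw [atom, atom, show u (M := M) (Fin.last k) (tailSucc h y).2 (tailSucc h y).2 = Matrix.diagonal
    (fun x => if x (Fin.last k) = (tailSucc h y).2 then (1 : ℂ) else 0) from siteU_diag _ _,
    hl, diagonal_mul_diagonal]
  congr 1
  funext x
  rw [ite_zero_mul_ite_zero, one_mul]
  refine if_congr ?_ rfl rfl
  rw [← (tailSucc h).apply_eq_iff_eq, split_succ, Prod.ext_iff]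

theorem pinchTail_self (n : ℕ) : pinchTail S (le_refl n) = 1 := by
  have : IsEmpty {j : Fin n // n ≤ (j : ℕ)} := ⟨fun j => absurd j.1.2 (not_lt.mpr j.2)⟩
  rw [pinchTail, Fintype.sum_unique]
  have e : ∀ y, atom (M := M) (le_refl n) y = 1 := fun y => by
    rw [atom, ← Matrix.diagonal_one]
    congr 1
    funext x
    rw [if_pos (Subsingleton.elim _ _)]
  rw [e, S.L_one, S.R_one, mul_one]

theorem pinchTail_succ {n k : ℕ} (h : n ≤ k) :
    pinchTail S (h.trans k.le_succ) = pinchTail S h * sitePinch S (Fin.last k) := by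
  rw [pinchTail, pinchTail, sitePinch, Finset.sum_mul_sum, ← Fintype.sum_prod_type']
  refine Fintype.sum_equiv (tailSucc h) _ _ fun y => ?_
  have hc : Commute (lift k.le_succ (atom h (tailSucc h y).1))
      (u (M := M) (Fin.last k) (tailSucc h y).2 (tailSucc h y).2) :=
    lift_commute_siteU _ _ _ (by simp) _ _
  rw [((S.L_commute_R (k + 1) k _ _).symm).mul_mul_mul_comm, ← S.L_lift k (k + 1) k.le_succ,
    ← S.R_lift k (k + 1) k.le_succ, ← S.L_mul, ← S.R_mul, atom_succ h, hc.eq]

theorem pinchTail_bound (hP : Hyp S P) {n : ℕ} : ∀ (k : ℕ) (h : n ≤ k),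
    ‖P S.Ω - pinchTail S h (P S.Ω)‖ ≤ ∑ j ∈ Finset.Ico n k, 4 / Real.sqrt (M j + 1) := by
  intro k h
  induction k, h using Nat.le_induction with
  | base => simp [pinchTail_self]
  | succ k h ih =>
    rw [Finset.sum_Ico_succ_top h]
    have hsw : pinchTail S (h.trans k.le_succ) = sitePinch S (Fin.last k) * pinchTail S h := by
      rw [pinchTail_succ]
      refine Commute.eq ?_
      refine Commute.sum_left _ _ _ fun y _ => Commute.sum_right _ _ _ fun p _ => ?_
      have hc : ∀ a : Mat M k, Commute (lift k.le_succ a) (u (M := M) (Fin.last k) p p) := fun a =>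
        lift_commute_siteU _ _ _ (by simp) _ _
      refine (Commute.mul_right ?_ ?_).mul_left (Commute.mul_right ?_ ?_)
      · rw [Commute, SemiconjBy, ← S.L_lift k (k + 1) k.le_succ, ← S.L_mul, ← S.L_mul, (hc _).eq]
      · exact S.L_commute_R _ _ _ _
      · exact (S.L_commute_R _ _ _ _).symm
      · rw [Commute, SemiconjBy, ← S.R_lift k (k + 1) k.le_succ, ← S.R_mul, ← S.R_mul, (hc _).eq]
    calc ‖P S.Ω - pinchTail S (h.trans k.le_succ) (P S.Ω)‖
        = ‖(P S.Ω - sitePinch S (Fin.last k) (P S.Ω)) +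
            sitePinch S (Fin.last k) (P S.Ω - pinchTail S h (P S.Ω))‖ := by
          rw [hsw, map_sub]; simp
      _ ≤ 4 / Real.sqrt (M k + 1) + ∑ j ∈ Finset.Ico n k, 4 / Real.sqrt (M j + 1) := by
          refine (norm_add_le _ _).trans (add_le_add ?_ ((norm_sitePinch_le _ _).trans ih))
          simpa using site_bound (Fin.last k) hP
      _ = _ := add_comm _ _

end Energy

/-- Energy and pinching: the tail of `P Ω` is nearly diagonal. -/
theorem pinch {M : ℕ → ℕ} {H : Type} [NormedAddCommGroup H] [InnerProductSpace ℂ H]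
    [CompleteSpace H] {S : Model M H} {P : H →L[ℂ] H} (hP : Hyp S P) : PinchStmt S P :=
  fun _ k h => Energy.pinchTail_bound hP k h

end Vale.Agent.P131
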