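import Vale.Agent.P131.Comm

/-!
P131, the `0`-`1` step: if `P` commutes with every bit projection then `P = 0` or `P = 1`.

`P Ω` is approximated by diagonal matrices depending on the bits only, and is fixed by the swap of
two blocks of bits; the two blocks are independent, so `‖P Ω‖² = ‖P Ω‖⁴`.
-/

open Matrix
open scoped InnerProductSpace InnerProduct ComplexConjugate

namespace Vale.Agent.P131.Final

/-- The grid configurations of `n` sites. -/
abbrev Grid (M : ℕ → ℕ) (n : ℕ) : Type := ∀ k : Fin n, Fin (M k + 1)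

/-- A configuration is a bit configuration and a grid configuration. -/
def cfgEquiv (M : ℕ → ℕ) (n : ℕ) : Cfg M n ≃ Bits n × Grid M n where
  toFun x := (fun k => (x k).1, fun k => (x k).2)
  invFun p := fun k => (p.1 k, p.2 k)
  left_inv _ := rfl
  right_inv _ := rfl

variable {M : ℕ → ℕ} {n : ℕ}

/-- A diagonal matrix depending on the bits only. -/
noncomputable def dmat (f : Bits n → ℂ) : Mat M n :=
  Matrix.diagonal fun x => f (cfgEquiv M n x).1

/-- The grid average of the diagonal. -/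
noncomputable def avgf (c : Mat M n) (b : Bits n) : ℂ :=
  (Fintype.card (Grid M n) : ℂ)⁻¹ *
    ∑ g, c ((cfgEquiv M n).symm (b, g)) ((cfgEquiv M n).symm (b, g))

theorem grid_ne_zero : (Fintype.card (Grid M n) : ℂ) ≠ 0 := Nat.cast_ne_zero.2 Fintype.card_ne_zero

theorem dmat_avgf_one : dmat (M := M) (avgf (1 : Mat M n)) = 1 := by
  rw [dmat, ← Matrix.diagonal_one]
  congr 1
  funext x
  simp [avgf, -Fintype.card_pi]

theorem dmat_one : dmat (fun _ : Bits n => (1 : ℂ)) = (1 : Mat M n) := Matrix.diagonal_one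

theorem ntr_dmat (f : Bits n → ℂ) :
    ntr (dmat (M := M) f) = (∑ b, f b) / (Fintype.card (Bits n) : ℂ) := by
  have hcard : (Fintype.card (Cfg M n) : ℂ) =
      (Fintype.card (Bits n) : ℂ) * (Fintype.card (Grid M n) : ℂ) := by
    rw [Fintype.card_congr (cfgEquiv M n), Fintype.card_prod, Nat.cast_mul]
  rw [ntr, dmat, Matrix.trace_diagonal, (cfgEquiv M n).sum_comp fun p => f p.1,
    Fintype.sum_prod_type, hcard]
  simp only [Finset.sum_const, Finset.card_univ, nsmul_eq_mul]
  rw [← Finset.mul_sum, mul_comm ((Fintype.card (Bits n) : ℂ)),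
    mul_div_mul_left _ _ grid_ne_zero]

theorem fn2_dmat_avgf_le (c : Mat M n) : fn2 (dmat (M := M) (avgf c)) ≤ fn2 c := by
  rw [fn2_eq_sum, fn2_eq_sum]
  refine div_le_div_of_nonneg_right ?_ (Nat.cast_nonneg _)
  have h1 : ∀ x : Cfg M n, ∑ y, ‖dmat (avgf c) x y‖ ^ 2 = ‖avgf c (cfgEquiv M n x).1‖ ^ 2 := by
    intro x
    rw [Finset.sum_eq_single x]
    · simp [dmat]
    · intro y _ hy; simp [dmat, Matrix.diagonal_apply_ne _ (Ne.symm hy)]
    · simp
  simp only [h1]
  refine le_trans ?_ (Finset.sum_le_sum fun x _ =>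
    Finset.single_le_sum (fun y _ => sq_nonneg ‖c x y‖) (Finset.mem_univ x))
  rw [(cfgEquiv M n).sum_comp fun p => ‖avgf c p.1‖ ^ 2, Fintype.sum_prod_type,
    ← (cfgEquiv M n).symm.sum_comp fun x => ‖c x x‖ ^ 2, Fintype.sum_prod_type]
  refine Finset.sum_le_sum fun b _ => ?_
  simp only [Finset.sum_const, Finset.card_univ, nsmul_eq_mul, avgf, norm_mul, norm_inv,
    Complex.norm_natCast, mul_pow]
  have hG : (0 : ℝ) < Fintype.card (Grid M n) := Nat.cast_pos.2 Fintype.card_pos
  have h2 : ‖∑ g, c ((cfgEquiv M n).symm (b, g)) ((cfgEquiv M n).symm (b, g))‖ ^ 2 ≤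
      (Fintype.card (Grid M n) : ℝ) *
        ∑ g, ‖c ((cfgEquiv M n).symm (b, g)) ((cfgEquiv M n).symm (b, g))‖ ^ 2 :=
    (pow_le_pow_left₀ (norm_nonneg _) (norm_sum_le _ _) 2).trans
      sq_sum_le_card_mul_sum_sq
  field_simp
  exact h2

variable {H : Type} [NormedAddCommGroup H] [InnerProductSpace ℂ H] [CompleteSpace H]
variable {S : Model M H} {P : H →L[ℂ] H}

/-- The summand of the grid averaging map. -/
noncomputable def avT (S : Model M H) (b : Bits n) (g' g : Grid M n) : H →L[ℂ] H :=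
  S.L n (Matrix.single ((cfgEquiv M n).symm (b, g')) ((cfgEquiv M n).symm (b, g)) 1) *
    S.R n (Matrix.single ((cfgEquiv M n).symm (b, g)) ((cfgEquiv M n).symm (b, g')) 1)

/-- The grid averaging map. -/
noncomputable def avMap (S : Model M H) (n : ℕ) : H →L[ℂ] H :=
  (Fintype.card (Grid M n) : ℂ)⁻¹ • ∑ b : Bits n, ∑ g', ∑ g, avT S b g' g

theorem avMap_ι (S : Model M H) (c : Mat M n) :
    avMap S n (S.ι n c) = S.ι n (dmat (avgf c)) := by
  have h1 : ∀ b g' g, avT S b g' g (S.ι n c) = S.ι n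
      (Matrix.single ((cfgEquiv M n).symm (b, g')) ((cfgEquiv M n).symm (b, g'))
        (c ((cfgEquiv M n).symm (b, g)) ((cfgEquiv M n).symm (b, g)))) := by
    intro b g' g
    simp only [avT, ContinuousLinearMap.mul_def, ContinuousLinearMap.comp_apply]
    rw [S.R_ι, S.L_ι, ← Matrix.mul_assoc, Matrix.single_mul_mul_single, one_mul, mul_one]
  simp only [avMap, _root_.smul_apply, _root_.sum_apply, h1]
  simp only [← map_sum, ← map_smul]
  congr 1
  ext p q
  obtain ⟨⟨b, g⟩, rfl⟩ := (cfgEquiv M n).symm.surjective p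
  simp only [Matrix.smul_apply, Matrix.sum_apply, smul_eq_mul, dmat, Matrix.diagonal_apply,
    Equiv.apply_symm_apply, avgf]
  rw [Finset.sum_eq_single b]
  · rw [Finset.sum_eq_single g]
    · by_cases hq : (cfgEquiv M n).symm (b, g) = q
      · subst hq; simp
      · simp [hq]
    · intro g1 _ hg
      refine Finset.sum_eq_zero fun g2 _ => Matrix.single_apply_of_ne _ _ _ _ _ ?_
      rintro ⟨e, -⟩
      exact hg (Prod.ext_iff.1 ((cfgEquiv M n).symm.injective e)).2
    · simp
  · intro b1 _ hb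
    refine Finset.sum_eq_zero fun g1 _ => Finset.sum_eq_zero fun g2 _ =>
      Matrix.single_apply_of_ne _ _ _ _ _ ?_
    rintro ⟨e, -⟩
    exact hb (Prod.ext_iff.1 ((cfgEquiv M n).symm.injective e)).1
  · simp

theorem avMap_adjoint (S : Model M H) (n : ℕ) : star (avMap S n) = avMap S n := by
  have h : ∀ b g' g, star (avT (n := n) S b g' g) = avT S b g g' := by
    intro b g' g
    rw [avT, avT, star_mul, ContinuousLinearMap.star_eq_adjoint,
      ContinuousLinearMap.star_eq_adjoint, S.L_adjoint, S.R_adjoint,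
      Matrix.conjTranspose_single, Matrix.conjTranspose_single, star_one]
    exact (S.L_commute_R _ _ _ _).eq.symm
  simp only [avMap, star_smul, star_sum, h, star_inv₀, star_natCast]
  exact congrArg _ (Finset.sum_congr rfl fun b _ => Finset.sum_comm)

theorem commute_avMap (hP : Hyp S P) (hN : ComN S P) (n : ℕ) : Commute P (avMap S n) := by
  refine Commute.smul_right (Commute.sum_right _ _ _ fun b _ => Commute.sum_right _ _ _
    fun g' _ => Commute.sum_right _ _ _ fun g _ => ?_) _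
  unfold avT
  exact Commute.mul_right (com_single hP hN (1 : Equiv.Perm (Fin n))
    ((cfgEquiv M n).symm (b, g')) ((cfgEquiv M n).symm (b, g)) fun k => rfl) (hP.commute_R n _)

theorem exists_bits_approx (hP : Hyp S P) (hN : ComN S P) {ε : ℝ} (hε : 0 < ε) :
    ∃ (n : ℕ) (f : Bits n → ℂ), ‖S.ι n (dmat f) - P S.Ω‖ < ε := by
  obtain ⟨z, hz, hd⟩ := S.dense.exists_dist_lt (P S.Ω) hε
  obtain ⟨n, c, rfl⟩ := Set.mem_iUnion.1 hz
  rw [dist_comm, dist_eq_norm] at hd
  refine ⟨n, avgf c, lt_of_le_of_lt ?_ hd⟩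
  have hfix : avMap S n (P S.Ω) = P S.Ω := by
    have e := congrArg (fun A => A S.Ω) (commute_avMap hP hN n).eq
    change P (avMap S n S.Ω) = avMap S n (P S.Ω) at e
    rw [← e, ← S.ι_one n, avMap_ι, dmat_avgf_one]
  have hinner : ⟪S.ι n (dmat (avgf c)), P S.Ω⟫_ℂ = ⟪S.ι n c, P S.Ω⟫_ℂ := by
    rw [← avMap_ι, ← ContinuousLinearMap.adjoint_inner_right,
      ← ContinuousLinearMap.star_eq_adjoint, avMap_adjoint, hfix]
  have hnorm : ‖S.ι n (dmat (avgf c))‖ ^ 2 ≤ ‖S.ι n c‖ ^ 2 := by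
    rw [S.norm_sq_ι, S.norm_sq_ι]; exact fn2_dmat_avgf_le c
  rw [← pow_le_pow_iff_left₀ (norm_nonneg _) (norm_nonneg _) two_ne_zero,
    norm_sub_sq (𝕜 := ℂ), norm_sub_sq (𝕜 := ℂ), hinner]
  linarith

/-- The swap of the blocks `[0,n)` and `[n,2n)`. -/
def blockSwap (n : ℕ) : Equiv.Perm (Fin (n + n)) :=
  finSumFinEquiv.symm.trans ((Equiv.sumComm _ _).trans finSumFinEquiv)

theorem blockSwap_castAdd (i : Fin n) : blockSwap n (Fin.castAdd n i) = Fin.natAdd n i := by
  simp only [blockSwap, Equiv.trans_apply, finSumFinEquiv_symm_apply_castAdd, Equiv.sumComm_apply,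
    Sum.swap_inl, finSumFinEquiv_apply_right]

theorem blockSwap_natAdd (i : Fin n) : blockSwap n (Fin.natAdd n i) = Fin.castAdd n i := by
  simp only [blockSwap, Equiv.trans_apply, finSumFinEquiv_symm_apply_natAdd, Equiv.sumComm_apply,
    Sum.swap_inr, finSumFinEquiv_apply_left]

theorem blockSwap_self (j : Fin (n + n)) : blockSwap n (blockSwap n j) = j := by
  refine Fin.addCases (fun i => ?_) (fun i => ?_) j
  · rw [blockSwap_castAdd, blockSwap_natAdd]
  · rw [blockSwap_natAdd, blockSwap_castAdd]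

/-- The bits of the two blocks are swapped, the grid stays. -/
def swapCfg (M : ℕ → ℕ) (n : ℕ) : Equiv.Perm (Cfg M (n + n)) :=
  Function.Involutive.toPerm (fun x k => ((x (blockSwap n k)).1, (x k).2)) fun x => by
    funext k
    exact Prod.ext (congrArg (fun j => (x j).1) (blockSwap_self k)) rfl

/-- The permutation matrix of the swap. -/
noncomputable def swapM (M : ℕ → ℕ) (n : ℕ) : Mat M (n + n) :=
  (1 : Mat M (n + n)).submatrix (swapCfg M n) id

theorem com_swapM (hP : Hyp S P) (hN : ComN S P) (n : ℕ) :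
    Commute P (S.L (n + n) (swapM M n)) := by
  rw [matrix_eq_sum_single (swapM M n), S.L_sum]
  refine Commute.sum_right _ _ _ fun p _ => ?_
  rw [S.L_sum]
  refine Commute.sum_right _ _ _ fun q _ => ?_
  by_cases h : swapCfg M n p = q
  · subst h
    rw [show swapM M n p (swapCfg M n p) = 1 from Matrix.one_apply_eq (swapCfg M n p)]
    exact com_single hP hN (blockSwap n) _ _ fun k => rfl
  · rw [show swapM M n p q = 0 by simp [swapM, h], Matrix.single_zero, S.L_zero]
    exact Commute.zero_right _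

theorem swapM_conj_mul (n : ℕ) : (swapM M n)ᴴ * swapM M n = 1 := by
  rw [swapM, Matrix.conjTranspose_submatrix, Matrix.conjTranspose_one,
    Matrix.submatrix_mul_equiv, Matrix.one_mul, Matrix.submatrix_id_id]

theorem swapM_mul_conj (n : ℕ) : swapM M n * (swapM M n)ᴴ = 1 := by
  rw [swapM, Matrix.conjTranspose_submatrix, Matrix.conjTranspose_one,
    ← Matrix.submatrix_mul _ _ _ _ _ Function.bijective_id, Matrix.one_mul,
    Matrix.submatrix_one_equiv]

theorem swapM_conjugate (a : Mat M (n + n)) :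
    swapM M n * a * (swapM M n)ᴴ = a.submatrix (swapCfg M n) (swapCfg M n) := by
  ext p q
  simp [swapM, Matrix.mul_apply, Matrix.one_apply, apply_ite, ite_mul]

theorem lift_dmat (h : n ≤ n + n) (f : Bits n → ℂ) :
    lift h (dmat (M := M) f) = dmat fun b : Bits (n + n) => f fun i => b (Fin.castAdd n i) := by
  ext x y
  rw [lift_apply]
  by_cases hxy : x = y
  · subst hxy
    simp only [if_true, dmat, Matrix.diagonal_apply_eq]
    rfl
  · simp only [dmat, Matrix.diagonal_apply_ne _ hxy]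
    split_ifs with h2
    · exact Matrix.diagonal_apply_ne _ fun h1 =>
        hxy ((split h).injective (Prod.ext h1 h2))
    · rfl

/-- The mean over the bit configurations. -/
noncomputable def mean (f : Bits n → ℂ) : ℂ := (∑ b, f b) / (Fintype.card (Bits n) : ℂ)

theorem mean_two_blocks (f : Bits n → ℂ) :
    mean (fun b : Bits (n + n) =>
      star (f fun i => b (Fin.castAdd n i)) * f fun i => b (Fin.natAdd n i)) =
      star (mean f) * mean f := by
  unfold mean
  rw [← (Fin.appendEquiv n n).sum_comp, Fintype.sum_prod_type,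
    Fintype.card_congr (Fin.appendEquiv n n).symm, Fintype.card_prod, Nat.cast_mul]
  simp only [Fin.appendEquiv, Equiv.coe_fn_mk, Fin.append_left, Fin.append_right]
  rw [← Finset.sum_mul_sum, ← star_sum, star_div₀, star_natCast, div_mul_div_comm]

theorem two_blocks (hP : Hyp S P) (hN : ComN S P) {ε : ℝ} (hε : 0 < ε) :
    ∃ (μ : ℂ) (a b : H), ‖a - P S.Ω‖ < ε ∧ ‖b - P S.Ω‖ < ε ∧ ⟪S.Ω, a⟫_ℂ = μ ∧
      ⟪a, b⟫_ℂ = star μ * μ := by
  obtain ⟨n, f, hf⟩ := exists_bits_approx hP hN hε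
  have hle : n ≤ n + n := Nat.le_add_right n n
  let u := swapM M n
  let V : H →L[ℂ] H := S.L (n + n) u * S.R (n + n) uᴴ
  have hV : ∀ z, ‖V z‖ ≤ ‖z‖ := fun z =>
    (S.norm_L_le_of_proj (swapM_conj_mul n) (mul_one 1) _).trans
      (S.norm_R_le_of_proj (a := uᴴ) (e := 1)
        (by rw [conjTranspose_conjTranspose]; exact swapM_conj_mul n) (mul_one 1) z)
  have hVξ : V (P S.Ω) = P S.Ω := by
    have e := congrArg (fun A => A S.Ω)
      ((com_swapM hP hN n).mul_right (hP.commute_R (n + n) uᴴ)).eq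
    change P (V S.Ω) = V (P S.Ω) at e
    rw [← e]
    congr 1
    simp only [V, u, ContinuousLinearMap.mul_def, ContinuousLinearMap.comp_apply]
    rw [← S.ι_one (n + n), S.R_ι, S.L_ι, Matrix.one_mul, swapM_mul_conj]
  have hA : S.ι n (dmat f) =
      S.ι (n + n) (dmat fun b : Bits (n + n) => f fun i => b (Fin.castAdd n i)) := by
    rw [← lift_dmat hle f, S.ι_lift]
  have hB : V (S.ι n (dmat f)) =
      S.ι (n + n) (dmat fun b : Bits (n + n) => f fun i => b (Fin.natAdd n i)) := by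
    simp only [hA, V, u, ContinuousLinearMap.mul_def, ContinuousLinearMap.comp_apply]
    rw [S.R_ι, S.L_ι, ← Matrix.mul_assoc, swapM_conjugate]
    congr 1
    rw [dmat, dmat, Matrix.submatrix_diagonal_equiv]
    congr 1
    funext x
    refine congrArg f (funext fun i => ?_)
    exact congrArg (fun j => (x j).1) (blockSwap_castAdd i)
  refine ⟨mean f, S.ι n (dmat f), V (S.ι n (dmat f)), hf, ?_, ?_, ?_⟩
  · rw [← hVξ, ← map_sub]
    exact lt_of_le_of_lt (hV _) hf
  · rw [← S.ι_one n, S.inner_ι, conjTranspose_one, Matrix.one_mul, ntr_dmat]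
    rfl
  · rw [hB, hA, S.inner_ι, dmat, dmat, Matrix.diagonal_conjTranspose,
      Matrix.diagonal_mul_diagonal, ← mean_two_blocks]
    exact ntr_dmat (M := M) fun b : Bits (n + n) =>
      star (f fun i => b (Fin.castAdd n i)) * f fun i => b (Fin.natAdd n i)

/-- The `0`-`1` step. -/
theorem final (hP : Hyp S P) : FinalStmt S P := by
  intro hN
  have hξ1 : ‖P S.Ω‖ ≤ 1 := (hP.norm_apply_le _).trans_eq S.norm_Ω
  have hΩξ : ⟪S.Ω, P S.Ω⟫_ℂ = ((‖P S.Ω‖ ^ 2 : ℝ) : ℂ) := by
    have e : ⟪P S.Ω, P S.Ω⟫_ℂ = ⟪S.Ω, P (P S.Ω)⟫_ℂ := by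
      rw [← ContinuousLinearMap.adjoint_inner_right, hP.adj]
    rw [hP.apply_self, inner_self_eq_norm_sq_to_K] at e
    rw [← e]
    push_cast
    rfl
  set α := ‖P S.Ω‖ ^ 2 with hα
  have hsmall : ∀ ε > 0, ε ≤ 1 → |α - α ^ 2| ≤ 8 * ε := by
    intro ε hε hε1
    obtain ⟨μ, a, b, ha, hb, hμ, hab⟩ := two_blocks hP hN hε
    have h1 : ‖μ - (α : ℂ)‖ ≤ ε := by
      rw [← hμ, ← hΩξ, ← inner_sub_right]
      exact (norm_inner_le_norm _ _).trans (by rw [S.norm_Ω, one_mul]; exact ha.le)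
    have h2 : ‖⟪a, b⟫_ℂ - (α : ℂ)‖ ≤ 3 * ε := by
      have e : ⟪a, b⟫_ℂ - (α : ℂ) = ⟪a - P S.Ω, b⟫_ℂ + ⟪P S.Ω, b - P S.Ω⟫_ℂ := by
        rw [inner_sub_left, inner_sub_right, inner_self_eq_norm_sq_to_K (𝕜 := ℂ) (P S.Ω), hα]
        push_cast
        rw [show ((‖P S.Ω‖ : ℝ) : ℂ) = RCLike.ofReal ‖P S.Ω‖ from rfl]
        ring
      have hb2 : ‖b‖ ≤ 2 := by
        have := norm_le_insert' b (P S.Ω)
        linarith
      rw [e]
      refine (norm_add_le _ _).trans ?_
      refine le_trans (add_le_add (norm_inner_le_norm _ _) (norm_inner_le_norm _ _)) ?_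
      nlinarith [norm_nonneg (a - P S.Ω), norm_nonneg (b - P S.Ω), norm_nonneg b]
    have hα0 : 0 ≤ α := sq_nonneg _
    have hα1 : α ≤ 1 := by rw [hα]; exact pow_le_one₀ (norm_nonneg _) hξ1
    have hμn : ‖μ‖ ≤ 2 := by
      have := norm_le_insert' μ (α : ℂ)
      rw [Complex.norm_real, Real.norm_eq_abs, abs_of_nonneg hα0] at this
      linarith
    have h3 : ‖star μ * μ - ((α : ℂ) * (α : ℂ))‖ ≤ 3 * ε := by
      have e : star μ * μ - (α : ℂ) * α = star (μ - α) * μ + α * (μ - α) := by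
        rw [star_sub, show star (α : ℂ) = α from Complex.conj_ofReal α]; ring
      rw [e]
      refine (norm_add_le _ _).trans ?_
      rw [norm_mul, norm_mul, norm_star, Complex.norm_real, Real.norm_eq_abs, abs_of_nonneg hα0]
      nlinarith [norm_nonneg (μ - (α : ℂ)), norm_nonneg μ]
    have h4 : ‖(α : ℂ) - (α : ℂ) * α‖ ≤ 8 * ε := by
      refine (norm_sub_le_norm_sub_add_norm_sub _ (star μ * μ) _).trans ?_
      rw [norm_sub_rev]
      rw [hab] at h2
      linarith
    rw [← Complex.ofReal_mul, ← Complex.ofReal_sub, Complex.norm_real, Real.norm_eq_abs] at h4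
    rwa [sq]
  have hαα : α - α ^ 2 = 0 := by
    by_contra h
    have hpos : 0 < |α - α ^ 2| := abs_pos.2 h
    have := hsmall (min 1 (|α - α ^ 2| / 16)) (lt_min one_pos (by linarith)) (min_le_left _ _)
    linarith [min_le_right (1 : ℝ) (|α - α ^ 2| / 16)]
  have hR : ∀ k a, Commute P (S.R k a) := hP.commute_R
  rcases eq_or_ne α 0 with h0 | h0
  · refine Or.inl (S.eq_of_apply_Ω hR (fun _ _ => Commute.zero_left _) ?_)
    have : ‖P S.Ω‖ = 0 := pow_eq_zero_iff two_ne_zero |>.1 h0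
    simpa using norm_eq_zero.1 this
  · refine Or.inr (S.eq_of_apply_Ω hR (fun _ _ => Commute.one_left _) ?_)
    have h1 : α = 1 := by
      have : α * (1 - α) = 0 := by rw [mul_sub, mul_one, ← sq]; exact hαα
      rcases mul_eq_zero.1 this with h | h
      · exact absurd h h0
      · linarith
    have : ‖S.Ω - P S.Ω‖ ^ 2 = 0 := by
      rw [norm_sub_sq (𝕜 := ℂ), hΩξ, S.norm_Ω]
      simp only [Complex.ofReal_re, RCLike.re_to_complex]
      rw [← hα, h1]; norm_num
    exact (sub_eq_zero.1 (norm_eq_zero.1 (pow_eq_zero_iff two_ne_zero |>.1 this))).symm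

end Vale.Agent.P131.Final
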