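import Vale.Agent.P131.Cube

/-!
P131, the finite lemma. For a matrix `v` let `U` be the span of the orbit of its columns under the
commutant of `levelT m`. It splits along the grid, so it is invariant under `siteN m i * levelT m`;
the projection `F` on `U` minus its image has small rank, and `siteN m i * (v - F * v)` lies in the
two-sided orbit of `v`. Compactness of the sphere bounds the multipliers.
-/

open Matrix Finset

namespace Vale.Agent.P131.Finite

variable {R : ℕ} {m : Fin R → ℕ}

/-- Grid configurations. -/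
abbrev Grid (m : Fin R → ℕ) : Type := ∀ k : Fin R, Fin (m k + 1)

/-- The grid values of a configuration. -/
def grid (x : FCfg m) : Grid m := fun k => (x k).2

/-- The bits of a configuration. -/
def bits (x : FCfg m) : Bits R := fun k => (x k).1

/-- A configuration from bits and grid values. -/
def mk (a : Grid m) (b : Bits R) : FCfg m := fun k => (b k, a k)

theorem mk_eq (x : FCfg m) : mk (grid x) (bits x) = x := rfl

/-- The weights at fixed grid values. -/
noncomputable def wts (a : Grid m) (k : Fin R) : ℂ := wt k (a k)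

/-- Extension by zero from the configurations with grid values `a`. -/
def emb (a : Grid m) : (Bits R → ℂ) →ₗ[ℂ] (FCfg m → ℂ) where
  toFun u x := if grid x = a then u (bits x) else 0
  map_add' u v := funext fun x => by simp only [Pi.add_apply]; split_ifs <;> simp
  map_smul' c u := funext fun x => by
    simp only [Pi.smul_apply, RingHom.id_apply, smul_eq_mul]; split_ifs <;> simp

/-- Restriction to the configurations with grid values `a`. -/
def res (a : Grid m) : (FCfg m → ℂ) →ₗ[ℂ] (Bits R → ℂ) where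
  toFun z b := z (mk a b)
  map_add' _ _ := rfl
  map_smul' _ _ := rfl

theorem res_emb (a : Grid m) (u : Bits R → ℂ) : res a (emb a u) = u := by
  funext b
  exact if_pos rfl

theorem sum_emb_res (z : FCfg m → ℂ) : ∑ a, emb a (res a z) = z := by
  funext x
  simp only [Finset.sum_apply, emb, res, LinearMap.coe_mk, AddHom.coe_mk, Finset.sum_ite_eq,
    Finset.mem_univ, if_true, mk_eq]

theorem siteT_apply (k : Fin R) (z : FCfg m → ℂ) (x : FCfg m) :
    (siteT m k *ᵥ z) x
      = if (x k).1 = true then wt k (x k).2 * z (Function.update x k (false, (x k).2)) else 0 := by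
  simp only [Matrix.mulVec, dotProduct, siteT, Matrix.of_apply]
  by_cases hb : (x k).1 = true
  · rw [if_pos hb, Finset.sum_eq_single (Function.update x k (false, (x k).2))]
    · rw [if_pos ⟨by simp, by simp [← hb]⟩]
      simp
    · intro y _ hy
      rw [if_neg, zero_mul]
      rintro ⟨h1, h2⟩
      refine hy ?_
      have h3 : (x k).2 = (y k).2 := by rw [h2, Function.update_self]
      rw [h3, h2, Function.update_idem, ← h1]
      exact (Function.update_eq_self k y).symm
    · simp
  · rw [if_neg hb]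
    refine Finset.sum_eq_zero fun y _ => ?_
    rw [if_neg, zero_mul]
    rintro ⟨h1, h2⟩
    exact hb (by rw [h2, Function.update_self])

theorem levelT_res (a : Grid m) (z : FCfg m → ℂ) :
    res a (levelT m *ᵥ z) = cubeT (wts a) *ᵥ res a z := by
  funext b
  simp only [res, LinearMap.coe_mk, AddHom.coe_mk, levelT, Matrix.sum_mulVec, Finset.sum_apply,
    siteT_apply, Cube.cubeT_apply]
  refine Finset.sum_congr rfl fun k _ => ?_
  have e : Function.update (mk a b) k (false, (mk a b k).2) = mk a (Function.update b k false) := by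
    funext l
    rcases eq_or_ne l k with rfl | h
    · simp [mk]
    · simp [mk, h]
  rw [e]
  rfl

theorem siteN_res (a : Grid m) (i : Fin R) (z : FCfg m → ℂ) :
    res a (siteN m i *ᵥ z) = cubeN i *ᵥ res a z := by
  funext b
  simp only [res, LinearMap.coe_mk, AddHom.coe_mk, siteN, cubeN, Matrix.mulVec_diagonal]
  rfl

theorem res_ext {y z : FCfg m → ℂ} (h : ∀ a, res a y = res a z) : y = z := by
  rw [← sum_emb_res y, ← sum_emb_res z]
  exact Finset.sum_congr rfl fun a _ => by rw [h a]

theorem res_emb_ne {a a' : Grid m} (h : a' ≠ a) (u : Bits R → ℂ) : res a' (emb a u) = 0 := by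
  funext b
  exact if_neg h

/-- A matrix of one grid block, extended by zero. -/
noncomputable def block (a : Grid m) (Y : Matrix (Bits R) (Bits R) ℂ) :
    Matrix (FCfg m) (FCfg m) ℂ :=
  LinearMap.toMatrix' ((emb a).comp (Y.mulVecLin.comp (res a)))

theorem block_mulVec (a : Grid m) (Y : Matrix (Bits R) (Bits R) ℂ) (z : FCfg m → ℂ) :
    block a Y *ᵥ z = emb a (Y *ᵥ res a z) := by
  rw [block, LinearMap.toMatrix'_mulVec]
  rfl

theorem block_commute {a : Grid m} {Y : Matrix (Bits R) (Bits R) ℂ}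
    (hY : Commute Y (cubeT (wts a))) : Commute (block a Y) (levelT m) := by
  refine Matrix.ext_of_mulVec_single fun j => res_ext fun a' => ?_
  simp only [← Matrix.mulVec_mulVec, levelT_res, block_mulVec]
  rcases eq_or_ne a' a with rfl | h
  · simp only [res_emb, Matrix.mulVec_mulVec, hY.eq]
  · simp [res_emb_ne h]

/-- The span of the orbit of the columns of `v` under the commutant. -/
def orbit (v : Matrix (FCfg m) (FCfg m) ℂ) : Submodule ℂ (FCfg m → ℂ) :=
  Submodule.span ℂ {u | ∃ Y, Commute Y (levelT m) ∧ ∃ l, u = Y *ᵥ fun x => v x l}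

theorem orbit_invariant (v : Matrix (FCfg m) (FCfg m) ℂ) {Y : Matrix (FCfg m) (FCfg m) ℂ}
    (hY : Commute Y (levelT m)) {u : FCfg m → ℂ} (hu : u ∈ orbit v) : Y *ᵥ u ∈ orbit v := by
  refine Submodule.span_induction (p := fun u _ => Y *ᵥ u ∈ orbit v) ?_ ?_ ?_ ?_ hu
  · rintro _ ⟨Y', hY', l, rfl⟩
    rw [Matrix.mulVec_mulVec]
    exact Submodule.subset_span ⟨_, hY.mul_left hY', l, rfl⟩
  · rw [Matrix.mulVec_zero]; exact Submodule.zero_mem _
  · intro a b _ _ ha hb; rw [Matrix.mulVec_add]; exact Submodule.add_mem _ ha hb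
  · intro c a _ ha; rw [Matrix.mulVec_smul]; exact Submodule.smul_mem _ c ha

theorem column_mem (v : Matrix (FCfg m) (FCfg m) ℂ) (l : FCfg m) :
    (fun x => v x l) ∈ orbit v :=
  Submodule.subset_span ⟨1, Commute.one_left _, l, by rw [Matrix.one_mulVec]⟩

theorem orbit_nT (v : Matrix (FCfg m) (FCfg m) ℂ) (i : Fin R) {u : FCfg m → ℂ}
    (hu : u ∈ orbit v) : siteN m i *ᵥ (levelT m *ᵥ u) ∈ orbit v := by
  rw [← sum_emb_res (siteN m i *ᵥ (levelT m *ᵥ u))]
  refine Submodule.sum_mem _ fun a _ => ?_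
  rw [siteN_res, levelT_res, Matrix.mulVec_mulVec]
  have hw : ∀ k, wts a k ≠ 0 := fun k => by simp [wts, wt]
  refine ((cube R (wts a) hw).1 ((orbit v).comap (emb a)) ?_ i (res a u) ?_)
  · intro Y hY z hz
    have h := orbit_invariant v (block_commute hY) (Submodule.mem_comap.1 hz)
    rwa [block_mulVec, res_emb] at h
  · have h := orbit_invariant v (block_commute (a := a) (Commute.one_left _)) hu
    rwa [block_mulVec, Matrix.one_mulVec] at h

theorem ker_levelT_le :
    Module.finrank ℂ (LinearMap.ker (levelT m).mulVecLin)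
      ≤ Fintype.card (Grid m) * R.choose (R / 2) := by
  classical
  set L : LinearMap.ker (levelT m).mulVecLin →ₗ[ℂ]
      ∀ a : Grid m, LinearMap.ker (cubeT (wts a)).mulVecLin :=
    LinearMap.pi fun a => ((res a).comp (LinearMap.ker (levelT m).mulVecLin).subtype).codRestrict _
      fun z => by
        have h : levelT m *ᵥ (z : FCfg m → ℂ) = 0 := z.2
        simp [← levelT_res, h]
  have hL : Function.Injective L := fun y z h => Subtype.ext (res_ext fun a =>
    congrArg Subtype.val (congrFun h a))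
  refine (LinearMap.finrank_le_finrank_of_injective hL).trans ?_
  rw [Module.finrank_pi_fintype]
  refine (Finset.sum_le_card_nsmul _ _ (R.choose (R / 2)) fun a _ =>
    (cube R (wts a) fun k => by simp [wts, wt]).2).trans_eq ?_
  rw [Finset.card_univ, smul_eq_mul]

theorem card_cfg : Fintype.card (FCfg m) = Fintype.card (Grid m) * 2 ^ R := by
  rw [← Fintype.card_congr (show Grid m × Bits R ≃ FCfg m from
    ⟨fun p => mk p.1 p.2, fun x => (grid x, bits x), fun p => rfl, fun x => rfl⟩)]
  simp [Fintype.card_prod]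

/-- The projection of the lemma. -/
theorem proj_exists (v : Matrix (FCfg m) (FCfg m) ℂ) :
    ∃ F : Matrix (FCfg m) (FCfg m) ℂ, Fᴴ = F ∧ F * F = F ∧
      (ntr F).re ≤ (R.choose (R / 2) : ℝ) / 2 ^ R ∧
      ∀ (i : Fin R) (l : FCfg m), (fun x => (siteN m i * (v - F * v)) x l) ∈ orbit v := by
  classical
  set e := WithLp.linearEquiv 2 ℂ (FCfg m → ℂ)
  set f : EuclideanSpace ℂ (FCfg m) →ₗ[ℂ] EuclideanSpace ℂ (FCfg m) :=
    Matrix.toEuclideanLin (levelT m)
  set U : Submodule ℂ (EuclideanSpace ℂ (FCfg m)) := (orbit v).comap e.toLinearMap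
  set TU := U.map f
  have hTU : TU ≤ U := by
    rintro _ ⟨u, hu, rfl⟩
    exact orbit_invariant v (Commute.refl _) hu
  set W := TUᗮ ⊓ U
  have hW : Module.finrank ℂ W ≤ Fintype.card (Grid m) * R.choose (R / 2) := by
    have h1 := Submodule.finrank_add_inf_finrank_orthogonal hTU
    have h2 := (f.domRestrict U).finrank_range_add_finrank_ker
    rw [LinearMap.range_domRestrict] at h2
    have h3 : Module.finrank ℂ (LinearMap.ker (f.domRestrict U))
        ≤ Module.finrank ℂ (LinearMap.ker (levelT m).mulVecLin) := by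
      refine LinearMap.finrank_le_finrank_of_injective (f := (e.toLinearMap.comp
        (U.subtype.comp (LinearMap.ker (f.domRestrict U)).subtype)).codRestrict _ fun z => ?_) ?_
      · have h : f (z : U) = 0 := z.2
        exact congrArg e h
      · intro y z h
        exact Subtype.ext (Subtype.ext (e.injective (congrArg Subtype.val h)))
    have h4 := ker_levelT_le (m := m)
    have h2' : Module.finrank ℂ TU + Module.finrank ℂ (LinearMap.ker (f.domRestrict U))
        = Module.finrank ℂ U := h2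
    change Module.finrank ℂ ↥(TUᗮ ⊓ U) ≤ _
    omega
  set F : Matrix (FCfg m) (FCfg m) ℂ := (Matrix.toEuclideanCLM (𝕜 := ℂ)).symm W.starProjection
  have hF : Matrix.toEuclideanCLM (𝕜 := ℂ) F = W.starProjection := StarAlgEquiv.apply_symm_apply _ _
  refine ⟨F, ?_, ?_, ?_, fun i l => ?_⟩
  · have h : star F = F := by
      apply EquivLike.injective (Matrix.toEuclideanCLM (n := FCfg m) (𝕜 := ℂ))
      rw [map_star, hF, ContinuousLinearMap.star_eq_adjoint]
      exact isSelfAdjoint_starProjection W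
    exact h
  · apply EquivLike.injective (Matrix.toEuclideanCLM (n := FCfg m) (𝕜 := ℂ))
    rw [map_mul, hF]
    exact W.isIdempotentElem_starProjection
  · have htr : F.trace = (Module.finrank ℂ W : ℂ) := by
      have h : (Matrix.toEuclideanLin F) = W.starProjection.toLinearMap := by
        rw [← hF]; rfl
      have hp : LinearMap.IsProj W W.starProjection.toLinearMap :=
        ⟨fun x => W.starProjection_apply_mem x, fun x hx => Submodule.starProjection_eq_self_iff.2 hx⟩
      rw [← hp.trace, ← h, LinearMap.trace_eq_matrix_trace ℂ (EuclideanSpace.basisFun (FCfg m) ℂ).toBasis,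
        Matrix.toEuclideanLin_eq_toLin_orthonormal, LinearMap.toMatrix_toLin]
    rw [ntr, htr, Complex.div_natCast_re, Complex.natCast_re, card_cfg]
    push_cast
    rw [div_le_div_iff₀ (by positivity) (by positivity)]
    have := (Nat.cast_le (α := ℝ)).2 hW
    push_cast at this
    calc (Module.finrank ℂ W : ℝ) * 2 ^ R
        ≤ (Fintype.card (Grid m) : ℝ) * R.choose (R / 2) * 2 ^ R := by gcongr
      _ = _ := by ring
  · set c : EuclideanSpace ℂ (FCfg m) := e.symm fun x => v x l
    have hc : c ∈ U := column_mem v l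
    set p := TU.starProjection c
    have hp : p ∈ TU := TU.starProjection_apply_mem c
    have hq : W.starProjection c = c - p := by
      refine Submodule.eq_starProjection_of_mem_orthogonal
        ⟨TU.sub_starProjection_mem_orthogonal c, U.sub_mem hc (hTU hp)⟩ ?_
      rw [sub_sub_cancel]
      exact fun y hy => Submodule.inner_left_of_mem_orthogonal hp hy.1
    obtain ⟨u, hu, hup⟩ := hp
    have e1 : (fun x => (siteN m i * (v - F * v)) x l)
        = siteN m i *ᵥ (levelT m *ᵥ (e u)) := by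
      have h : (fun x => (v - F * v) x l) = e (c - W.starProjection c) := by
        rw [← hF]
        funext x
        simp [Matrix.mul_apply, Matrix.mulVec, dotProduct, e, c]
      rw [show (fun x => (siteN m i * (v - F * v)) x l) = siteN m i *ᵥ fun x => (v - F * v) x l from rfl,
        h, hq, sub_sub_cancel, ← hup]
      rfl
    rw [e1]
    exact orbit_nT v i hu

/-- A matrix with columns in the orbit is a combination `∑ Y * v * m`. -/
theorem exists_list {v Z : Matrix (FCfg m) (FCfg m) ℂ} (h : ∀ l, (fun x => Z x l) ∈ orbit v) :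
    ∃ s : List (Matrix (FCfg m) (FCfg m) ℂ × Matrix (FCfg m) (FCfg m) ℂ),
      (∀ p ∈ s, Commute p.1 (levelT m)) ∧ (s.map fun p => p.1 * v * p.2).sum = Z := by
  classical
  set S : Set (Matrix (FCfg m) (FCfg m) ℂ) :=
    {M | ∃ Y b, Commute Y (levelT m) ∧ M = Y * v * b}
  have hcol : ∀ (j : FCfg m) (u : FCfg m → ℂ), u ∈ orbit v →
      vecMulVec u (Pi.single j 1) ∈ Submodule.span ℂ S := fun j u hu => by
    refine Submodule.span_induction (p := fun u _ => vecMulVec u (Pi.single j 1) ∈ Submodule.span ℂ S)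
      ?_ ?_ ?_ ?_ hu
    · rintro _ ⟨Y, hY, l, rfl⟩
      refine Submodule.subset_span ⟨Y, Matrix.single l j 1, hY, ?_⟩
      rw [mul_assoc]
      ext x y
      simp [vecMulVec_apply, Matrix.mul_apply, Matrix.mulVec, dotProduct, Matrix.single_apply,
        Pi.single_apply, eq_comm, ite_and]
    · simp
    · intro a b _ _ ha hb; rw [add_vecMulVec]; exact Submodule.add_mem _ ha hb
    · intro c a _ ha; rw [smul_vecMulVec]; exact Submodule.smul_mem _ c ha
  have hZ : Z ∈ Submodule.span ℂ S := by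
    have e : Z = ∑ j, vecMulVec (fun x => Z x j) (Pi.single j 1) := by
      ext x y
      simp [Matrix.sum_apply, vecMulVec_apply, Pi.single_apply]
    rw [e]
    exact Submodule.sum_mem _ fun j _ => hcol j _ (h j)
  obtain ⟨N, f, g, hfg⟩ := (Submodule.mem_span_set').1 hZ
  choose Y b hY hg using fun k => (g k).2
  refine ⟨List.ofFn fun k => (f k • Y k, b k), ?_, ?_⟩
  · intro p hp
    obtain ⟨k, rfl⟩ := List.mem_ofFn.1 hp
    exact (hY k).smul_left (f k)
  · simp only [List.map_ofFn, List.sum_ofFn, Function.comp_apply, smul_mul_assoc, ← hg]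
    exact hfg

theorem fn2_eq (a : Matrix (FCfg m) (FCfg m) ℂ) :
    fn2 a = (∑ x, ∑ y, ‖a x y‖ ^ 2) / Fintype.card (FCfg m) := by
  rw [fn2, ntr, Complex.div_natCast_re, Finset.sum_comm]
  congr 1
  simp [Matrix.trace, Matrix.mul_apply, Complex.re_sum, ← Complex.normSq_eq_norm_sq,
    Complex.normSq_apply]

theorem continuous_fn2 : Continuous (fn2 : Matrix (FCfg m) (FCfg m) ℂ → ℝ) := by
  simp only [funext fn2_eq]
  fun_prop

theorem fn2_smul (r : ℝ) (a : Matrix (FCfg m) (FCfg m) ℂ) :
    fn2 ((r : ℂ) • a) = r ^ 2 * fn2 a := by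
  simp only [fn2_eq, Matrix.smul_apply, norm_smul, mul_pow, Complex.norm_real, Real.norm_eq_abs,
    sq_abs, ← Finset.mul_sum]
  ring

theorem fn2_nonneg (a : Matrix (FCfg m) (FCfg m) ℂ) : 0 ≤ fn2 a := by
  rw [fn2_eq]; positivity

theorem fn2_eq_zero {a : Matrix (FCfg m) (FCfg m) ℂ} (h : fn2 a = 0) : a = 0 := by
  rw [fn2_eq, div_eq_zero_iff, or_iff_left (Nat.cast_ne_zero.2 Fintype.card_ne_zero)] at h
  ext x y
  have h1 := (Finset.sum_eq_zero_iff_of_nonneg fun x _ => by positivity).1 h x (mem_univ x)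
  have h2 := (Finset.sum_eq_zero_iff_of_nonneg fun y _ => by positivity).1 h1 y (mem_univ y)
  simpa using h2

theorem isCompact_sphere : IsCompact {a : Matrix (FCfg m) (FCfg m) ℂ | fn2 a = 1} := by
  set c := (Fintype.card (FCfg m) : ℝ) + 1
  have h : IsCompact ({a : Matrix (FCfg m) (FCfg m) ℂ | ∀ x, ∀ y, a x y ∈ Metric.closedBall (0 : ℂ) c}) :=
    isCompact_pi_infinite fun _ => isCompact_pi_infinite fun _ => isCompact_closedBall _ _
  refine h.of_isClosed_subset (isClosed_eq continuous_fn2 continuous_const) fun a ha x y => ?_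
  simp only [Set.mem_ofPred_eq, fn2_eq] at ha
  rw [div_eq_one_iff_eq (Nat.cast_ne_zero.2 Fintype.card_ne_zero)] at ha
  rw [Metric.mem_closedBall, dist_zero_right]
  have h1 : ‖a x y‖ ^ 2 ≤ ∑ x, ∑ y, ‖a x y‖ ^ 2 :=
    (single_le_sum (f := fun y => ‖a x y‖ ^ 2) (fun _ _ => by positivity) (mem_univ y)).trans
      (single_le_sum (f := fun x => ∑ y, ‖a x y‖ ^ 2) (fun _ _ => by positivity) (mem_univ x))
  linarith [sq_nonneg (‖a x y‖ - 1)]

/-- The error of a choice of `F` and of multipliers. -/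
noncomputable def err (i : Fin R)
    (p : Matrix (FCfg m) (FCfg m) ℂ × List (Matrix (FCfg m) (FCfg m) ℂ × Matrix (FCfg m) (FCfg m) ℂ))
    (v : Matrix (FCfg m) (FCfg m) ℂ) : Matrix (FCfg m) (FCfg m) ℂ :=
  (p.2.map fun q => q.1 * v * q.2).sum - siteN m i * (v - p.1 * v)

theorem continuous_err (i : Fin R)
    (p : Matrix (FCfg m) (FCfg m) ℂ × List (Matrix (FCfg m) (FCfg m) ℂ × Matrix (FCfg m) (FCfg m) ℂ)) :
    Continuous (err i p) := by
  refine Continuous.sub (continuous_list_sum _ fun q _ => ?_) (by fun_prop)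
  fun_prop

theorem err_smul (i : Fin R)
    (p : Matrix (FCfg m) (FCfg m) ℂ × List (Matrix (FCfg m) (FCfg m) ℂ × Matrix (FCfg m) (FCfg m) ℂ))
    (c : ℂ) (v : Matrix (FCfg m) (FCfg m) ℂ) : err i p (c • v) = c • err i p v := by
  simp only [err, Matrix.mul_smul, Matrix.smul_mul, ← smul_sub]
  rw [smul_sub]
  congr 1
  induction p.2 with
  | nil => simp
  | cons q l ih => simp [ih, smul_add]

theorem esum_nonneg (a : Matrix (FCfg m) (FCfg m) ℂ) : 0 ≤ esum a := by
  unfold esum; positivity

/-- The finite lemma at one site. -/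
theorem site_bound (i : Fin R) :
    ∃ K : ℝ, 0 ≤ K ∧ ∀ v : Matrix (FCfg m) (FCfg m) ℂ,
      ∃ p : Matrix (FCfg m) (FCfg m) ℂ × List (Matrix (FCfg m) (FCfg m) ℂ × Matrix (FCfg m) (FCfg m) ℂ),
        p.1ᴴ = p.1 ∧ p.1 * p.1 = p.1 ∧ (ntr p.1).re ≤ (R.choose (R / 2) : ℝ) / 2 ^ R ∧
        (∀ q ∈ p.2, Commute q.1 (levelT m)) ∧
        (p.2.map fun q => esum q.1 * esum q.2).sum ≤ K ∧
        fn2 (err i p v) ≤ fn2 v / (R + 1) ^ 2 := by
  classical
  set P := {p : Matrix (FCfg m) (FCfg m) ℂ ×
    List (Matrix (FCfg m) (FCfg m) ℂ × Matrix (FCfg m) (FCfg m) ℂ) //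
      p.1ᴴ = p.1 ∧ p.1 * p.1 = p.1 ∧ (ntr p.1).re ≤ (R.choose (R / 2) : ℝ) / 2 ^ R ∧
      ∀ q ∈ p.2, Commute q.1 (levelT m)}
  set O : P → Set (Matrix (FCfg m) (FCfg m) ℂ) := fun p =>
    {v | fn2 (err i p.1 v) < fn2 v / (R + 1) ^ 2}
  have hO : ∀ p, IsOpen (O p) := fun p =>
    isOpen_lt (continuous_fn2.comp (continuous_err i p.1)) (continuous_fn2.div_const _)
  have hcov : {a : Matrix (FCfg m) (FCfg m) ℂ | fn2 a = 1} ⊆ ⋃ p, O p := fun v hv => by
    obtain ⟨F, h1, h2, h3, h4⟩ := proj_exists v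
    obtain ⟨s, hs, hsum⟩ := exists_list (h4 i)
    refine Set.mem_iUnion.2 ⟨⟨(F, s), h1, h2, h3, hs⟩, ?_⟩
    simp only [Set.mem_ofPred_eq] at hv ⊢
    simp only [O, Set.mem_ofPred_eq, err, hsum, sub_self, hv]
    rw [fn2_eq]
    simp only [Matrix.zero_apply, norm_zero, ne_eq, OfNat.ofNat_ne_zero, not_false_eq_true, zero_pow,
      Finset.sum_const_zero, zero_div]
    positivity
  obtain ⟨t, ht⟩ := isCompact_sphere.elim_finite_subcover O hO hcov
  set cost : P → ℝ := fun p => (p.1.2.map fun q => esum q.1 * esum q.2).sum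
  have hcost : ∀ p, 0 ≤ cost p := fun p => List.sum_nonneg fun r hr => by
    obtain ⟨q, _, rfl⟩ := List.mem_map.1 hr
    exact mul_nonneg (esum_nonneg _) (esum_nonneg _)
  refine ⟨∑ p ∈ t, cost p, Finset.sum_nonneg fun p _ => hcost p, fun v => ?_⟩
  rcases eq_or_ne v 0 with rfl | hv
  · refine ⟨(0, []), by simp, by simp, ?_, by simp, ?_, ?_⟩
    · simp only [ntr, Matrix.trace_zero, zero_div, Complex.zero_re]; positivity
    · simpa using Finset.sum_nonneg fun p _ => hcost p
    · simp [err, fn2, ntr]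
  have hpos : 0 < fn2 v := (fn2_nonneg v).lt_of_ne fun h => hv (fn2_eq_zero h.symm)
  set r := Real.sqrt (fn2 v)
  have hr : 0 < r := Real.sqrt_pos.2 hpos
  have hr2 : r ^ 2 = fn2 v := Real.sq_sqrt hpos.le
  set v1 := ((r⁻¹ : ℝ) : ℂ) • v
  have h1 : fn2 v1 = 1 := by
    rw [fn2_smul, inv_pow, hr2, inv_mul_cancel₀ hpos.ne']
  obtain ⟨p, hp, hvp⟩ := Set.mem_iUnion₂.1 (ht (show v1 ∈ _ from h1))
  obtain ⟨p1, p2, p3, p4⟩ := p.2
  refine ⟨p.1, p1, p2, p3, p4, Finset.single_le_sum (fun q _ => hcost q) hp, ?_⟩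
  simp only [O, Set.mem_ofPred_eq, v1, err_smul, fn2_smul] at hvp
  rw [mul_div_assoc] at hvp
  exact le_of_mul_le_mul_left hvp.le (by positivity)

end Vale.Agent.P131.Finite

namespace Vale.Agent.P131

open Vale.Agent.P131.Finite in
/-- The finite lemma. -/
theorem finite : FiniteStmt := by
  intro R m
  choose K hK0 hK using fun i => site_bound (m := m) i
  refine ⟨∑ i, K i, fun i v => ?_⟩
  obtain ⟨⟨F, s⟩, h1, h2, h3, h4, h5, h6⟩ := hK i v
  exact ⟨F, s, h1, h2, h3, h4, h5.trans (Finset.single_le_sum (fun j _ => hK0 j) (Finset.mem_univ i)), h6⟩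

end Vale.Agent.P131
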