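import Vale.Agent.P131.Site

/-!
P131: norm bounds, the operator `T`, and commutation with it.
-/

open Matrix Filter Topology
open scoped InnerProductSpace InnerProduct

namespace Vale.Agent.P131

theorem lift_sum {M : ℕ → ℕ} {n k : ℕ} (h : n ≤ k) {α : Type*} (s : Finset α) (f : α → Mat M n) :
    lift h (∑ i ∈ s, f i) = ∑ i ∈ s, lift h (f i) :=
  map_sum (AddMonoidHom.mk' (lift h) (lift_add h)) f s

variable {M : ℕ → ℕ} {H : Type} [NormedAddCommGroup H] [InnerProductSpace ℂ H] [CompleteSpace H]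
variable (S : Model M H)

namespace Model

theorem norm_L_le_of_proj {n : ℕ} {a e : Mat M n} (h : aᴴ * a = e) (he : e * e = e) (u : H) :
    ‖S.L n a u‖ ≤ ‖u‖ := by
  refine norm_apply_le_of_proj (e := S.L n e) ?_ ?_ u
  · rw [S.L_adjoint, ← S.L_mul, h]
  · rw [← S.L_mul, he]

theorem norm_R_le_of_proj {n : ℕ} {a e : Mat M n} (h : a * aᴴ = e) (he : e * e = e) (u : H) :
    ‖S.R n a u‖ ≤ ‖u‖ := by
  refine norm_apply_le_of_proj (e := S.R n e) ?_ ?_ u
  · rw [S.R_adjoint, ← S.R_mul, h]
  · rw [← S.R_mul, he]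

theorem norm_L_siteU {n : ℕ} (k : Fin n) (p q : Bool × Fin (M k + 1)) (u : H) :
    ‖S.L n (siteU (fun j : Fin n => M j) k p q) u‖ ≤ ‖u‖ :=
  S.norm_L_le_of_proj (e := siteU (fun j : Fin n => M j) k q q)
    (by rw [siteU_conjTranspose, siteU_mul]) (siteU_mul _ _ _ _) u

theorem norm_R_siteU {n : ℕ} (k : Fin n) (p q : Bool × Fin (M k + 1)) (u : H) :
    ‖S.R n (siteU (fun j : Fin n => M j) k p q) u‖ ≤ ‖u‖ :=
  S.norm_R_le_of_proj (e := siteU (fun j : Fin n => M j) k p p)
    (by rw [siteU_conjTranspose, siteU_mul]) (siteU_mul _ _ _ _) u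

theorem norm_L_single {n : ℕ} (x y : Cfg M n) (u : H) :
    ‖S.L n (Matrix.single x y (1 : ℂ)) u‖ ≤ ‖u‖ :=
  S.norm_L_le_of_proj (e := Matrix.single y y (1 : ℂ)) (by simp) (by simp) u

theorem norm_R_single {n : ℕ} (x y : Cfg M n) (u : H) :
    ‖S.R n (Matrix.single x y (1 : ℂ)) u‖ ≤ ‖u‖ :=
  S.norm_R_le_of_proj (e := Matrix.single x x (1 : ℂ)) (by simp) (by simp) u

theorem norm_L_le_esum {n : ℕ} (a : Mat M n) (u : H) : ‖S.L n a u‖ ≤ esum a * ‖u‖ := by
  conv_lhs => rw [matrix_eq_sum_single a]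
  rw [S.L_sum, _root_.sum_apply, esum, Finset.sum_mul]
  refine (norm_sum_le _ _).trans (Finset.sum_le_sum fun x _ => ?_)
  rw [S.L_sum, _root_.sum_apply, Finset.sum_mul]
  refine (norm_sum_le _ _).trans (Finset.sum_le_sum fun y _ => ?_)
  rw [show Matrix.single x y (a x y) = a x y • Matrix.single x y (1 : ℂ) by simp, S.L_smul]
  change ‖a x y • (S.L n (Matrix.single x y 1) u)‖ ≤ _
  rw [norm_smul]
  exact mul_le_mul_of_nonneg_left (S.norm_L_single x y u) (norm_nonneg _)

theorem norm_R_le_esum {n : ℕ} (a : Mat M n) (u : H) : ‖S.R n a u‖ ≤ esum a * ‖u‖ := by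
  conv_lhs => rw [matrix_eq_sum_single a]
  rw [S.R_sum, _root_.sum_apply, esum, Finset.sum_mul]
  refine (norm_sum_le _ _).trans (Finset.sum_le_sum fun x _ => ?_)
  rw [S.R_sum, _root_.sum_apply, Finset.sum_mul]
  refine (norm_sum_le _ _).trans (Finset.sum_le_sum fun y _ => ?_)
  rw [show Matrix.single x y (a x y) = a x y • Matrix.single x y (1 : ℂ) by simp, S.R_smul]
  change ‖a x y • (S.R n (Matrix.single x y 1) u)‖ ≤ _
  rw [norm_smul]
  exact mul_le_mul_of_nonneg_left (S.norm_R_single x y u) (norm_nonneg _)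

/-- The `k`-th term of `T`. -/
noncomputable def term (k : ℕ) : H →L[ℂ] H :=
  S.L (k + 1) (siteT (fun j : Fin (k + 1) => M j) (Fin.last k))

theorem norm_term_le (k : ℕ) : ‖S.term k‖ ≤ 2 * (2 : ℝ)⁻¹ ^ k := by
  refine ContinuousLinearMap.opNorm_le_bound _ (by positivity) fun u => ?_
  rw [term, siteT_eq, S.L_sum, _root_.sum_apply]
  calc _ ≤ ∑ a : Fin (M k + 1), (2 : ℝ)⁻¹ ^ (k + (a : ℕ)) * ‖u‖ := by
        refine (norm_sum_le _ _).trans (Finset.sum_le_sum fun a _ => ?_)
        rw [S.L_smul]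
        change ‖wt _ _ • (S.L (k + 1) _ u)‖ ≤ _
        rw [norm_smul]
        refine mul_le_mul (le_of_eq ?_) (S.norm_L_siteU _ _ _ _) (norm_nonneg _) (by positivity)
        simp [wt, norm_pow]
    _ ≤ 2 * (2 : ℝ)⁻¹ ^ k * ‖u‖ := by
        rw [← Finset.sum_mul]
        refine mul_le_mul_of_nonneg_right ?_ (norm_nonneg _)
        simp only [pow_add]
        rw [← Finset.mul_sum, mul_comm (2 : ℝ)]
        refine mul_le_mul_of_nonneg_left ?_ (by positivity)
        rw [Fin.sum_univ_eq_sum_range (fun a => (2 : ℝ)⁻¹ ^ a)]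
        refine (Summable.sum_le_tsum _ (fun a _ => by positivity)
          (summable_geometric_of_lt_one (by norm_num) (by norm_num))).trans ?_
        rw [tsum_geometric_of_lt_one (by norm_num) (by norm_num)]
        norm_num

theorem summable_term : Summable S.term :=
  Summable.of_norm_bounded ((summable_geometric_of_lt_one (by norm_num) (by norm_num)).mul_left 2)
    S.norm_term_le

/-- The operator. -/
noncomputable def T : H →L[ℂ] H := ∑' k, S.term k

theorem lift_levelT (n : ℕ) :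
    levelT (fun j : Fin (n + 1) => M j) =
      lift (Nat.le_succ n) (levelT (fun j : Fin n => M j)) +
        siteT (fun j : Fin (n + 1) => M j) (Fin.last n) := by
  rw [levelT, levelT, Fin.sum_univ_castSucc, lift_sum]
  congr 1
  refine Finset.sum_congr rfl fun i _ => ?_
  rw [siteT_eq, siteT_eq, lift_sum]
  refine Finset.sum_congr rfl fun a _ => ?_
  rw [lift_smul]
  exact congrArg _ (lift_siteU (Nat.le_succ n) i _ _).symm

theorem L_levelT (n : ℕ) :
    S.L n (levelT (fun j : Fin n => M j)) = ∑ k ∈ Finset.range n, S.term k := by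
  induction n with
  | zero => rw [Finset.sum_range_zero, levelT, Fin.sum_univ_zero, S.L_zero]
  | succ n ih => rw [lift_levelT, S.L_add, S.L_lift, ih, Finset.sum_range_succ]; rfl

theorem tendsto_L_levelT :
    Tendsto (fun n => S.L n (levelT (fun j : Fin n => M j))) atTop (𝓝 S.T) := by
  simp only [S.L_levelT]
  exact S.summable_term.hasSum.tendsto_sum_nat

theorem commute_T {n : ℕ} {Y : Mat M n} (hY : Commute Y (levelT (fun j : Fin n => M j))) :
    Commute (S.L n Y) S.T := by
  have h2 : ∀ k (hk : n ≤ k), Commute (lift hk Y) (levelT (fun j : Fin k => M j)) := by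
    intro k hk
    induction k, hk using Nat.le_induction with
    | base => rwa [lift_self]
    | succ k hk ih =>
      rw [lift_levelT, ← lift_lift hk (Nat.le_succ k)]
      refine Commute.add_right ?_ ?_
      · rw [Commute, SemiconjBy, ← lift_mul, ← lift_mul, ih.eq]
      · rw [lift_lift, siteT_eq]
        exact Commute.sum_right _ _ _ fun a _ =>
          (lift_commute_siteU _ Y _ (by simpa using hk) _ _).smul_right _
  refine tendsto_nhds_unique (l := atTop) ((tendsto_const_nhds (x := S.L n Y)).mul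
    S.tendsto_L_levelT) ?_
  refine (S.tendsto_L_levelT.mul (tendsto_const_nhds (x := S.L n Y))).congr' ?_
  filter_upwards [eventually_ge_atTop n] with k hk
  rw [← S.L_lift n k hk, ← S.L_mul, ← S.L_mul, (h2 k hk).eq]

theorem R_commute_T (n : ℕ) (a : Mat M n) : Commute (S.R n a) S.T := by
  refine tendsto_nhds_unique (l := atTop) ((tendsto_const_nhds (x := S.R n a)).mul
    S.tendsto_L_levelT) ?_
  refine (S.tendsto_L_levelT.mul (tendsto_const_nhds (x := S.R n a))).congr' ?_
  exact Filter.Eventually.of_forall fun k => (S.L_commute_R k n _ a).eq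

end Model

end Vale.Agent.P131
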