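import Vale.Agent.P131.OrbitGlue

/-!
P131: the orbit step.

A vector `P Ω` is approximated by its tail pinching, which at level `k` is a block diagonal
matrix `glue h v = ∑ y, lift (v y) * atom y`. The finite lemma is applied blockwise. The
multipliers of the blocks are glued by the orthogonal right projections `R (atom y)`.
-/

open Matrix
open scoped InnerProductSpace InnerProduct

namespace Vale.Agent.P131.Orbit

variable {M : ℕ → ℕ} {n k : ℕ} {H : Type} [NormedAddCommGroup H] [InnerProductSpace ℂ H] [CompleteSpace H]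

omit [CompleteSpace H] in
theorem norm_sum_sq {α : Type*} [Fintype α] {f : α → H}
    (hf : ∀ i j, i ≠ j → ⟪f i, f j⟫_ℂ = 0) : ‖∑ i, f i‖ ^ 2 = ∑ i, ‖f i‖ ^ 2 := by
  classical
  rw [norm_sq_eq_re_inner (𝕜 := ℂ), sum_inner, map_sum]
  refine Finset.sum_congr rfl fun i _ => ?_
  rw [inner_sum, Finset.sum_eq_single i (fun j _ hj => hf i j hj.symm) (by simp),
    ← norm_sq_eq_re_inner (𝕜 := ℂ)]

variable (S : Model M H)

theorem R_atom_twice (h : n ≤ k) (y : Tail M n k) (u : H) :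
    S.R k (atom h y) (S.R k (atom h y) u) = S.R k (atom h y) u := by
  change (S.R k (atom h y) * S.R k (atom h y)) u = _
  rw [← S.R_mul, atom_mul, if_pos rfl]

/-- The right tail atoms are orthogonal. -/
theorem norm_sum_R_atom (h : n ≤ k) (w : Tail M n k → H) :
    ‖∑ y, S.R k (atom h y) (w y)‖ ^ 2 = ∑ y, ‖S.R k (atom h y) (w y)‖ ^ 2 := by
  refine norm_sum_sq fun i j hij => ?_
  rw [← ContinuousLinearMap.adjoint_inner_right, S.R_adjoint, atom_conjTranspose]
  change ⟪w i, (S.R k (atom h i) * S.R k (atom h j)) (w j)⟫_ℂ = 0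
  rw [← S.R_mul, atom_mul, if_neg hij.symm, S.R_zero]
  simp

theorem norm_sq_resolution (h : n ≤ k) (u : H) :
    ∑ y, ‖S.R k (atom h y) u‖ ^ 2 = ‖u‖ ^ 2 := by
  rw [← norm_sum_R_atom S h fun _ => u, ← _root_.sum_apply, ← S.R_sum, sum_atom, S.R_one]
  rfl

theorem norm_pinchTail_le (h : n ≤ k) (u : H) : ‖pinchTail S h u‖ ≤ ‖u‖ := by
  rw [← pow_le_pow_iff_left₀ (norm_nonneg _) (norm_nonneg _) two_ne_zero]
  have e : ∀ y, S.L k (atom h y) (S.R k (atom h y) u) = S.R k (atom h y) (S.L k (atom h y) u) :=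
    fun y => congrArg (fun A => A u) (S.L_commute_R k k (atom h y) (atom h y)).eq
  calc ‖pinchTail S h u‖ ^ 2 = ‖∑ y, S.R k (atom h y) (S.L k (atom h y) u)‖ ^ 2 := by
        rw [pinchTail, _root_.sum_apply]
        simp [e]
    _ = ∑ y, ‖S.L k (atom h y) (S.R k (atom h y) u)‖ ^ 2 := by
        rw [norm_sum_R_atom]; simp [e]
    _ ≤ ∑ y, ‖S.R k (atom h y) u‖ ^ 2 := by
        refine Finset.sum_le_sum fun y _ => pow_le_pow_left₀ (norm_nonneg _) ?_ 2
        exact S.norm_L_le_of_proj (e := atom h y)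
          (by rw [atom_conjTranspose, atom_mul, if_pos rfl]) (by rw [atom_mul, if_pos rfl]) _
    _ = ‖u‖ ^ 2 := norm_sq_resolution S h u

theorem pinchTail_ι (h : n ≤ k) (c : Mat M k) :
    pinchTail S h (S.ι k c) = S.ι k (glue h (sect h c)) := by
  rw [pinchTail, _root_.sum_apply, glue_sect, map_sum]
  refine Finset.sum_congr rfl fun y _ => ?_
  change S.L k _ (S.R k _ (S.ι k c)) = _
  rw [S.R_ι, S.L_ι, Matrix.mul_assoc]

/-- The operator of a list of two-sided multipliers. -/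
noncomputable def phi (s : List (Mat M n × Mat M n)) : H →L[ℂ] H :=
  (s.map fun p => S.L n p.1 * S.R n p.2).sum

theorem phi_commute {A : H →L[ℂ] H} {s : List (Mat M n × Mat M n)}
    (hs : ∀ p ∈ s, Commute (S.L n p.1 * S.R n p.2) A) : Commute (phi S s) A := by
  refine Commute.list_sum_left _ _ fun x hx => ?_
  obtain ⟨p, hp, rfl⟩ := List.mem_map.1 hx
  exact hs p hp

theorem phi_commute_R_atom (h : n ≤ k) (s : List (Mat M n × Mat M n)) (y : Tail M n k) :
    Commute (phi S s) (S.R k (atom h y)) := by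
  refine phi_commute S fun p _ => Commute.mul_left (S.L_commute_R n k p.1 (atom h y)) ?_
  rw [← S.R_lift n k h, Commute, SemiconjBy, ← S.R_mul, ← S.R_mul,
    (lift_commute_atom h p.2 y).eq]

theorem norm_phi_le (s : List (Mat M n × Mat M n)) (u : H) :
    ‖phi S s u‖ ≤ (s.map fun p => esum p.1 * esum p.2).sum * ‖u‖ := by
  induction s with
  | nil => simp [phi]
  | cons p s ih =>
    simp only [phi, List.map_cons, List.sum_cons, add_mul]
    refine (norm_add_le _ _).trans (add_le_add ?_ ih)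
    refine (S.norm_L_le_esum p.1 _).trans ?_
    rw [mul_assoc]
    refine mul_le_mul_of_nonneg_left (S.norm_R_le_esum p.2 u) ?_
    exact Finset.sum_nonneg fun _ _ => Finset.sum_nonneg fun _ _ => norm_nonneg _

theorem phi_ι (h : n ≤ k) (s : List (Mat M n × Mat M n)) (v : Mat M n) (y : Tail M n k) :
    phi S s (S.ι k (lift h v * atom h y)) =
      S.ι k (lift h ((s.map fun p => p.1 * v * p.2).sum) * atom h y) := by
  induction s with
  | nil =>
    have h0 : lift h (0 : Mat M n) = 0 := map_zero (AddMonoidHom.mk' (lift h) (lift_add h))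
    simp [phi, h0]
  | cons p s ih =>
    simp only [phi, List.map_cons, List.sum_cons, lift_add, Matrix.add_mul, map_add]
    refine congrArg₂ (· + ·) ?_ ih
    change S.L n p.1 (S.R n p.2 (S.ι k (lift h v * atom h y))) = _
    rw [S.R_ι_of_le h, S.L_ι_of_le h, lift_mul, lift_mul, Matrix.mul_assoc (lift h v) (atom h y),
      ← (lift_commute_atom h p.2 y).eq]
    simp only [Matrix.mul_assoc]

/-- A level vector close to `z`. -/
theorem exists_level (z : H) (n : ℕ) {d : ℝ} (hd : 0 < d) :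
    ∃ k, n ≤ k ∧ ∃ c, ‖S.ι k c - z‖ ≤ d := by
  obtain ⟨b, hb, hzb⟩ := Metric.mem_closure_iff.1 (S.dense z) d hd
  obtain ⟨j, a, rfl⟩ := Set.mem_iUnion.1 hb
  refine ⟨max n j, le_max_left _ _, lift (le_max_right n j) a, ?_⟩
  rw [S.ι_lift, ← dist_eq_norm, dist_comm]
  exact hzb.le

variable {P : H →L[ℂ] H}

theorem norm_one_sub_le (hP : Hyp S P) (x : H) : ‖(1 - P) x‖ ≤ ‖x‖ := by
  have e : (1 - P) * (1 - P) = 1 - P := by
    rw [sub_mul, one_mul, mul_sub, mul_one, hP.idem, sub_self, sub_zero]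
  refine Model.norm_apply_le_of_proj (e := 1 - P) ?_ e x
  rw [← ContinuousLinearMap.star_eq_adjoint, star_sub, star_one,
    ContinuousLinearMap.star_eq_adjoint, hP.adj, e]

theorem one_sub_phi_eq_zero (hP : Hyp S P) {s : List (Mat M n × Mat M n)}
    (hs : ∀ p ∈ s, Commute p.1 (levelT (fun j : Fin n => M j))) (a : Mat M k) :
    (1 - P) (phi S s (S.R k a (P S.Ω))) = 0 := by
  have hx : P (S.R k a (P S.Ω)) = S.R k a (P S.Ω) := by
    change (P * S.R k a) (P S.Ω) = _
    rw [(hP.commute_R k a).eq]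
    change S.R k a (P (P S.Ω)) = _
    rw [hP.apply_self]
  have hT : Commute (phi S s) S.T :=
    phi_commute S fun p hp => Commute.mul_left (S.commute_T (hs p hp)) (S.R_commute_T n p.2)
  change phi S s (S.R k a (P S.Ω)) - P (phi S s (S.R k a (P S.Ω))) = 0
  rw [hP.apply_of_commute hT hx, sub_self]

/-- A projection at level `k` sends `P Ω` to a vector no longer than the root of its trace. -/
theorem norm_L_proj_PΩ (hP : Hyp S P) {G : Mat M k} (hG : Gᴴ = G) :
    ‖S.L k G (P S.Ω)‖ ≤ ‖S.ι k G‖ := by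
  have hc : ∀ m a, Commute (P * S.L k G) (S.R m a) := fun m a =>
    Commute.mul_left (hP.commute_R m a) (S.L_commute_R k m G a)
  have h1 := S.norm_adjoint_Ω hc
  rw [ContinuousLinearMap.mul_def, ContinuousLinearMap.adjoint_comp, hP.adj, S.L_adjoint, hG]
    at h1
  calc ‖S.L k G (P S.Ω)‖ = ‖P (S.L k G S.Ω)‖ := h1
    _ ≤ ‖S.ι k G‖ := by rw [S.L_Ω]; exact hP.norm_apply_le _

theorem norm_sum_phi_le (h : n ≤ k) (s : Tail M n k → List (Mat M n × Mat M n)) {C : ℝ}
    (hC : 0 ≤ C) (hs : ∀ y, ((s y).map fun p => esum p.1 * esum p.2).sum ≤ C) (u : H) :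
    ‖∑ y, phi S (s y) (S.R k (atom h y) u)‖ ≤ C * ‖u‖ := by
  rw [← pow_le_pow_iff_left₀ (norm_nonneg _) (by positivity) two_ne_zero]
  have hc : ∀ y, phi S (s y) (S.R k (atom h y) u) =
      S.R k (atom h y) (phi S (s y) (S.R k (atom h y) u)) := by
    intro y
    conv_lhs => rw [← R_atom_twice S h y u]
    exact congrArg (fun A => A (S.R k (atom h y) u)) (phi_commute_R_atom S h (s y) y).eq
  calc ‖∑ y, phi S (s y) (S.R k (atom h y) u)‖ ^ 2
      = ∑ y, ‖phi S (s y) (S.R k (atom h y) u)‖ ^ 2 := by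
        rw [Finset.sum_congr rfl fun y _ => hc y, norm_sum_R_atom]
        simp only [← hc]
    _ ≤ ∑ y, C ^ 2 * ‖S.R k (atom h y) u‖ ^ 2 := by
        refine Finset.sum_le_sum fun y _ => ?_
        rw [← mul_pow]
        exact pow_le_pow_left₀ (norm_nonneg _) ((norm_phi_le S _ _).trans
          (mul_le_mul_of_nonneg_right (hs y) (norm_nonneg _))) 2
    _ = (C * ‖u‖) ^ 2 := by rw [← Finset.mul_sum, norm_sq_resolution, mul_pow]

theorem norm_glue_proj_le (h : n ≤ k) {F : Tail M n k → Mat M n} {t : ℝ}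
    (hadj : ∀ y, (F y)ᴴ = F y) (hidem : ∀ y, F y * F y = F y) (ht : ∀ y, (ntr (F y)).re ≤ t) :
    ‖S.ι k (glue h F)‖ ≤ Real.sqrt t := by
  have : Nonempty (Tail M n k) := ⟨fun _ => (false, 0)⟩
  refine Real.le_sqrt_of_sq_le ?_
  rw [S.norm_sq_ι, fn2_glue, div_le_iff₀ (Nat.cast_pos.2 Fintype.card_pos)]
  calc ∑ y, fn2 (F y) = ∑ y, (ntr (F y)).re := by simp [fn2, hadj, hidem]
    _ ≤ ∑ _y : Tail M n k, t := Finset.sum_le_sum fun y _ => ht y
    _ = _ := by simp [mul_comm]

theorem norm_glue_le (h : n ≤ k) {e v : Tail M n k → Mat M n} {r : ℝ} (hr : 0 < r)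
    (he : ∀ y, fn2 (e y) ≤ fn2 (v y) / r ^ 2) :
    ‖S.ι k (glue h e)‖ ≤ ‖S.ι k (glue h v)‖ / r := by
  rw [← pow_le_pow_iff_left₀ (norm_nonneg _) (by positivity) two_ne_zero, div_pow,
    S.norm_sq_ι, S.norm_sq_ι, fn2_glue, fn2_glue, div_right_comm]
  refine div_le_div_of_nonneg_right ?_ (Nat.cast_nonneg _)
  rw [Finset.sum_div]
  exact Finset.sum_le_sum fun y _ => he y

theorem L_glue_split (h : n ≤ k) (a : Mat M n) (F v : Tail M n k → Mat M n)
    (s : Tail M n k → List (Mat M n × Mat M n)) :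
    S.L n a (S.ι k (glue h v)) = S.L n a (S.L k (glue h F) (S.ι k (glue h v))) +
      (∑ y, phi S (s y) (S.R k (atom h y) (S.ι k (glue h v)))) -
      S.ι k (glue h fun y => ((s y).map fun p => p.1 * v y * p.2).sum -
        a * (v y - F y * v y)) := by
  have hphi : ∑ y, phi S (s y) (S.R k (atom h y) (S.ι k (glue h v))) =
      S.ι k (glue h fun y => ((s y).map fun p => p.1 * v y * p.2).sum) := by
    conv_rhs => rw [glue, map_sum]
    refine Finset.sum_congr rfl fun y _ => ?_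
    rw [S.R_ι, glue_mul_atom, phi_ι]
  rw [hphi, S.L_ι, glue_mul, S.L_ι_of_le h, S.L_ι_of_le h, lift_mul_glue, lift_mul_glue,
    eq_sub_iff_add_eq, ← map_add, ← map_add, ← glue_add, ← glue_add]
  refine congrArg (fun w => S.ι k (glue h w)) (funext fun y => ?_)
  simp only [Matrix.mul_sub]
  abel

theorem norm_L_siteN_le (i : Fin n) (u : H) :
    ‖S.L n (siteN (fun j : Fin n => M j) i) u‖ ≤ ‖u‖ := by
  refine S.norm_L_le_of_proj (e := siteN (fun j : Fin n => M j) i) ?_ ?_ u <;>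
    simp only [siteN, diagonal_conjTranspose, diagonal_mul_diagonal] <;>
    congr 1 <;> funext x <;> by_cases hx : (x i).1 = false <;> simp [hx]

theorem near_pinched (h : n ≤ k) {c : Mat M k} {w : H} {d ε : ℝ} (hc : ‖S.ι k c - w‖ ≤ d)
    (hw : ‖w - pinchTail S h w‖ ≤ ε) : ‖S.ι k (glue h (sect h c)) - w‖ ≤ ε + d := by
  rw [← pinchTail_ι]
  calc _ = ‖pinchTail S h (S.ι k c - w) - (w - pinchTail S h w)‖ := by
        rw [map_sub]; congr 1; abel
    _ ≤ d + ε := (norm_sub_le _ _).trans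
        (add_le_add ((norm_pinchTail_le S h _).trans hc) hw)
    _ = ε + d := add_comm _ _

end Vale.Agent.P131.Orbit

namespace Vale.Agent.P131

open Orbit

variable {M : ℕ → ℕ} {H : Type} [NormedAddCommGroup H] [InnerProductSpace ℂ H] [CompleteSpace H]

/-- The orbit step. -/
theorem orbit {S : Model M H} {P : H →L[ℂ] H} (hP : Hyp S P) : OrbitStmt S P := by
  intro N K ε hF hpinch i
  have hε : 0 ≤ ε := (norm_nonneg _).trans (hpinch N le_rfl)
  set t : ℝ := (N.choose (N / 2) : ℝ) / 2 ^ N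
  have hK : 0 ≤ |K| := abs_nonneg K
  refine le_of_forall_pos_le_add fun δ hδ => ?_
  obtain ⟨k, hk, c, hc⟩ := exists_level S (P S.Ω) N (d := δ / (|K| + 3)) (by positivity)
  set d : ℝ := δ / (|K| + 3)
  have hd0 : 0 ≤ d := (norm_nonneg _).trans hc
  set v := sect hk c
  set z := S.ι k (glue hk v) with hz
  have hdist : ‖z - P S.Ω‖ ≤ ε + d := near_pinched S hk hc (hpinch k hk)
  choose F s hFadj hFidem hFtr hsc hsK hres using fun y => hF i (v y)
  set n' := siteN (fun j : Fin N => M j) i with hn'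
  set G := glue hk F
  have hGh : Gᴴ = G := by simp [G, glue_conjTranspose, hFadj]
  have hGi : G * G = G := by simp [G, glue_mul, hFidem]
  have hGn : ‖S.ι k G‖ ≤ Real.sqrt t := norm_glue_proj_le S hk hFadj hFidem hFtr
  have hGz : ‖S.L k G z‖ ≤ Real.sqrt t + (ε + d) := by
    calc ‖S.L k G z‖ = ‖S.L k G (P S.Ω) + S.L k G (z - P S.Ω)‖ := by
          rw [← map_add, add_sub_cancel]
      _ ≤ _ := (norm_add_le _ _).trans (add_le_add ((norm_L_proj_PΩ S hP hGh).trans hGn)
          ((S.norm_L_le_of_proj (e := G) (by rw [hGh, hGi]) hGi _).trans hdist))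
  have hn1 : ∀ u, ‖S.L N n' u‖ ≤ ‖u‖ := norm_L_siteN_le S i
  have hphi : ‖(1 - P) (∑ y, phi S (s y) (S.R k (atom hk y) z))‖ ≤ |K| * (ε + d) := by
    have heq : (1 - P) (∑ y, phi S (s y) (S.R k (atom hk y) z)) =
        (1 - P) (∑ y, phi S (s y) (S.R k (atom hk y) (z - P S.Ω))) := by
      rw [map_sum, map_sum]
      refine Finset.sum_congr rfl fun y _ => ?_
      rw [map_sub, map_sub, map_sub, one_sub_phi_eq_zero S hP (hsc y), sub_zero]
    rw [heq]
    exact (norm_one_sub_le S hP _).trans ((norm_sum_phi_le S hk s hK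
      (fun y => (hsK y).trans (le_abs_self K)) _).trans (mul_le_mul_of_nonneg_left hdist hK))
  have hN : (0 : ℝ) < N + 1 := by positivity
  have hzn : ‖z‖ ≤ 1 + (ε + d) := by
    calc ‖z‖ = ‖P S.Ω + (z - P S.Ω)‖ := by rw [add_sub_cancel]
      _ ≤ _ := (norm_add_le _ _).trans
        (add_le_add ((hP.norm_apply_le _).trans S.norm_Ω.le) hdist)
  have main : ‖(1 - P) (S.L N n' z)‖ ≤
      Real.sqrt t + (ε + d) + |K| * (ε + d) + (1 + (ε + d)) / (N + 1) := by
    rw [hz, L_glue_split S hk n' F v s, map_sub, map_add]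
    refine (norm_sub_le _ _).trans (add_le_add ((norm_add_le _ _).trans
      (add_le_add ((norm_one_sub_le S hP _).trans ((hn1 _).trans hGz)) hphi)) ?_)
    exact (norm_one_sub_le S hP _).trans ((norm_glue_le S hk hN hres).trans
      (div_le_div_of_nonneg_right hzn hN.le))
  have total : ‖(1 - P) (S.L N n' (P S.Ω))‖ ≤
      (ε + d) + (Real.sqrt t + (ε + d) + |K| * (ε + d) + (1 + (ε + d)) / (N + 1)) := by
    calc ‖(1 - P) (S.L N n' (P S.Ω))‖
        = ‖(1 - P) (S.L N n' (P S.Ω - z)) + (1 - P) (S.L N n' z)‖ := by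
          rw [← map_add, ← map_add, sub_add_cancel]
      _ ≤ _ := (norm_add_le _ _).trans (add_le_add
          ((norm_one_sub_le S hP _).trans ((hn1 _).trans (by rw [norm_sub_rev]; exact hdist)))
          main)
  have h1 : (1 + (ε + d)) / (N + 1 : ℝ) ≤ 3 / (N + 1) + (ε + d) := by
    rw [add_div]
    exact add_le_add (div_le_div_of_nonneg_right (by norm_num) hN.le)
      (div_le_self (by linarith) (by simp))
  have h2 : (|K| + 3) * d = δ := mul_div_cancel₀ _ (by positivity)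
  linarith

end Vale.Agent.P131
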