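import Vale.Agent.P131.Setting

/-!
P131: block diagonal matrices over the tail atoms.

`glue h v = ∑ y, lift (v y) * atom y` is a star homomorphism of the blocks, and pinching of the
tail sends `c` to `glue h (sect h c)`.
-/

open Matrix
open scoped InnerProductSpace InnerProduct

namespace Vale.Agent.P131.Orbit

variable {M : ℕ → ℕ} {n k : ℕ} {h : n ≤ k}

theorem atom_mul (h : n ≤ k) (y y' : Tail M n k) :
    atom h y * atom h y' = if y = y' then atom h y else 0 := by
  rw [atom, atom, diagonal_mul_diagonal]
  by_cases e : y = y'
  · subst e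
    rw [if_pos rfl]
    congr 1
    funext x
    split_ifs <;> simp
  · rw [if_neg e, ← diagonal_zero]
    congr 1
    funext x
    by_cases hx : (split h x).2 = y <;> simp [hx, e]

theorem atom_conjTranspose (h : n ≤ k) (y : Tail M n k) : (atom h y)ᴴ = atom h y := by
  rw [atom, diagonal_conjTranspose]
  congr 1
  funext x
  by_cases hx : (split h x).2 = y <;> simp [hx]

theorem sum_atom (h : n ≤ k) : ∑ y : Tail M n k, atom h y = 1 := by
  ext x x'
  simp [atom, Matrix.sum_apply, Matrix.diagonal_apply, Matrix.one_apply]

theorem lift_commute_atom (h : n ≤ k) (a : Mat M n) (y : Tail M n k) :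
    Commute (lift h a) (atom h y) := by
  ext x x'
  rw [atom, mul_diagonal, diagonal_mul, lift_apply]
  by_cases e : (split h x).2 = (split h x').2 <;> simp [e, mul_comm]

theorem lift_atom_mul (h : n ≤ k) (a b : Mat M n) (y y' : Tail M n k) :
    lift h a * atom h y * (lift h b * atom h y') =
      if y = y' then lift h (a * b) * atom h y else 0 := by
  calc _ = lift h a * (atom h y * lift h b) * atom h y' := by simp only [Matrix.mul_assoc]
    _ = lift h a * lift h b * (atom h y * atom h y') := by
      rw [← (lift_commute_atom h b y).eq]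
      simp only [Matrix.mul_assoc]
    _ = _ := by
      rw [atom_mul, lift_mul]
      split_ifs <;> simp

/-- The block diagonal matrix with block `v y` at the tail configuration `y`. -/
noncomputable def glue (h : n ≤ k) (v : Tail M n k → Mat M n) : Mat M k :=
  ∑ y, lift h (v y) * atom h y

/-- The block of `c` at the tail configuration `y`. -/
noncomputable def sect (h : n ≤ k) (c : Mat M k) (y : Tail M n k) : Mat M n :=
  Matrix.of fun a b => c ((split h).symm (a, y)) ((split h).symm (b, y))

theorem atom_sandwich (h : n ≤ k) (c : Mat M k) (y : Tail M n k) :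
    atom h y * c * atom h y = lift h (sect h c y) * atom h y := by
  ext x x'
  rw [atom, mul_diagonal, diagonal_mul, mul_diagonal, lift_apply]
  by_cases e' : (split h x').2 = y
  · by_cases e : (split h x).2 = y
    · have hx : (split h).symm ((split h x).1, y) = x := by
        rw [← e]; exact (split h).symm_apply_apply x
      have hx' : (split h).symm ((split h x').1, y) = x' := by
        rw [← e']; exact (split h).symm_apply_apply x'
      simp [sect, e, e', hx, hx']
    · simp [e, e']
  · simp [e']

theorem glue_sect (h : n ≤ k) (c : Mat M k) :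
    glue h (sect h c) = ∑ y, atom h y * c * atom h y :=
  (Finset.sum_congr rfl fun y _ => atom_sandwich h c y).symm

theorem glue_mul (h : n ≤ k) (v w : Tail M n k → Mat M n) :
    glue h v * glue h w = glue h fun y => v y * w y := by
  rw [glue, glue, glue, Finset.sum_mul]
  refine Finset.sum_congr rfl fun y _ => ?_
  rw [Finset.mul_sum, Finset.sum_congr rfl fun y' _ => lift_atom_mul h (v y) (w y') y y']
  simp

theorem glue_conjTranspose (h : n ≤ k) (v : Tail M n k → Mat M n) :
    (glue h v)ᴴ = glue h fun y => (v y)ᴴ := by
  rw [glue, glue, conjTranspose_sum]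
  refine Finset.sum_congr rfl fun y _ => ?_
  rw [conjTranspose_mul, atom_conjTranspose, lift_conjTranspose,
    ← lift_conjTranspose, ← (lift_commute_atom h (v y)ᴴ y).eq]

theorem glue_mul_atom (h : n ≤ k) (v : Tail M n k → Mat M n) (y : Tail M n k) :
    glue h v * atom h y = lift h (v y) * atom h y := by
  rw [glue, Finset.sum_mul, Finset.sum_eq_single y]
  · rw [Matrix.mul_assoc, atom_mul, if_pos rfl]
  · intro y' _ e
    rw [Matrix.mul_assoc, atom_mul, if_neg e, Matrix.mul_zero]
  · simp

theorem lift_mul_glue (h : n ≤ k) (a : Mat M n) (v : Tail M n k → Mat M n) :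
    lift h a * glue h v = glue h fun y => a * v y := by
  rw [glue, glue, Finset.mul_sum]
  exact Finset.sum_congr rfl fun y _ => by rw [← Matrix.mul_assoc, lift_mul]

theorem glue_add (h : n ≤ k) (v w : Tail M n k → Mat M n) :
    glue h (fun y => v y + w y) = glue h v + glue h w := by
  simp only [glue, lift_add, Matrix.add_mul, Finset.sum_add_distrib]

theorem trace_lift_atom (h : n ≤ k) (a : Mat M n) (y : Tail M n k) :
    (lift h a * atom h y).trace = a.trace := by
  simp only [Matrix.trace, Matrix.diag_apply, atom, mul_diagonal, lift_apply]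
  rw [← (split h).symm.sum_comp, Fintype.sum_prod_type]
  refine Finset.sum_congr rfl fun x _ => ?_
  rw [Finset.sum_eq_single y]
  · simp
  · intro z _ hz; simp [hz]
  · simp

theorem ntr_glue (h : n ≤ k) (v : Tail M n k → Mat M n) :
    ntr (glue h v) = (∑ y, ntr (v y)) / (Fintype.card (Tail M n k) : ℂ) := by
  simp only [ntr, glue, Matrix.trace_sum, trace_lift_atom, ← Finset.sum_div, div_div]
  rw [Fintype.card_congr (split (M := M) h), Fintype.card_prod, Nat.cast_mul]

theorem fn2_glue (h : n ≤ k) (v : Tail M n k → Mat M n) :
    fn2 (glue h v) = (∑ y, fn2 (v y)) / (Fintype.card (Tail M n k) : ℝ) := by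
  rw [fn2, glue_conjTranspose, glue_mul, ntr_glue, ← Complex.ofReal_natCast,
    Complex.div_ofReal_re, Complex.re_sum]
  rfl

end Vale.Agent.P131.Orbit
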