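import Vale.Agent.P131.Alg

/-!
P131: derived properties of a `Model`.
-/

open Matrix
open scoped InnerProductSpace InnerProduct ComplexConjugate

namespace Vale.Agent.P131

variable {M : ℕ → ℕ} {H : Type} [NormedAddCommGroup H] [InnerProductSpace ℂ H] [CompleteSpace H]
variable (S : Model M H)

namespace Model

/-- The cyclic vector. -/
noncomputable def Ω : H := S.ι 0 1

theorem ι_one (n : ℕ) : S.ι n 1 = S.Ω := by
  rw [← lift_one (Nat.zero_le n), S.ι_lift]; rfl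

/-- A closed property holding at all levels above `n` holds everywhere. -/
theorem induction_ι (n : ℕ) {p : H → Prop} (hc : IsClosed {z | p z})
    (h : ∀ k, n ≤ k → ∀ a, p (S.ι k a)) (z : H) : p z := by
  have hs : (⋃ k, Set.range (S.ι k)) ⊆ {z | p z} := by
    intro z hz
    obtain ⟨k, a, rfl⟩ := Set.mem_iUnion.1 hz
    rw [← S.ι_lift k (max n k) (le_max_right _ _) a]
    exact h _ (le_max_left _ _) _
  exact hc.closure_subset_iff.2 hs (S.dense z)

theorem clm_ext (n : ℕ) {A B : H →L[ℂ] H}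
    (h : ∀ k, n ≤ k → ∀ a, A (S.ι k a) = B (S.ι k a)) : A = B := by
  ext z
  exact S.induction_ι n (isClosed_eq A.continuous B.continuous) h z

theorem L_ι_of_le {n k : ℕ} (h : n ≤ k) (a : Mat M n) (b : Mat M k) :
    S.L n a (S.ι k b) = S.ι k (lift h a * b) := by
  rw [← S.L_lift n k h, S.L_ι]

theorem R_ι_of_le {n k : ℕ} (h : n ≤ k) (a : Mat M n) (b : Mat M k) :
    S.R n a (S.ι k b) = S.ι k (b * lift h a) := by
  rw [← S.R_lift n k h, S.R_ι]

theorem L_one (n : ℕ) : S.L n 1 = 1 :=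
  S.clm_ext n fun k hk b => by simp [S.L_ι_of_le hk, lift_one]

theorem R_one (n : ℕ) : S.R n 1 = 1 :=
  S.clm_ext n fun k hk b => by simp [S.R_ι_of_le hk, lift_one]

theorem L_mul (n : ℕ) (a b : Mat M n) : S.L n (a * b) = S.L n a * S.L n b :=
  S.clm_ext n fun k hk c => by simp [S.L_ι_of_le hk, lift_mul, Matrix.mul_assoc]

theorem R_mul (n : ℕ) (a b : Mat M n) : S.R n (a * b) = S.R n b * S.R n a :=
  S.clm_ext n fun k hk c => by simp [S.R_ι_of_le hk, lift_mul, Matrix.mul_assoc]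

theorem L_add (n : ℕ) (a b : Mat M n) : S.L n (a + b) = S.L n a + S.L n b :=
  S.clm_ext n fun k hk c => by simp [S.L_ι_of_le hk, lift_add, Matrix.add_mul]

theorem R_add (n : ℕ) (a b : Mat M n) : S.R n (a + b) = S.R n a + S.R n b :=
  S.clm_ext n fun k hk c => by simp [S.R_ι_of_le hk, lift_add, Matrix.mul_add]

theorem L_smul (n : ℕ) (t : ℂ) (a : Mat M n) : S.L n (t • a) = t • S.L n a :=
  S.clm_ext n fun k hk c => by simp [S.L_ι_of_le hk, lift_smul]

theorem R_smul (n : ℕ) (t : ℂ) (a : Mat M n) : S.R n (t • a) = t • S.R n a :=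
  S.clm_ext n fun k hk c => by simp [S.R_ι_of_le hk, lift_smul]

/-- Left multiplication as a linear map. -/
noncomputable def Ll (n : ℕ) : Mat M n →ₗ[ℂ] H →L[ℂ] H where
  toFun := S.L n
  map_add' := S.L_add n
  map_smul' := S.L_smul n

/-- Right multiplication as a linear map. -/
noncomputable def Rl (n : ℕ) : Mat M n →ₗ[ℂ] H →L[ℂ] H where
  toFun := S.R n
  map_add' := S.R_add n
  map_smul' := S.R_smul n

theorem L_zero (n : ℕ) : S.L n 0 = 0 := map_zero (S.Ll n)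

theorem R_zero (n : ℕ) : S.R n 0 = 0 := map_zero (S.Rl n)

theorem L_sub (n : ℕ) (a b : Mat M n) : S.L n (a - b) = S.L n a - S.L n b := map_sub (S.Ll n) a b

theorem R_sub (n : ℕ) (a b : Mat M n) : S.R n (a - b) = S.R n a - S.R n b := map_sub (S.Rl n) a b

theorem L_sum (n : ℕ) {α : Type*} (s : Finset α) (f : α → Mat M n) :
    S.L n (∑ i ∈ s, f i) = ∑ i ∈ s, S.L n (f i) := map_sum (S.Ll n) f s

theorem R_sum (n : ℕ) {α : Type*} (s : Finset α) (f : α → Mat M n) :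
    S.R n (∑ i ∈ s, f i) = ∑ i ∈ s, S.R n (f i) := map_sum (S.Rl n) f s

theorem L_commute_R (n m : ℕ) (a : Mat M n) (b : Mat M m) : Commute (S.L n a) (S.R m b) :=
  S.clm_ext (max n m) fun k hk c => by
    simp [S.L_ι_of_le (le_of_max_le_left hk), S.R_ι_of_le (le_of_max_le_right hk),
      Matrix.mul_assoc]

theorem inner_ι_ι {n k : ℕ} (a : Mat M n) (b : Mat M k) :
    ⟪S.ι n a, S.ι k b⟫_ℂ =
      ntr ((lift (le_max_left n k) a)ᴴ * lift (le_max_right n k) b) := by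
  rw [← S.inner_ι, S.ι_lift, S.ι_lift]

theorem L_adjoint (n : ℕ) (a : Mat M n) : (S.L n a)† = S.L n aᴴ := by
  symm
  rw [ContinuousLinearMap.eq_adjoint_iff]
  intro x y
  refine S.induction_ι n (p := fun x => ⟪S.L n aᴴ x, y⟫_ℂ = ⟪x, S.L n a y⟫_ℂ) ?_ ?_ x
  · exact isClosed_eq ((S.L n aᴴ).continuous.inner continuous_const)
      (continuous_id.inner continuous_const)
  intro k hk b
  refine S.induction_ι k
    (p := fun y => ⟪S.L n aᴴ (S.ι k b), y⟫_ℂ = ⟪S.ι k b, S.L n a y⟫_ℂ) ?_ ?_ y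
  · exact isClosed_eq (continuous_const.inner continuous_id)
      (continuous_const.inner (S.L n a).continuous)
  intro l hl c
  rw [← S.ι_lift k l hl b, S.L_ι_of_le (hk.trans hl), S.L_ι_of_le (hk.trans hl), S.inner_ι,
    S.inner_ι, lift_conjTranspose, conjTranspose_mul, conjTranspose_conjTranspose,
    Matrix.mul_assoc]

theorem R_adjoint (n : ℕ) (a : Mat M n) : (S.R n a)† = S.R n aᴴ := by
  symm
  rw [ContinuousLinearMap.eq_adjoint_iff]
  intro x y
  refine S.induction_ι n (p := fun x => ⟪S.R n aᴴ x, y⟫_ℂ = ⟪x, S.R n a y⟫_ℂ) ?_ ?_ x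
  · exact isClosed_eq ((S.R n aᴴ).continuous.inner continuous_const)
      (continuous_id.inner continuous_const)
  intro k hk b
  refine S.induction_ι k
    (p := fun y => ⟪S.R n aᴴ (S.ι k b), y⟫_ℂ = ⟪S.ι k b, S.R n a y⟫_ℂ) ?_ ?_ y
  · exact isClosed_eq (continuous_const.inner continuous_id)
      (continuous_const.inner (S.R n a).continuous)
  intro l hl c
  rw [← S.ι_lift k l hl b, S.R_ι_of_le (hk.trans hl), S.R_ι_of_le (hk.trans hl), S.inner_ι,
    S.inner_ι, lift_conjTranspose, conjTranspose_mul, conjTranspose_conjTranspose,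
    Matrix.mul_assoc, ntr_mul_comm, Matrix.mul_assoc]

theorem norm_sq_ι (n : ℕ) (a : Mat M n) : ‖S.ι n a‖ ^ 2 = fn2 a := by
  rw [fn2, ← S.inner_ι, norm_sq_eq_re_inner (𝕜 := ℂ)]
  rfl

theorem norm_ι_conjTranspose (n : ℕ) (a : Mat M n) : ‖S.ι n aᴴ‖ = ‖S.ι n a‖ := by
  rw [← sq_eq_sq₀ (norm_nonneg _) (norm_nonneg _), S.norm_sq_ι, S.norm_sq_ι, fn2_conjTranspose]

theorem norm_Ω : ‖S.Ω‖ = 1 := by
  rw [← sq_eq_sq₀ (norm_nonneg _) zero_le_one, Ω, S.norm_sq_ι, fn2]
  simp [ntr_one]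

theorem L_Ω (n : ℕ) (a : Mat M n) : S.L n a S.Ω = S.ι n a := by
  rw [← S.ι_one n, S.L_ι, Matrix.mul_one]

theorem R_Ω (n : ℕ) (a : Mat M n) : S.R n a S.Ω = S.ι n a := by
  rw [← S.ι_one n, S.R_ι, Matrix.one_mul]

/-- Two operators commuting with right multiplication agree if they agree at `Ω`. -/
theorem eq_of_apply_Ω {A B : H →L[ℂ] H} (hA : ∀ n a, Commute A (S.R n a))
    (hB : ∀ n a, Commute B (S.R n a)) (h : A S.Ω = B S.Ω) : A = B :=
  S.clm_ext 0 fun k _ b => by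
    rw [← S.R_Ω k b]
    change (A * S.R k b) S.Ω = (B * S.R k b) S.Ω
    rw [(hA k b).eq, (hB k b).eq]
    change S.R k b (A S.Ω) = S.R k b (B S.Ω)
    rw [h]

/-- Traciality: an operator commuting with right multiplication and its adjoint have equal norm
at `Ω`. -/
theorem norm_adjoint_Ω_le {X : H →L[ℂ] H} (hX : ∀ n a, Commute X (S.R n a)) :
    ‖(X†) S.Ω‖ ≤ ‖X S.Ω‖ := by
  have key : ∀ z, ‖⟪z, (X†) S.Ω⟫_ℂ‖ ≤ ‖z‖ * ‖X S.Ω‖ := by
    refine S.induction_ι 0 (isClosed_le (continuous_norm.comp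
      (continuous_id.inner continuous_const)) (continuous_norm.mul continuous_const)) ?_
    intro k _ a
    rw [ContinuousLinearMap.adjoint_inner_right, ← S.R_Ω k a]
    have e : X (S.R k a S.Ω) = S.R k a (X S.Ω) := congrArg (fun A => A S.Ω) (hX k a).eq
    rw [e, ← ContinuousLinearMap.adjoint_inner_right, S.R_adjoint, S.R_Ω, S.R_Ω]
    refine (norm_inner_le_norm _ _).trans ?_
    rw [S.norm_ι_conjTranspose, mul_comm]
  have h := key ((X†) S.Ω)
  rw [inner_self_eq_norm_sq_to_K, norm_pow, RCLike.norm_ofReal, abs_norm, sq] at h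
  rcases (norm_nonneg ((X†) S.Ω)).lt_or_eq with h0 | h0
  · exact le_of_mul_le_mul_left h h0
  · rw [← h0]; exact norm_nonneg _

theorem norm_adjoint_Ω {X : H →L[ℂ] H} (hX : ∀ n a, Commute X (S.R n a)) :
    ‖(X†) S.Ω‖ = ‖X S.Ω‖ := by
  refine le_antisymm (S.norm_adjoint_Ω_le hX) ?_
  have hX' : ∀ n a, Commute (X†) (S.R n a) := by
    intro n a
    have e := (hX n aᴴ).star_star
    simpa [ContinuousLinearMap.star_eq_adjoint, S.R_adjoint] using e
  simpa using S.norm_adjoint_Ω_le hX'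

/-- An operator `A` with `A† A` a projection is a contraction. -/
theorem norm_apply_le_of_proj {A e : H →L[ℂ] H} (h : A† * A = e) (he : e * e = e) (u : H) :
    ‖A u‖ ≤ ‖u‖ := by
  have hs : e† = e := by
    rw [← h, ContinuousLinearMap.mul_def, ContinuousLinearMap.adjoint_comp,
      ContinuousLinearMap.adjoint_adjoint]
  have h1 : ‖A u‖ ^ 2 = ‖e u‖ ^ 2 := by
    rw [norm_sq_eq_re_inner (𝕜 := ℂ), norm_sq_eq_re_inner (𝕜 := ℂ),
      ← ContinuousLinearMap.adjoint_inner_right A, ← ContinuousLinearMap.adjoint_inner_right e, hs]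
    congr 2
    rw [show e (e u) = (e * e) u from rfl, he, ← h]
    rfl
  have h2 : ‖A u‖ ^ 2 ≤ ‖A u‖ * ‖u‖ := by
    have : ‖A u‖ ^ 2 = RCLike.re (⟪u, e u⟫_ℂ) := by
      rw [norm_sq_eq_re_inner (𝕜 := ℂ), ← ContinuousLinearMap.adjoint_inner_right A, ← h]; rfl
    have h3 : ‖A u‖ = ‖e u‖ := (sq_eq_sq₀ (norm_nonneg _) (norm_nonneg _)).1 h1
    calc ‖A u‖ ^ 2 = RCLike.re (⟪u, e u⟫_ℂ) := this
      _ ≤ ‖u‖ * ‖e u‖ := re_inner_le_norm _ _
      _ = _ := by rw [h3, mul_comm]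
  rcases (norm_nonneg (A u)).lt_or_eq with h0 | h0
  · exact le_of_mul_le_mul_left (by rw [sq] at h2; exact h2) h0
  · rw [← h0]; exact norm_nonneg _

end Model

end Vale.Agent.P131
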