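import Vale.Agent.P131.Oper

/-!
P131: the projection on a hyperinvariant subspace, tail pinching, and the statements of the three
analytic modules.
-/

open Matrix
open scoped InnerProductSpace InnerProduct

namespace Vale.Agent.P131

variable {M : ℕ → ℕ} {H : Type} [NormedAddCommGroup H] [InnerProductSpace ℂ H] [CompleteSpace H]

/-- `P` is the orthogonal projection on a subspace invariant under the commutant of `T`. -/
structure Hyp (S : Model M H) (P : H →L[ℂ] H) : Prop where
  adj : P† = P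
  idem : P * P = P
  inv : ∀ A : H →L[ℂ] H, Commute A S.T → P * A * P = A * P

namespace Hyp

variable {S : Model M H} {P : H →L[ℂ] H} (hP : Hyp S P)

include hP

theorem commute_of {A : H →L[ℂ] H} (h : Commute A S.T) (h' : Commute (A†) S.T) : Commute P A := by
  have e1 := hP.inv A h
  have e2 := congrArg star (hP.inv (A†) h')
  simp only [star_mul, ContinuousLinearMap.star_eq_adjoint, ContinuousLinearMap.adjoint_adjoint,
    hP.adj] at e2
  rw [← mul_assoc] at e2
  exact e2.symm.trans e1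

theorem commute_R (n : ℕ) (a : Mat M n) : Commute P (S.R n a) :=
  hP.commute_of (S.R_commute_T n a) (by rw [S.R_adjoint]; exact S.R_commute_T n _)

theorem commute_L {n : ℕ} {a : Mat M n} (h : Commute a (levelT (fun j : Fin n => M j)))
    (h' : Commute aᴴ (levelT (fun j : Fin n => M j))) : Commute P (S.L n a) :=
  hP.commute_of (S.commute_T h) (by rw [S.L_adjoint]; exact S.commute_T h')

theorem apply_self (x : H) : P (P x) = P x := congrArg (fun A => A x) hP.idem

theorem norm_apply_le (x : H) : ‖P x‖ ≤ ‖x‖ :=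
  Model.norm_apply_le_of_proj (e := P) (by rw [hP.adj, hP.idem]) hP.idem x

/-- An operator commuting with `T` maps the range of `P` into itself. -/
theorem apply_of_commute {A : H →L[ℂ] H} (h : Commute A S.T) {x : H} (hx : P x = x) :
    P (A x) = A x := by
  have e := congrArg (fun B => B x) (hP.inv A h)
  change P (A (P x)) = A (P x) at e
  rwa [hx] at e

end Hyp

/-- The diagonal atom of the tail configuration `y`. -/
noncomputable def atom {n k : ℕ} (h : n ≤ k) (y : Tail M n k) : Mat M k :=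
  Matrix.diagonal fun x => if (split h x).2 = y then 1 else 0

/-- Pinching of the sites `n ≤ i < k`. -/
noncomputable def pinchTail (S : Model M H) {n k : ℕ} (h : n ≤ k) : H →L[ℂ] H :=
  ∑ y : Tail M n k, S.L k (atom h y) * S.R k (atom h y)

/-- The body of `FiniteStmt`. -/
def FiniteProp {R : ℕ} (m : Fin R → ℕ) (K : ℝ) : Prop :=
  ∀ (i : Fin R) (v : Matrix (FCfg m) (FCfg m) ℂ),
    ∃ (F : Matrix (FCfg m) (FCfg m) ℂ)
      (s : List (Matrix (FCfg m) (FCfg m) ℂ × Matrix (FCfg m) (FCfg m) ℂ)),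
      Fᴴ = F ∧ F * F = F ∧ (ntr F).re ≤ (R.choose (R / 2) : ℝ) / 2 ^ R ∧
      (∀ p ∈ s, Commute p.1 (levelT m)) ∧
      (s.map fun p => esum p.1 * esum p.2).sum ≤ K ∧
      fn2 ((s.map fun p => p.1 * v * p.2).sum - siteN m i * (v - F * v)) ≤
        fn2 v / (R + 1) ^ 2

theorem finiteStmt_iff : FiniteStmt ↔ ∀ (R : ℕ) (m : Fin R → ℕ), ∃ K, FiniteProp m K := Iff.rfl

/-- Energy and pinching. -/
def PinchStmt (S : Model M H) (P : H →L[ℂ] H) : Prop :=
  ∀ (n k : ℕ) (h : n ≤ k),
    ‖P S.Ω - pinchTail S h (P S.Ω)‖ ≤ ∑ j ∈ Finset.Ico n k, 4 / Real.sqrt (M j + 1)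

/-- The orbit step. -/
def OrbitStmt (S : Model M H) (P : H →L[ℂ] H) : Prop :=
  ∀ (R : ℕ) (K ε : ℝ), FiniteProp (fun k : Fin R => M k) K →
    (∀ (k : ℕ) (h : R ≤ k), ‖P S.Ω - pinchTail S h (P S.Ω)‖ ≤ ε) →
    ∀ i : Fin R, ‖(1 - P) (S.L R (siteN (fun k : Fin R => M k) i) (P S.Ω))‖ ≤
      Real.sqrt ((R.choose (R / 2) : ℝ) / 2 ^ R) + 3 / (R + 1) + (|K| + 3) * ε

/-- The `0`-`1` step. -/
def FinalStmt (S : Model M H) (P : H →L[ℂ] H) : Prop :=
  (∀ (n : ℕ) (i : Fin n), Commute P (S.L n (siteN (fun k : Fin n => M k) i))) → P = 0 ∨ P = 1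

end Vale.Agent.P131
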