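import Vale.Agent.P131.Props

/-!
P131: matrix units at one site.
-/

open Matrix

namespace Vale.Agent.P131

variable {n : ℕ} {m : Fin n → ℕ}

/-- The matrix unit `|p⟩⟨q|` at site `k`, the identity elsewhere. -/
noncomputable def siteU (m : Fin n → ℕ) (k : Fin n) (p q : Bool × Fin (m k + 1)) :
    Matrix (FCfg m) (FCfg m) ℂ :=
  Matrix.of fun x' x => if x k = q ∧ x' = Function.update x k p then 1 else 0

theorem siteU_apply (k : Fin n) (p q : Bool × Fin (m k + 1)) (x' x : FCfg m) :
    siteU m k p q x' x = if x' k = p ∧ x = Function.update x' k q then 1 else 0 := by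
  rw [siteU, Matrix.of_apply]
  refine if_congr ⟨?_, ?_⟩ rfl rfl
  · rintro ⟨rfl, rfl⟩
    exact ⟨by simp, by simp⟩
  · rintro ⟨rfl, rfl⟩
    exact ⟨by simp, by simp⟩

theorem siteU_mul_apply (k : Fin n) (p q : Bool × Fin (m k + 1))
    (a : Matrix (FCfg m) (FCfg m) ℂ) (x y : FCfg m) :
    (siteU m k p q * a) x y = if x k = p then a (Function.update x k q) y else 0 := by
  rw [Matrix.mul_apply, Finset.sum_eq_single (Function.update x k q)]
  · rw [siteU_apply]; simp
  · intro z _ hz; rw [siteU_apply, if_neg]; · simp
    exact fun h => hz h.2
  · simp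

theorem siteU_conjTranspose (k : Fin n) (p q : Bool × Fin (m k + 1)) :
    (siteU m k p q)ᴴ = siteU m k q p := by
  ext x y
  rw [conjTranspose_apply, siteU_apply (p := q)]
  rw [show siteU m k p q y x = if x k = q ∧ y = Function.update x k p then 1 else 0 from rfl]
  split_ifs <;> simp

theorem siteU_mul (k : Fin n) (p q r : Bool × Fin (m k + 1)) :
    siteU m k p q * siteU m k q r = siteU m k p r := by
  ext x y
  rw [siteU_mul_apply, siteU_apply, siteU_apply (p := p)]
  by_cases h : x k = p <;> simp [h]

theorem siteU_mul_of_ne (k : Fin n) {q q' : Bool × Fin (m k + 1)} (h : q ≠ q')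
    (p r : Bool × Fin (m k + 1)) : siteU m k p q * siteU m k q' r = 0 := by
  ext x y
  rw [siteU_mul_apply, siteU_apply]
  simp [h]

theorem siteU_commute {k l : Fin n} (h : k ≠ l) (p q : Bool × Fin (m k + 1))
    (p' q' : Bool × Fin (m l + 1)) : Commute (siteU m k p q) (siteU m l p' q') := by
  ext x y
  rw [siteU_mul_apply, siteU_mul_apply, siteU_apply, siteU_apply]
  rw [Function.update_of_ne h.symm, Function.update_of_ne h, Function.update_comm h]
  by_cases h1 : x k = p <;> by_cases h2 : x l = p' <;> simp [h1, h2]

theorem siteU_diag (k : Fin n) (p : Bool × Fin (m k + 1)) :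
    siteU m k p p = Matrix.diagonal fun x => if x k = p then 1 else 0 := by
  ext x y
  rw [siteU_apply]
  by_cases h : x = y
  · subst h
    by_cases hx : x k = p
    · subst hx; simp
    · simp [hx]
  · rw [Matrix.diagonal_apply_ne _ h, if_neg]
    rintro ⟨hx, rfl⟩
    exact h (by simp [← hx])

theorem sum_siteU_diag (k : Fin n) : ∑ p, siteU m k p p = 1 := by
  ext x y
  simp [Matrix.sum_apply, siteU_diag, Matrix.diagonal_apply, Matrix.one_apply]

theorem siteT_eq (k : Fin n) :
    siteT m k = ∑ a : Fin (m k + 1), wt k a • siteU m k (true, a) (false, a) := by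
  ext x' x
  simp only [Matrix.sum_apply, Matrix.smul_apply, smul_eq_mul, siteT, siteU, Matrix.of_apply]
  rw [Finset.sum_eq_single (x k).2]
  · by_cases h : (x k).1 = false
    · simp [h, Prod.ext_iff]
    · simp [h, Prod.ext_iff]
  · intro a _ ha
    rw [if_neg (fun h => ha (by rw [h.1])), mul_zero]
  · simp

theorem siteN_eq (i : Fin n) :
    siteN m i = ∑ a : Fin (m i + 1), siteU m i (false, a) (false, a) := by
  ext x' x
  simp only [Matrix.sum_apply, siteU_diag, siteN, Matrix.diagonal_apply]
  by_cases h : x' = x
  · subst h
    simp only [if_true]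
    rw [Finset.sum_eq_single (x' i).2]
    · by_cases h : (x' i).1 = false <;> simp [h, Prod.ext_iff]
    · intro a _ ha
      exact if_neg fun h => ha (by rw [h])
    · simp
  · simp [h]

theorem lift_siteU {M : ℕ → ℕ} {n k : ℕ} (h : n ≤ k) (i : Fin n)
    (p q : Bool × Fin (M i + 1)) :
    lift h (siteU (fun j : Fin n => M j) i p q) =
      siteU (fun j : Fin k => M j) (Fin.castLE h i) p q := by
  ext x y
  rw [lift_apply, siteU_apply, siteU_apply]
  by_cases hy : x (Fin.castLE h i) = p ∧ y = Function.update x (Fin.castLE h i) q
  · obtain ⟨hp, hy⟩ := hy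
    subst hy
    have e1 : (split h x).2 = (split h (Function.update x (Fin.castLE h i) q)).2 := by
      funext j
      change x j.1 = Function.update x (Fin.castLE h i) q j.1
      rw [Function.update_of_ne]
      intro e
      have := j.2
      rw [e] at this
      exact absurd this (not_le.mpr (by simp))
    have e2 : (split h (Function.update x (Fin.castLE h i) q)).1 =
        Function.update (split h x).1 i q := by
      funext j
      change Function.update x (Fin.castLE h i) q (Fin.castLE h j) = _
      by_cases hj : j = i
      · subst hj; simp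
      · rw [Function.update_of_ne hj, Function.update_of_ne]
        · rfl
        · exact fun e => hj (Fin.castLE_injective h e)
    have e0 : (split h x).1 i = p := hp
    rw [if_pos e1, if_pos ⟨e0, e2⟩, if_pos ⟨hp, rfl⟩]
  · rw [if_neg hy]
    by_cases h2 : (split h x).2 = (split h y).2
    · rw [if_pos h2, if_neg]
      rintro ⟨hp, he⟩
      refine hy ⟨hp, funext fun j => ?_⟩
      by_cases hj : (j : ℕ) < n
      · have := congrFun he ⟨j, hj⟩
        change y j = _ at this
        by_cases hji : j = Fin.castLE h i
        · subst hji
          rw [Function.update_self]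
          simpa [split] using this
        · rw [Function.update_of_ne hji]
          rw [Function.update_of_ne] at this
          · exact this
          · exact fun e => hji (Fin.ext (by simp [← e]))
      · rw [Function.update_of_ne]
        · exact (congrFun h2 ⟨j, not_lt.mp hj⟩).symm
        · intro e; exact hj (by simp [e])
    · rw [if_neg h2]

end Vale.Agent.P131

namespace Vale.Agent.P131

variable {n : ℕ} {m : Fin n → ℕ}

theorem mul_siteU_apply (k : Fin n) (p q : Bool × Fin (m k + 1))
    (a : Matrix (FCfg m) (FCfg m) ℂ) (x y : FCfg m) :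
    (a * siteU m k p q) x y = if y k = q then a x (Function.update y k p) else 0 := by
  rw [Matrix.mul_apply, Finset.sum_eq_single (Function.update y k p)]
  · rw [show siteU m k p q (Function.update y k p) y = if y k = q ∧ Function.update y k p =
      Function.update y k p then 1 else 0 from rfl]
    simp
  · intro z _ hz
    rw [show siteU m k p q z y = if y k = q ∧ z = Function.update y k p then 1 else 0 from rfl,
      if_neg fun h => hz h.2, mul_zero]
  · simp

/-- A lifted matrix commutes with the matrix units of the new sites. -/
theorem lift_commute_siteU {M : ℕ → ℕ} {n k : ℕ} (h : n ≤ k) (a : Mat M n) (i : Fin k)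
    (hi : n ≤ (i : ℕ)) (p q : Bool × Fin (M i + 1)) :
    Commute (lift h a) (siteU (fun j : Fin k => M j) i p q) := by
  ext x y
  rw [mul_siteU_apply, siteU_mul_apply, lift_apply, lift_apply]
  have e1 : ∀ (z : Cfg M k) (r : Bool × Fin (M i + 1)),
      (split h (Function.update z i r)).1 = (split h z).1 := by
    intro z r
    funext j
    change Function.update z i r (Fin.castLE h j) = z (Fin.castLE h j)
    rw [Function.update_of_ne]
    intro e
    rw [← e] at hi
    exact absurd hi (not_le.mpr (by simp))
  have e2 : (y i = q ∧ (split h x).2 = (split h (Function.update y i p)).2) ↔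
      (x i = p ∧ (split h (Function.update x i q)).2 = (split h y).2) := by
    constructor
    · rintro ⟨hy, he⟩
      have hx : x i = p := by
        have := congrFun he ⟨i, hi⟩
        simpa [split] using this
      refine ⟨hx, funext fun j => ?_⟩
      obtain ⟨j, hj⟩ := j
      change Function.update x i q j = y j
      rcases eq_or_ne j i with rfl | hji
      · simp [hy]
      · rw [Function.update_of_ne hji]
        have := congrFun he ⟨j, hj⟩
        simpa [split, Function.update_of_ne hji] using this
    · rintro ⟨hx, he⟩
      have hy : y i = q := by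
        have := congrFun he ⟨i, hi⟩
        simpa [split] using this.symm
      refine ⟨hy, funext fun j => ?_⟩
      obtain ⟨j, hj⟩ := j
      change x j = Function.update y i p j
      rcases eq_or_ne j i with rfl | hji
      · simp [hx]
      · rw [Function.update_of_ne hji]
        have := congrFun he ⟨j, hj⟩
        simpa [split, Function.update_of_ne hji] using this
  rw [e1, e1, ← ite_and, ← ite_and]
  exact if_congr e2 rfl rfl

end Vale.Agent.P131
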