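import Mathlib

/-!
# P131: isometric chains of finite dimensional spaces inside `ℓ²(ℕ)`

* `exists_chain` : a chain `V n →ₗᵢ V (n+1)` of finite dimensional inner product spaces of
  unbounded dimension is realised inside `ℓ²(ℕ)` with dense union.
* `exists_chain_ext` : a uniformly bounded compatible family of linear maps on the levels
  extends to a bounded operator.
-/

namespace Vale.Agent.P131

open Module

/-- The Hilbert space `ℓ²(ℕ)` over `ℂ`. -/
abbrev HSp : Type := lp (fun _ : ℕ => ℂ) 2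

/-- The standard Hilbert basis of `ℓ²(ℕ)`. -/
noncomputable def stdBasis : HilbertBasis ℕ ℂ HSp :=
  HilbertBasis.ofRepr (LinearIsometryEquiv.refl ℂ HSp)

section Chain

variable {V : ℕ → Type*} [∀ n, NormedAddCommGroup (V n)] [∀ n, InnerProductSpace ℂ (V n)]
  [∀ n, FiniteDimensional ℂ (V n)]

theorem exists_basis_step (n : ℕ) (j : V n →ₗᵢ[ℂ] V (n + 1))
    (b : OrthonormalBasis (Fin (finrank ℂ (V n))) ℂ (V n)) :
    ∃ c : OrthonormalBasis (Fin (finrank ℂ (V (n + 1)))) ℂ (V (n + 1)),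
      ∀ (i : Fin (finrank ℂ (V n))) (h : (i : ℕ) < finrank ℂ (V (n + 1))),
        c ⟨i, h⟩ = j (b i) := by
  classical
  let v : Fin (finrank ℂ (V (n + 1))) → V (n + 1) := fun i =>
    if h : (i : ℕ) < finrank ℂ (V n) then j (b ⟨i, h⟩) else 0
  let s : Set (Fin (finrank ℂ (V (n + 1)))) := {i | (i : ℕ) < finrank ℂ (V n)}
  have hv : Orthonormal ℂ (s.domRestrict v) := by
    have h1 : Orthonormal ℂ (j ∘ b) := b.orthonormal.comp_linearIsometry j
    have h2 := h1.comp (fun i : s => (⟨(i.1 : ℕ), i.2⟩ : Fin (finrank ℂ (V n)))) (by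
      intro i k hik
      have := congrArg Fin.val hik
      exact Subtype.ext (Fin.ext this))
    convert h2 using 1
    funext i
    have hi : ((i : Fin (finrank ℂ (V (n + 1)))) : ℕ) < finrank ℂ (V n) := i.2
    simp [v, Set.domRestrict, hi]
  obtain ⟨c, hc⟩ := hv.exists_orthonormalBasis_extension_of_card_eq (by simp)
  refine ⟨c, fun i h => ?_⟩
  rw [hc ⟨i, h⟩ (by simp [s])]
  simp [v]

/-- Compatible orthonormal bases along a chain. -/
noncomputable def chainBasis (j : ∀ n, V n →ₗᵢ[ℂ] V (n + 1)) :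
    ∀ n, OrthonormalBasis (Fin (finrank ℂ (V n))) ℂ (V n)
  | 0 => stdOrthonormalBasis ℂ (V 0)
  | n + 1 => (exists_basis_step n (j n) (chainBasis j n)).choose

/-- A chain of isometries with unbounded dimension lives inside `ℓ²(ℕ)` with dense union. -/
theorem exists_chain (j : ∀ n, V n →ₗᵢ[ℂ] V (n + 1))
    (hd : ∀ N, ∃ n, N < finrank ℂ (V n)) :
    ∃ φ : ∀ n, V n →ₗᵢ[ℂ] HSp, (∀ n x, φ (n + 1) (j n x) = φ n x) ∧
      Dense (⋃ n, Set.range (φ n)) := by
  let b := chainBasis j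
  let f : ∀ n, V n →ₗ[ℂ] HSp := fun n =>
    (b n).toBasis.constr ℂ (fun i => stdBasis (i : ℕ))
  have hf : ∀ n i, f n (b n i) = stdBasis (i : ℕ) := by
    intro n i
    simp only [f]
    rw [← OrthonormalBasis.coe_toBasis]
    exact (b n).toBasis.constr_basis ℂ _ i
  have hon : ∀ n, Orthonormal ℂ (f n ∘ (b n).toBasis) := by
    intro n
    have h := stdBasis.orthonormal.comp (fun i : Fin (finrank ℂ (V n)) => (i : ℕ)) Fin.val_injective
    convert h using 1
    funext i
    simp [hf]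
  have hb : ∀ n, Orthonormal ℂ (b n).toBasis := fun n => by
    rw [OrthonormalBasis.coe_toBasis]; exact (b n).orthonormal
  let φ : ∀ n, V n →ₗᵢ[ℂ] HSp := fun n => (f n).isometryOfOrthonormal (hb n) (hon n)
  have hle : ∀ n, finrank ℂ (V n) ≤ finrank ℂ (V (n + 1)) := fun n =>
    LinearMap.finrank_le_finrank_of_injective (j n).injective
  have hcomp : ∀ n x, φ (n + 1) (j n x) = φ n x := by
    intro n x
    have : (f (n + 1)).comp (j n).toLinearMap = f n := by
      apply (b n).toBasis.ext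
      intro i
      have h : (i : ℕ) < finrank ℂ (V (n + 1)) := lt_of_lt_of_le i.2 (hle n)
      have hs := (exists_basis_step n (j n) (chainBasis j n)).choose_spec i h
      simp only [LinearMap.comp_apply, OrthonormalBasis.coe_toBasis,
        LinearIsometry.coe_toLinearMap]
      rw [show j n (b n i) = b (n + 1) ⟨i, h⟩ from hs.symm, hf, hf]
    exact congrArg (fun g : V n →ₗ[ℂ] HSp => g x) this
  refine ⟨φ, hcomp, ?_⟩
  have hmono : Monotone fun n => LinearMap.range (φ n).toLinearMap := by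
    apply monotone_nat_of_le_succ
    intro n y hy
    obtain ⟨x, rfl⟩ := LinearMap.mem_range.1 hy
    exact ⟨j n x, hcomp n x⟩
  have hsub : (Submodule.span ℂ (Set.range stdBasis) : Set HSp) ⊆ ⋃ n, Set.range (φ n) := by
    intro y hy
    have h1 : Submodule.span ℂ (Set.range stdBasis) ≤
        ⨆ n, LinearMap.range (φ n).toLinearMap := by
      rw [Submodule.span_le]
      rintro _ ⟨k, rfl⟩
      obtain ⟨n, hn⟩ := hd k
      exact le_iSup (fun n => LinearMap.range (φ n).toLinearMap) n ⟨b n ⟨k, hn⟩, hf n ⟨k, hn⟩⟩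
    obtain ⟨n, x, hx⟩ :=
      (Submodule.mem_iSup_of_directed _ hmono.directed_le).1 (h1 hy)
    exact Set.mem_iUnion.2 ⟨n, x, hx⟩
  exact (Submodule.dense_iff_topologicalClosure_eq_top.2 stdBasis.dense_span).mono hsub

end Chain

section Ext

variable {E F : Type*} [NormedAddCommGroup E] [NormedSpace ℂ E] [NormedAddCommGroup F]
  [NormedSpace ℂ F] [CompleteSpace F] {V : ℕ → Type*} [∀ n, AddCommGroup (V n)]
  [∀ n, Module ℂ (V n)]

/-- A bounded compatible family of maps on the levels extends by continuity. -/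
theorem exists_chain_ext (φ : ∀ n, V n →ₗ[ℂ] E) (j : ∀ n, V n → V (n + 1))
    (hj : ∀ n x, φ (n + 1) (j n x) = φ n x) (hd : Dense (⋃ n, Set.range (φ n)))
    (A : ∀ n, V n →ₗ[ℂ] F) (hA : ∀ n x, A (n + 1) (j n x) = A n x) (C : ℝ)
    (hC : ∀ n x, ‖A n x‖ ≤ C * ‖φ n x‖) :
    ∃ T : E →L[ℂ] F, (∀ n x, T (φ n x) = A n x) ∧ ∀ u, ‖T u‖ ≤ C * ‖u‖ := by
  let S : ℕ → Submodule ℂ (E × F) := fun n => LinearMap.range ((φ n).prod (A n))
  have hmono : Monotone S := by
    apply monotone_nat_of_le_succ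
    intro n p hp
    obtain ⟨x, rfl⟩ := LinearMap.mem_range.1 hp
    exact ⟨j n x, by simp [hj, hA]⟩
  let G : Submodule ℂ (E × F) := ⨆ n, S n
  let e : G →ₗ[ℂ] E := (LinearMap.fst ℂ E F).comp G.subtype
  let f : G →ₗ[ℂ] F := (LinearMap.snd ℂ E F).comp G.subtype
  have hmem : ∀ n x, (φ n x, A n x) ∈ G := fun n x =>
    le_iSup S n ⟨x, rfl⟩
  have hb : ∀ g : G, ‖f g‖ ≤ C * ‖e g‖ := by
    rintro ⟨p, hp⟩
    obtain ⟨n, x, rfl⟩ := (Submodule.mem_iSup_of_directed _ hmono.directed_le).1 hp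
    exact hC n x
  have hdr : DenseRange e := by
    refine hd.mono ?_
    intro y hy
    obtain ⟨n, x, rfl⟩ := Set.mem_iUnion.1 hy
    exact ⟨⟨_, hmem n x⟩, rfl⟩
  refine ⟨f.extendOfNorm e, fun n x => ?_, f.norm_extendOfNorm_apply_le hdr C hb⟩
  exact LinearMap.extendOfNorm_eq hdr ⟨C, hb⟩ ⟨_, hmem n x⟩

end Ext

end Vale.Agent.P131
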