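import Vale.Agent.P131.Combine

/-!
P131: transfer of the target statement to every separable infinite-dimensional Hilbert space.
-/

namespace Vale.Agent.P131

theorem exists_equiv_ell2 (H : Type*) [NormedAddCommGroup H] [InnerProductSpace ℂ H]
    [CompleteSpace H] [TopologicalSpace.SeparableSpace H] (hH : ¬FiniteDimensional ℂ H) :
    Nonempty (H ≃ₗᵢ[ℂ] lp (fun _ : ℕ => ℂ) 2) := by
  obtain ⟨w, b, hb⟩ := exists_hilbertBasis ℂ H
  have hd : Pairwise fun i j : w => (1 : ℝ) ≤ dist (b i) (b j) := by
    intro i j hij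
    rw [dist_eq_norm]
    have h1 : ‖b i - b j‖ ^ 2 = 2 := by
      rw [@norm_sub_sq ℂ, b.orthonormal.1 i, b.orthonormal.1 j,
        b.orthonormal.2 hij]
      norm_num
    nlinarith [norm_nonneg (b i - b j)]
  have hc : (Set.univ : Set w).Countable := by
    refine Set.PairwiseDisjoint.countable_of_isOpen (s := fun i => Metric.ball (b i) (1/2))
      (fun i _ j _ hij => Metric.ball_disjoint_ball ?_) (fun i _ => Metric.isOpen_ball)
      (fun i _ => Metric.nonempty_ball.2 (by norm_num))
    linarith [hd hij]
  have : Countable w := Set.countable_univ_iff.1 hc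
  have : Infinite w := by
    rw [← not_finite_iff_infinite]
    intro hf
    refine hH ?_
    have hfd : FiniteDimensional ℂ (Submodule.span ℂ (Set.range b)) :=
      FiniteDimensional.span_of_finite ℂ (Set.finite_range _)
    have hcl : (Submodule.span ℂ (Set.range b)).topologicalClosure =
        Submodule.span ℂ (Set.range b) :=
      (Submodule.closed_of_finiteDimensional _).submodule_topologicalClosure_eq
    rw [← hcl, b.dense_span] at hfd
    exact Submodule.topEquiv.finiteDimensional
  obtain ⟨e⟩ : Nonempty (ℕ ≃ w) := by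
    have := Classical.choice (nonempty_denumerable w)
    exact ⟨(Denumerable.eqv w).symm⟩
  have hsp : ⊤ ≤ (Submodule.span ℂ (Set.range (b ∘ e))).topologicalClosure := by
    rw [e.surjective.range_comp, b.dense_span]
  exact ⟨(HilbertBasis.mk (b.orthonormal.comp e e.injective) hsp).repr⟩

theorem transitive_of_target (ht : TargetStmt) (H : Type*) [NormedAddCommGroup H]
    [InnerProductSpace ℂ H] [CompleteSpace H] [TopologicalSpace.SeparableSpace H]
    (hH : ¬FiniteDimensional ℂ H) :
    ∃ T : H →L[ℂ] H, (∀ c : ℂ, T ≠ c • 1) ∧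
      ∀ K : Submodule ℂ H, IsClosed (K : Set H) →
        (∀ A : H →L[ℂ] H, A * T = T * A → ∀ x ∈ K, A x ∈ K) → K = ⊥ ∨ K = ⊤ := by
  obtain ⟨T, hT, hK⟩ := ht
  obtain ⟨e⟩ := exists_equiv_ell2 H hH
  set E : H →L[ℂ] lp (fun _ : ℕ => ℂ) 2 := e.toLinearIsometry.toContinuousLinearMap with hE
  set F : lp (fun _ : ℕ => ℂ) 2 →L[ℂ] H := e.symm.toLinearIsometry.toContinuousLinearMap with hF
  have hEF : ∀ y, E (F y) = y := e.apply_symm_apply
  have hFE : ∀ x, F (E x) = x := e.symm_apply_apply
  refine ⟨F.comp (T.comp E), fun c hc => hT c ?_, fun K hKc hKi => ?_⟩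
  · ext1 y
    have h := congrArg (fun A : H →L[ℂ] H => E (A (F y))) hc
    simpa [hEF] using h
  · have key := hK (K.comap F.toLinearMap) (hKc.preimage F.continuous) fun A hA y hy => by
      have h := hKi (F.comp (A.comp E)) ?_ (F y) hy
      · simpa [Submodule.mem_comap, hEF] using h
      · ext1 x
        have e1 := congrArg (fun B => B (E x)) hA.eq
        simpa [hEF] using congrArg F e1
    rcases key with h | h
    · left
      refine (Submodule.eq_bot_iff K).2 fun x hx => ?_
      have h2 : E x ∈ K.comap F.toLinearMap := by simpa [Submodule.mem_comap, hFE] using hx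
      rw [h, Submodule.mem_bot] at h2
      rw [← hFE x, h2, map_zero]
    · right
      refine eq_top_iff.2 fun x _ => ?_
      have h2 : E x ∈ K.comap F.toLinearMap := h ▸ Submodule.mem_top
      simpa [Submodule.mem_comap, hFE] using h2

end Vale.Agent.P131
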